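import Vale.Agent.P116.S.Bas

/-! P116 S/Rect (TASK, owner helper20). Definitions in S/Defs. Helper names end with `_Rect`.
Rectangles. Volume: `Complex.volume_preserving_equiv_real_prod`, `Measure.prod_prod`, `Real.volume_Icc`. The exterior of a rectangle is the union of four half planes (convex),
consecutive ones meet (`IsPreconnected.union`). `exists_inner`: the continuous positive function `min (min re (1 - re)) (min im (1 - im))` has a minimum on `K`. -/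

open MeasureTheory Set Metric Filter Topology Complex
open scoped ENNReal ComplexConjugate

set_option linter.unusedVariables false

noncomputable section

namespace Vale.Agent.P116

open Vale.Agent.P128

variable {E : Set ℂ}

theorem vol_Rect {s t : Set ℝ} (hs : MeasurableSet s) (ht : MeasurableSet t) :
    volume (s ×ℂ t) = volume s * volume t := by
  have h : s ×ℂ t = Complex.measurableEquivRealProd ⁻¹' (s ×ˢ t) := by
    ext z
    simp [Complex.mem_reProdIm]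
  rw [h, Complex.volume_preserving_equiv_real_prod.measure_preimage
    (hs.prod ht).nullMeasurableSet, Measure.volume_eq_prod, Measure.prod_prod]

theorem cvx_Rect {s t : Set ℝ} (hs : Convex ℝ s) (ht : Convex ℝ t) : Convex ℝ (s ×ℂ t) := by
  rw [← convexHull_eq_self, Complex.convexHull_reProdIm, hs.convexHull_eq, ht.convexHull_eq]

theorem four_Rect {A B C D : Set ℂ} (hA : Convex ℝ A) (hB : Convex ℝ B) (hC : Convex ℝ C)
    (hD : Convex ℝ D) {x y z : ℂ} (xA : x ∈ A) (xB : x ∈ B) (yB : y ∈ B) (yC : y ∈ C)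
    (zC : z ∈ C) (zD : z ∈ D) : IsPreconnected (A ∪ B ∪ C ∪ D) :=
  IsPreconnected.union z (Or.inr zC) zD
    (IsPreconnected.union y (Or.inr yB) yC
      (IsPreconnected.union x xA xB hA.isPreconnected hB.isPreconnected) hC.isPreconnected)
    hD.isPreconnected

theorem vol_Icc (a b c d : ℝ) :
    volume (Icc a b ×ℂ Icc c d) = ENNReal.ofReal (b - a) * ENNReal.ofReal (d - c) := by
  rw [vol_Rect measurableSet_Icc measurableSet_Icc, Real.volume_Icc, Real.volume_Icc]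

theorem vol_Ioo (a b c d : ℝ) :
    volume (Ioo a b ×ℂ Ioo c d) = ENNReal.ofReal (b - a) * ENNReal.ofReal (d - c) := by
  rw [vol_Rect measurableSet_Ioo measurableSet_Ioo, Real.volume_Ioo, Real.volume_Ioo]

theorem vol_Q : volume Q = 1 := by
  rw [Q, vol_Ioo]
  simp

theorem vol_sqr (ζ : ℂ) (σ : ℝ) : volume (sqr ζ σ) = ENNReal.ofReal σ ^ 2 := by
  rw [sqr, vol_Icc, add_sub_cancel_left, add_sub_cancel_left, sq]

theorem cpt_rect (a b c d : ℝ) : IsCompact (Icc a b ×ℂ Icc c d) :=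
  isCompact_Icc.reProdIm isCompact_Icc

theorem cvx_Icc (a b c d : ℝ) : Convex ℝ (Icc a b ×ℂ Icc c d) :=
  cvx_Rect (convex_Icc a b) (convex_Icc c d)

theorem cvx_Ioo (a b c d : ℝ) : Convex ℝ (Ioo a b ×ℂ Ioo c d) :=
  cvx_Rect (convex_Ioo a b) (convex_Ioo c d)

theorem ext_Icc (a b c d : ℝ) : IsPreconnected (Icc a b ×ℂ Icc c d)ᶜ := by
  have h : (Icc a b ×ℂ Icc c d)ᶜ = {z : ℂ | z.re < a} ∪ {z : ℂ | z.im < c} ∪ {z : ℂ | b < z.re} ∪
      {z : ℂ | d < z.im} := by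
    ext z
    simp only [mem_compl_iff, Complex.mem_reProdIm, mem_Icc, mem_union, mem_ofPred_eq, ← not_le]
    tauto
  rw [h]
  refine four_Rect (convex_halfSpace_re_lt a) (convex_halfSpace_im_lt c) (convex_halfSpace_re_gt b)
    (convex_halfSpace_im_gt d) (x := ⟨a - 1, c - 1⟩) (y := ⟨b + 1, c - 1⟩) (z := ⟨b + 1, d + 1⟩)
    ?_ ?_ ?_ ?_ ?_ ?_ <;> simp

theorem ext_Ioo (a b c d : ℝ) : IsPreconnected (Ioo a b ×ℂ Ioo c d)ᶜ := by
  have h : (Ioo a b ×ℂ Ioo c d)ᶜ = {z : ℂ | z.re ≤ a} ∪ {z : ℂ | z.im ≤ c} ∪ {z : ℂ | b ≤ z.re} ∪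
      {z : ℂ | d ≤ z.im} := by
    ext z
    simp only [mem_compl_iff, Complex.mem_reProdIm, mem_Ioo, mem_union, mem_ofPred_eq, ← not_lt]
    tauto
  rw [h]
  refine four_Rect (convex_halfSpace_re_le a) (convex_halfSpace_im_le c) (convex_halfSpace_re_ge b)
    (convex_halfSpace_im_ge d) (x := ⟨a, c⟩) (y := ⟨b, c⟩) (z := ⟨b, d⟩)
    ?_ ?_ ?_ ?_ ?_ ?_ <;> simp

theorem exists_inner {K : Set ℂ} (hK : IsCompact K) (h : K ⊆ Q) :
    ∃ δ : ℝ, 0 < δ ∧ K ⊆ Icc δ (1 - δ) ×ℂ Icc δ (1 - δ) := by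
  rcases K.eq_empty_or_nonempty with rfl | hne
  · exact ⟨1, one_pos, empty_subset _⟩
  have hc : Continuous fun z : ℂ => min (min z.re (1 - z.re)) (min z.im (1 - z.im)) := by
    fun_prop
  obtain ⟨x, hx, hm⟩ := hK.exists_isMinOn hne hc.continuousOn
  obtain ⟨⟨x1, x2⟩, x3, x4⟩ := Complex.mem_reProdIm.1 (h hx)
  refine ⟨min (min x.re (1 - x.re)) (min x.im (1 - x.im)), ?_, fun z hz => ?_⟩
  · exact lt_min (lt_min x1 (sub_pos.2 x2)) (lt_min x3 (sub_pos.2 x4))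
  · have := isMinOn_iff.1 hm z hz
    generalize min (min x.re (1 - x.re)) (min x.im (1 - x.im)) = δ at this ⊢
    simp only [le_min_iff] at this
    obtain ⟨⟨a1, a2⟩, a3, a4⟩ := this
    exact Complex.mem_reProdIm.2 ⟨⟨a1, by linarith⟩, a3, by linarith⟩

theorem inner_sub {δ : ℝ} (h : 0 < δ) : Icc δ (1 - δ) ×ℂ Icc δ (1 - δ) ⊆ Q := by
  intro z hz
  obtain ⟨⟨x1, x2⟩, x3, x4⟩ := Complex.mem_reProdIm.1 hz
  exact Complex.mem_reProdIm.2 ⟨⟨by linarith, by linarith⟩, by linarith, by linarith⟩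

theorem sqr_sub_closure (ζ : ℂ) {σ : ℝ} (h : 0 < σ) : sqr ζ σ ⊆ closure (interior (sqr ζ σ)) := by
  rw [sqr, Complex.interior_reProdIm, Complex.closure_reProdIm, interior_Icc, interior_Icc,
    closure_Ioo (by linarith), closure_Ioo (by linarith)]

theorem dist_sqr {ζ y y' : ℂ} {σ : ℝ} (h : y ∈ sqr ζ σ) (h' : y' ∈ sqr ζ σ) : dist y y' ≤ 2 * σ := by
  obtain ⟨⟨x1, x2⟩, x3, x4⟩ := Complex.mem_reProdIm.1 h
  obtain ⟨⟨y1, y2⟩, y3, y4⟩ := Complex.mem_reProdIm.1 h'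
  rw [dist_eq_norm]
  refine (Complex.norm_le_abs_re_add_abs_im _).trans ?_
  have a1 : |(y - y').re| ≤ σ := by
    rw [Complex.sub_re, abs_le]
    constructor <;> linarith
  have a2 : |(y - y').im| ≤ σ := by
    rw [Complex.sub_im, abs_le]
    constructor <;> linarith
  linarith

theorem exists_not_mem {S : Set ℂ} {a b c d : ℝ} (hab : a ≤ b)
    (h : volume S < ENNReal.ofReal ((b - a) * (d - c))) :
    ∃ y ∈ Ioo a b, ∃ t ∈ Ioo c d, (⟨y, t⟩ : ℂ) ∉ S := by
  by_contra hn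
  refine h.not_ge ?_
  rw [ENNReal.ofReal_mul (sub_nonneg.2 hab), ← vol_Ioo]
  refine measure_mono fun z hz => ?_
  obtain ⟨x1, x2⟩ := Complex.mem_reProdIm.1 hz
  by_contra hz'
  exact hn ⟨z.re, x1, z.im, x2, hz'⟩

end Vale.Agent.P116
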