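import Vale.Agent.P116.S.Bas

/-! P116 S/Sat (TASK, owner helper20). Definitions in S/Defs. Helper names end with `_Sat`.
Saturated neighbourhoods. In the compact Hausdorff space `E` a component is the intersection of its clopen neighbourhoods (`connectedComponent_eq_iInter_isClopen`,
`connectedComponentIn_eq_image`); by compactness of `E \ V` there is a clopen `E₁` with `c ⊆ E₁ ⊆ V`; `E₁` and `E \ E₁` are compact in the plane; `exists_open_between_and_isCompact_closure` for
`E₁ ⊆ V \ (E \ E₁)`. `in_or`: `IsPreconnected.subset_or_subset` with `U` and the complement of the closure. `meets`: take `U'` from `sat` inside `U ∩ Q`; if `U' ⊆ E` then its frontier is empty, `U'` is clopen, nonempty, bounded. -/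

open MeasureTheory Set Metric Filter Topology Complex
open scoped ENNReal ComplexConjugate

set_option linter.unusedVariables false

noncomputable section

namespace Vale.Agent.P116

open Vale.Agent.P128

variable {E : Set ℂ}

theorem Cp.sat (hE : IsCompact E) (c : Cp E) {V : Set ℂ} (hV : IsOpen V) (h : c.1 ⊆ V) :
    ∃ U, IsOpen U ∧ c.1 ⊆ U ∧ closure U ⊆ V ∧ IsCompact (closure U) ∧ Disjoint (frontier U) E := by
  have : CompactSpace E := isCompact_iff_compactSpace.1 hE
  obtain ⟨x, hx⟩ : ∃ x : E, x = ⟨c.pt, c.pt_mem⟩ := ⟨_, rfl⟩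
  have hc : c.1 = Subtype.val '' connectedComponent x := by
    rw [hx, ← connectedComponentIn_eq_image c.pt_mem]
    exact c.eq
  have hK : IsCompact ((Subtype.val ⁻¹' V : Set E)ᶜ) :=
    (hV.preimage continuous_subtype_val).isClosed_compl.isCompact
  obtain ⟨u, hu⟩ := hK.elim_finite_subfamily_closed
    (fun s : {s : Set E // IsClopen s ∧ x ∈ s} => s.1) (fun s => s.2.1.isClosed) (by
      rw [← connectedComponent_eq_iInter_isClopen]
      exact eq_empty_of_forall_notMem fun y hy => hy.1 (h (hc ▸ mem_image_of_mem _ hy.2)))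
  have h1 : IsClopen (⋂ s ∈ u, s.1) := isClopen_biInter_finset fun s _ => s.2.1
  have h2 : x ∈ ⋂ s ∈ u, s.1 := mem_iInter₂.2 fun s _ => s.2.2
  generalize (⋂ s ∈ u, s.1) = E₁ at hu h1 h2
  have hA : IsCompact (Subtype.val '' E₁) := h1.isClosed.isCompact.image continuous_subtype_val
  have hB : IsCompact (Subtype.val '' E₁ᶜ) :=
    h1.compl.isClosed.isCompact.image continuous_subtype_val
  obtain ⟨U, u1, u2, u3, u4⟩ := exists_open_between_and_isCompact_closure hA
    (hV.sdiff hB.isClosed) (by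
      rintro _ ⟨y, hy, rfl⟩
      refine ⟨by_contra fun hn => ?_, ?_⟩
      · exact (hu ▸ (⟨hn, hy⟩ : y ∈ (Subtype.val ⁻¹' V : Set E)ᶜ ∩ E₁) : y ∈ (∅ : Set E))
      · rintro ⟨y', hy', e⟩
        exact hy' (Subtype.ext e ▸ hy))
  refine ⟨U, u1, ?_, u3.trans sdiff_subset, u4, disjoint_left.2 fun z hz hzE => ?_⟩
  · rw [hc]
    exact (image_mono (h1.connectedComponent_subset h2)).trans u2
  · rw [u1.frontier_eq] at hz
    by_cases h3 : (⟨z, hzE⟩ : E) ∈ E₁
    · exact hz.2 (u2 ⟨_, h3, rfl⟩)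
    · exact (u3 hz.1).2 ⟨_, h3, rfl⟩

theorem Cp.in_or (c : Cp E) {U : Set ℂ} (hU : IsOpen U) (hf : Disjoint (frontier U) E) :
    c.1 ⊆ U ∨ Disjoint c.1 (closure U) := by
  refine (c.pre.subset_or_subset hU isClosed_closure.isOpen_compl
    (disjoint_compl_right_iff_subset.2 subset_closure) fun z hz => ?_).imp id
      subset_compl_iff_disjoint_right.1
  by_cases h : z ∈ U
  · exact Or.inl h
  · refine Or.inr fun h1 => disjoint_left.1 hf ?_ (c.sub hz)
    rw [hU.frontier_eq]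
    exact ⟨h1, h⟩

theorem Cp.sep (hE : Dom E) {c c' : Cp E} (h : c ≠ c') : ∃ U, IsOpen U ∧ c.1 ⊆ U ∧
    Disjoint c'.1 (closure U) ∧ closure U ⊆ Q ∧ IsCompact (closure U) ∧ Disjoint (frontier U) E := by
  obtain ⟨U, u1, u2, u3, u4, u5⟩ := c.sat hE.cpt (isOpen_Q.sdiff (c'.cpt hE.cpt).isClosed)
    fun z hz => ⟨hE.sub (c.sub hz), fun hz' => h (Cp.ext_mem hz hz')⟩
  exact ⟨U, u1, u2, disjoint_left.2 fun z hz hz' => (u3 hz').2 hz, u3.trans sdiff_subset, u4, u5⟩

theorem Cp.meets (hE : Dom E) (c : Cp E) {U : Set ℂ} (hU : IsOpen U) (h : c.1 ⊆ U) :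
    ((U ∩ Q) \ E).Nonempty := by
  by_contra hn
  obtain ⟨W, u1, u2, u3, u4, u5⟩ := c.sat hE.cpt (hU.inter isOpen_Q)
    (subset_inter h (c.sub.trans hE.sub))
  have h1 : frontier W = ∅ := eq_empty_of_forall_notMem fun z hz =>
    hn ⟨z, u3 (frontier_subset_closure hz), disjoint_left.1 u5 hz⟩
  rcases isClopen_iff.1 (isClopen_iff_frontier_eq_empty.2 h1) with h2 | h2
  · exact (h2 ▸ u2 c.pt_in : c.pt ∈ (∅ : Set ℂ))
  · rw [h2, closure_univ] at u4
    exact noncompact_univ ℂ u4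

theorem Dom.nbhd (hE : Dom E) : ∃ U, IsOpen U ∧ E ⊆ U ∧ closure U ⊆ Q ∧ IsCompact (closure U) ∧
    Disjoint (frontier U) E := by
  obtain ⟨U, u1, u2, u3, u4⟩ := exists_open_between_and_isCompact_closure hE.cpt isOpen_Q hE.sub
  refine ⟨U, u1, u2, u3, u4, disjoint_left.2 fun z hz hzE => ?_⟩
  rw [u1.frontier_eq] at hz
  exact hz.2 (u2 hzE)

end Vale.Agent.P116
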