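import Vale.Agent.P116.S.TopB

/-! P116 S/Top (TASK, owner helper20). Definitions in S/Defs. Helper names end with `_Top`.
`dis`: `Cp.sep`, `sepU`. `cpt`: closed and inside the bounded set `R`. `cmp`: `⊇` by convexity (`IsPreconnected.subset_connectedComponentIn`); `⊆`: for a point of another square take `φ` from `Cp.sep`, `sepU`; on the union `φ ∈ {0, 1}` (`Cp.in_or`), `const_of_int`.
`null`: these points lie in the null set of `fill` (`sq_sub`, `off`, `dis`). -/

open MeasureTheory Set Metric Filter Topology Complex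
open scoped ENNReal ComplexConjugate

set_option linter.unusedVariables false

noncomputable section

namespace Vale.Agent.P116

open Vale.Agent.P128

variable {E : Set ℂ} {f : ℂ → ℂ} {ζ : Cp E → ℂ} {σ : Cp E → ℝ} {R : Set ℂ}

theorem phi_Top (hE : Dom E) (h : Pre E f ζ σ R) {c c' : Cp E} (hc : c ≠ c') :
    ∃ φ : ℂ → ℝ, Continuous φ ∧ (∀ y ∈ sqr (ζ c) (σ c), φ y = 1) ∧
      (∀ y ∈ sqr (ζ c') (σ c'), φ y = 0) ∧
      ∀ y ∈ ⋃ c, sqr (ζ c) (σ c), ∃ k : ℤ, φ y = k := by
  obtain ⟨U, hU, h1, h2, h3, h4, h5⟩ := Cp.sep hE hc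
  obtain ⟨φ, p0, p1, p2, -⟩ := h.sepU hE hU h4 h3 h5
  refine ⟨φ, p0, p1 c h1, p2 c' h2, fun y hy => ?_⟩
  obtain ⟨d, hd⟩ := mem_iUnion.1 hy
  rcases d.in_or hU h5 with e | e
  · exact ⟨1, by rw [p1 d e y hd, Int.cast_one]⟩
  · exact ⟨0, by rw [p2 d e y hd, Int.cast_zero]⟩

theorem dis_Top (hE : Dom E) (h : Pre E f ζ σ R) :
    Pairwise fun c c' => Disjoint (sqr (ζ c) (σ c)) (sqr (ζ c') (σ c')) := by
  intro c c' hc
  obtain ⟨φ, -, p1, p2, -⟩ := phi_Top hE h hc
  refine disjoint_left.2 fun y hy hy' => ?_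
  have := (p1 y hy).symm.trans (p2 y hy')
  exact one_ne_zero this

theorem mem_Top (ζ : ℂ) {σ : ℝ} (h : 0 ≤ σ) : ζ ∈ sqr ζ σ :=
  ⟨⟨le_rfl, by linarith⟩, ⟨le_rfl, by linarith⟩⟩

theorem Pre.out (hE : Dom E) (h : Pre E f ζ σ R) : Out E f ζ σ := by
  refine ⟨h.hol, h.inj hE, h.nn, h.summable, ?_, h.clu, dis_Top hE h, h.off hE, ?_, h.opn hE,
    fun c y hy => ?_, ?_⟩
  · exact ne_top_of_le_ne_top h.fin (le_self_add.trans h.en)
  · exact isCompact_of_isClosed_isBounded (h.closed hE)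
      (h.bdd.subset (iUnion_subset fun c => h.sq_sub hE c))
  · refine Subset.antisymm (fun y' hy' => ?_)
      ((cvx_Icc _ _ _ _).isPreconnected.subset_connectedComponentIn hy
        (subset_iUnion (fun c => sqr (ζ c) (σ c)) c))
    obtain ⟨c', hc'⟩ := mem_iUnion.1 (connectedComponentIn_subset _ _ hy')
    by_cases hc : c = c'
    · exact hc ▸ hc'
    · obtain ⟨φ, p0, p1, p2, p3⟩ := phi_Top hE h hc
      have := const_of_int isPreconnected_connectedComponentIn p0.continuousOn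
        (fun z hz => p3 z (connectedComponentIn_subset _ _ hz)) y
        (mem_connectedComponentIn (mem_iUnion.2 ⟨c, hy⟩)) y' hy'
      rw [p1 y hy, p2 y' hc'] at this
      exact absurd this one_ne_zero
  · refine measure_mono_null ?_ h.fill
    rintro _ ⟨c, hc, rfl⟩
    have hm := mem_Top (ζ c) (h.nn c)
    refine ⟨h.sq_sub hE c hm, ?_⟩
    rintro (h1 | h1)
    · exact disjoint_left.1 (h.off hE c) h1 hm
    · obtain ⟨c', h2, h3⟩ := mem_iUnion₂.1 h1
      have hne : c ≠ c' := by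
        rintro rfl
        exact (ne_of_gt h2) hc
      exact disjoint_left.1 (dis_Top hE h hne) hm h3

end Vale.Agent.P116
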