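import Vale.Agent.P116.S.Pre
import Vale.Agent.P116.S.Top

/-! P116 S/Main: step (5). -/

namespace Vale.Agent.P116

theorem step5 {E : Set ℂ} {μ : ℝ} {s w : ℕ → TF E} (hE : Dom E) (h : Seq E μ s w) :
    ∃ f ζ σ, Out E f ζ σ := by
  obtain ⟨f, ζ, σ, R, hP⟩ := h.pre hE
  exact ⟨f, ζ, σ, hP.out hE⟩

end Vale.Agent.P116
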