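import Vale.Agent.P116.S.Defs

/-! P116 S/Arg (TASK, owner helper20). Definitions in S/Defs. Helper names end with `_Arg`.
`IsOpen.exists_contDiff_support_eq` gives continuous `p ≥ 0` with support `Xp`, and so on; `Φ = ⟨p - m, p' - m'⟩` does not vanish; `Complex.exists_continuousOn_eqOn_exp_comp` on `univ`
(`Convex.isSimplyConnected` or the contractible instance) gives `Φ = exp L`, `θ = L.im` (`exp_re`, `exp_im`). `stay`: `IsPreconnected.intermediate_value`.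
`quad`: if `P` is empty take `univ` and `∅`. Otherwise shift `θ` by a multiple of `2 π` (`toIocMod`, or `Complex.arg (exp (θ I))`) so that `θ ∈ (-π/2, 0)` at a point of `P`, so on `P` (`stay`). `G₁ = {π / 2 < θ}`, `G₂ = {θ < -π}`;
`frontier_lt_subset_eq`; for `θ ∈ [-π, π/2]` one cannot have `cos θ < 0 < sin θ`. -/

open MeasureTheory Set Metric Filter Topology Complex
open scoped ENNReal ComplexConjugate

set_option linter.unusedVariables false

noncomputable section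

namespace Vale.Agent.P116

open Vale.Agent.P128

variable {E : Set ℂ}

theorem sgn_Arg {A B : Set ℂ} (hA : IsOpen A) (hB : IsOpen B) (h : Disjoint A B) :
    ∃ f : ℂ → ℝ, Continuous f ∧ ∀ z, (0 < f z ↔ z ∈ A) ∧ (f z < 0 ↔ z ∈ B) := by
  obtain ⟨p, sp, cp, rp⟩ := hA.exists_contDiff_support_eq (n := 0)
  obtain ⟨m, sm, cm, rm⟩ := hB.exists_contDiff_support_eq (n := 0)
  refine ⟨fun z => p z - m z, cp.continuous.sub cm.continuous, fun z => ?_⟩
  have p0 : 0 ≤ p z := (rp ⟨z, rfl⟩).1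
  have m0 : 0 ≤ m z := (rm ⟨z, rfl⟩).1
  have pA : p z ≠ 0 ↔ z ∈ A := by rw [← sp, Function.mem_support]
  have mB : m z ≠ 0 ↔ z ∈ B := by rw [← sm, Function.mem_support]
  have d : z ∈ A → z ∈ B → False := fun a b => disjoint_left.1 h a b
  refine ⟨⟨fun h => pA.1 (by linarith : 0 < p z).ne', fun h => ?_⟩,
    fun h => mB.1 (by linarith : 0 < m z).ne', fun h => ?_⟩
  · have e : m z = 0 := by_contra fun h' => d h (mB.1 h')
    have := p0.lt_of_ne' (pA.2 h)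
    linarith
  · have e : p z = 0 := by_contra fun h' => d (pA.1 h') h
    have := m0.lt_of_ne' (mB.2 h)
    linarith

theorem mul_Arg {e c : ℝ} (he : 0 < e) : (0 < c ↔ 0 < e * c) ∧ (c < 0 ↔ e * c < 0) :=
  ⟨(mul_pos_iff_of_pos_left he).symm, fun h => mul_neg_of_pos_of_neg he h,
    fun h => by_contra fun h' => (mul_nonneg he.le (not_lt.1 h')).not_gt h⟩

theorem exists_arg {Xp Xm Yp Ym : Set ℂ} (h1 : IsOpen Xp) (h2 : IsOpen Xm) (h3 : IsOpen Yp)
    (h4 : IsOpen Ym) (hX : Disjoint Xp Xm) (hY : Disjoint Yp Ym)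
    (cov : ∀ z, z ∈ Xp ∨ z ∈ Xm ∨ z ∈ Yp ∨ z ∈ Ym) : ∃ θ : ℂ → ℝ, Continuous θ ∧ ∀ z,
      (0 < Real.cos (θ z) ↔ z ∈ Xp) ∧ (Real.cos (θ z) < 0 ↔ z ∈ Xm) ∧
      (0 < Real.sin (θ z) ↔ z ∈ Yp) ∧ (Real.sin (θ z) < 0 ↔ z ∈ Ym) := by
  obtain ⟨f, cf, hf⟩ := sgn_Arg h1 h2 hX
  obtain ⟨g, cg, hg⟩ := sgn_Arg h3 h4 hY
  have sc : IsSimplyConnected (univ : Set ℂ) := by
    have := (convex_univ (𝕜 := ℝ) (E := ℂ)).contractibleSpace univ_nonempty
    exact (inferInstance : SimplyConnectedSpace (univ : Set ℂ))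
  have cΦ : Continuous fun z => (f z : ℂ) + g z * I := by fun_prop
  obtain ⟨L, cL, eL⟩ := exists_continuousOn_eqOn_exp_comp sc isOpen_univ cΦ.continuousOn (by
    rintro ⟨z, -, hz⟩
    have a : f z = 0 := by simpa using congrArg re hz
    have b : g z = 0 := by simpa using congrArg im hz
    rcases cov z with h | h | h | h
    · exact ((hf z).1.2 h).ne' a
    · exact ((hf z).2.2 h).ne a
    · exact ((hg z).1.2 h).ne' b
    · exact ((hg z).2.2 h).ne b)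
  refine ⟨fun z => (L z).im, continuous_im.comp (continuousOn_univ.1 cL), fun z => ?_⟩
  have e : exp (L z) = (f z : ℂ) + g z * I := eL (mem_univ z)
  have a : Real.exp (L z).re * Real.cos (L z).im = f z := by
    rw [← exp_re, e]
    simp
  have b : Real.exp (L z).re * Real.sin (L z).im = g z := by
    rw [← exp_im, e]
    simp
  have he := Real.exp_pos (L z).re
  rw [← (hf z).1, ← (hf z).2, ← (hg z).1, ← (hg z).2, ← a, ← b]
  exact ⟨(mul_Arg he).1, (mul_Arg he).2, (mul_Arg he).1, (mul_Arg he).2⟩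

theorem stay {θ : ℂ → ℝ} (hθ : Continuous θ) {P : Set ℂ} (hP : IsPreconnected P) {a b : ℝ}
    (h : ∀ z ∈ P, θ z ≠ a ∧ θ z ≠ b) {z₀ : ℂ} (h0 : z₀ ∈ P) (h1 : θ z₀ ∈ Ioo a b) :
    ∀ z ∈ P, θ z ∈ Ioo a b := by
  intro z hz
  constructor
  · by_contra hc
    obtain ⟨y, hy, e⟩ := hP.intermediate_value hz h0 hθ.continuousOn ⟨not_lt.1 hc, h1.1.le⟩
    exact (h y hy).1 e
  · by_contra hc
    obtain ⟨y, hy, e⟩ := hP.intermediate_value h0 hz hθ.continuousOn ⟨h1.2.le, not_lt.1 hc⟩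
    exact (h y hy).2 e

theorem exists_shift {x : ℝ} (h1 : 0 < Real.cos x) (h2 : Real.sin x < 0) :
    ∃ k : ℤ, x + k * (2 * Real.pi) ∈ Ioo (-(Real.pi / 2)) 0 := by
  obtain ⟨k, hk, -⟩ := existsUnique_add_zsmul_mem_Ioc Real.two_pi_pos x (-Real.pi)
  rw [zsmul_eq_mul] at hk
  rw [← Real.cos_add_int_mul_two_pi x k] at h1
  rw [← Real.sin_add_int_mul_two_pi x k] at h2
  have := Real.pi_pos
  refine ⟨k, ?_, ?_⟩
  · by_contra hc
    rw [← Real.cos_neg] at h1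
    exact (Real.cos_nonpos_of_pi_div_two_le_of_le (by linarith [not_lt.1 hc])
      (by linarith [hk.1])).not_gt h1
  · by_contra hc
    exact (Real.sin_nonneg_of_nonneg_of_le_pi (not_lt.1 hc) (by linarith [hk.2])).not_gt h2

theorem quad {Xp Xm Yp Ym P : Set ℂ} (h1 : IsOpen Xp) (h2 : IsOpen Xm) (h3 : IsOpen Yp)
    (h4 : IsOpen Ym) (hX : Disjoint Xp Xm) (hY : Disjoint Yp Ym)
    (cov : ∀ z, z ∈ Xp ∨ z ∈ Xm ∨ z ∈ Yp ∨ z ∈ Ym) (hP : IsPreconnected P) (hs : P ⊆ Xp ∩ Ym) :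
    ∃ G₁ G₂ : Set ℂ, IsOpen G₁ ∧ IsOpen G₂ ∧ G₁ ⊆ Pᶜ ∧ G₂ ⊆ Pᶜ ∧ Xm ∩ Yp ⊆ G₁ ∪ G₂ ∧
      frontier G₁ ⊆ Yp \ (Xp ∪ Xm) ∧ frontier G₂ ⊆ Xm \ (Yp ∪ Ym) := by
  rcases P.eq_empty_or_nonempty with rfl | ⟨z₀, h0⟩
  · exact ⟨univ, ∅, isOpen_univ, isOpen_empty, by simp, by simp, by simp, by simp, by simp⟩
  obtain ⟨θ₀, c₀, t₀⟩ := exists_arg h1 h2 h3 h4 hX hY cov
  obtain ⟨k, hk⟩ := exists_shift ((t₀ z₀).1.2 (hs h0).1) ((t₀ z₀).2.2.2.2 (hs h0).2)
  obtain ⟨θ, c, hz₀, t⟩ : ∃ θ : ℂ → ℝ, Continuous θ ∧ θ z₀ ∈ Ioo (-(Real.pi / 2)) 0 ∧ ∀ z,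
      (0 < Real.cos (θ z) ↔ z ∈ Xp) ∧ (Real.cos (θ z) < 0 ↔ z ∈ Xm) ∧
      (0 < Real.sin (θ z) ↔ z ∈ Yp) ∧ (Real.sin (θ z) < 0 ↔ z ∈ Ym) :=
    ⟨fun z => θ₀ z + k * (2 * Real.pi), c₀.add continuous_const, hk, fun z => by
      rw [Real.cos_add_int_mul_two_pi, Real.sin_add_int_mul_two_pi]
      exact t₀ z⟩
  have hπ := Real.pi_pos
  have st := stay c hP (fun z hz => ⟨fun e => by
      have := (t z).1.2 (hs hz).1
      rw [e, Real.cos_neg, Real.cos_pi_div_two] at this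
      exact this.false, fun e => by
      have := (t z).2.2.2.2 (hs hz).2
      rw [e, Real.sin_zero] at this
      exact this.false⟩) h0 hz₀
  refine ⟨{z | Real.pi / 2 < θ z}, {z | θ z < -Real.pi}, isOpen_lt continuous_const c,
    isOpen_lt c continuous_const, fun z hz hp => ?_, fun z hz hp => ?_, fun z hz => ?_,
    fun z hz => ?_, fun z hz => ?_⟩
  · have a : Real.pi / 2 < θ z := hz
    linarith [(st z hp).2]
  · have a : θ z < -Real.pi := hz
    linarith [(st z hp).1]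
  · by_contra hc
    have a : θ z ≤ Real.pi / 2 := not_lt.1 fun h => hc (Or.inl h)
    have b : -Real.pi ≤ θ z := not_lt.1 fun h => hc (Or.inr h)
    rcases le_total (θ z) 0 with h | h
    · exact (Real.sin_nonpos_of_nonpos_of_neg_pi_le h b).not_gt ((t z).2.2.1.2 hz.2)
    · exact (Real.cos_nonneg_of_mem_Icc ⟨by linarith, a⟩).not_gt ((t z).2.1.2 hz.1)
  · have e : Real.pi / 2 = θ z := frontier_lt_subset_eq continuous_const c hz
    have t' := t z
    rw [← e, Real.cos_pi_div_two, Real.sin_pi_div_two] at t'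
    exact ⟨t'.2.2.1.1 one_pos, fun h => h.elim (fun h => (t'.1.2 h).false)
      fun h => (t'.2.1.2 h).false⟩
  · have e : θ z = -Real.pi := frontier_lt_subset_eq c continuous_const hz
    have t' := t z
    rw [e, Real.cos_neg, Real.sin_neg, Real.cos_pi, Real.sin_pi, neg_zero] at t'
    exact ⟨t'.2.1.1 (by norm_num), fun h => h.elim (fun h => (t'.2.2.1.2 h).false)
      fun h => (t'.2.2.2.2 h).false⟩

end Vale.Agent.P116
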