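import Vale.Agent.P116.S.Bas

/-! P116 S/L2 (TASK, owner helper20). Definitions in S/Defs. Helper names end with `_L2`.
Work in `Lp ℂ 2 ν` with `MemLp.toLp`; `‖toLp g‖² = ∫ ‖g‖²` (`L2.inner_def`, `MemLp.eLpNorm_eq_integral_rpow_norm`, or `inner_self`); `Metric.cauchy_iff`, `CompleteSpace.complete` for `map .. UF`.
`l2_pair`: `‖∫ (g n - G) h‖ ≤ √∫ ‖g n - G‖² √∫ ‖h‖²` (`integral_mul_le_Lp_mul_Lq`, or `2 x y ≤ t x² + y² / t`). -/

open MeasureTheory Set Metric Filter Topology Complex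
open scoped ENNReal ComplexConjugate

set_option linter.unusedVariables false

noncomputable section

namespace Vale.Agent.P116

open Vale.Agent.P128

variable {E : Set ℂ} {ν : Measure ℂ}

theorem nsq_L2 {F : Type} [NormedAddCommGroup F] [InnerProductSpace ℝ F] {g : ℂ → F}
    (hg : MemLp g 2 ν) : ‖hg.toLp g‖ ^ 2 = ∫ z, ‖g z‖ ^ 2 ∂ν := by
  rw [← real_inner_self_eq_norm_sq, L2.inner_def]
  refine integral_congr_ae (hg.coeFn_toLp.mono fun z hz => ?_)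
  simp only [hz, real_inner_self_eq_norm_sq]

theorem dist_L2 {g G : ℂ → ℂ} (hg : MemLp g 2 ν) (hG : MemLp G 2 ν) :
    ‖hg.toLp g - hG.toLp G‖ = √(∫ z, ‖g z - G z‖ ^ 2 ∂ν) := by
  have h1 := nsq_L2 (hg.sub hG)
  simp only [Pi.sub_apply] at h1
  rw [← MemLp.toLp_sub, ← h1, Real.sqrt_sq (norm_nonneg _)]

theorem tend_L2 {g : ℕ → ℂ → ℂ} {G : ℂ → ℂ} (hg : ∀ n, MemLp (g n) 2 ν) (hG : MemLp G 2 ν)
    (h : Tendsto (fun n => ∫ z, ‖g n z - G z‖ ^ 2 ∂ν) UF (𝓝 0)) :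
    Tendsto (fun n => (hg n).toLp (g n)) UF (𝓝 (hG.toLp G)) := by
  rw [tendsto_iff_norm_sub_tendsto_zero]
  simp only [dist_L2]
  simpa only [Real.sqrt_zero] using h.sqrt

theorem pair_L2 {g k : ℂ → ℂ} (hg : MemLp g 2 ν) (hk : MemLp (fun z => conj (k z)) 2 ν) :
    inner ℂ (hk.toLp _) (hg.toLp g) = ∫ z, g z * k z ∂ν := by
  rw [L2.inner_def]
  refine integral_congr_ae ?_
  filter_upwards [hg.coeFn_toLp, hk.coeFn_toLp] with z h1 h2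
  rw [h1, h2, RCLike.inner_apply, Complex.conj_conj]

theorem cs_L2 {a b : ℂ → ℝ} (ha : MemLp a 2 ν) (hb : MemLp b 2 ν) :
    ∫ z, a z * b z ∂ν ≤ √(∫ z, a z ^ 2 ∂ν) * √(∫ z, b z ^ 2 ∂ν) := by
  have h1 := nsq_L2 ha
  have h2 := nsq_L2 hb
  simp only [Real.norm_eq_abs, sq_abs] at h1 h2
  rw [← h1, ← h2, Real.sqrt_sq (norm_nonneg _), Real.sqrt_sq (norm_nonneg _)]
  refine le_trans (le_of_eq ?_) (real_inner_le_norm _ _)
  rw [L2.inner_def]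
  refine integral_congr_ae ?_
  filter_upwards [ha.coeFn_toLp, hb.coeFn_toLp] with z h3 h4
  rw [h3, h4, RCLike.inner_apply, conj_trivial, mul_comm]

theorem int_L2 {g g' : ℂ → ℂ} (hg : MemLp g 2 ν) (hg' : MemLp g' 2 ν) {q : ℂ → ℂ → ℝ} {C : ℝ}
    (hq : Continuous fun p : ℂ × ℂ => q p.1 p.2) (h0 : q 0 0 = 0)
    (hC : ∀ x y x' y', |q x y - q x' y'| ≤
      C * (‖x - x'‖ + ‖y - y'‖) * (‖x‖ + ‖y‖ + ‖x'‖ + ‖y'‖)) :
    Integrable (fun z => q (g z) (g' z)) ν := by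
  refine ((hg.norm.add hg'.norm).integrable_sq.const_mul C).mono'
    (hq.comp_aestronglyMeasurable (hg.1.prodMk hg'.1)) (Eventually.of_forall fun z => ?_)
  have h1 := hC (g z) (g' z) 0 0
  simp only [h0, sub_zero, norm_zero, add_zero] at h1
  rw [Real.norm_eq_abs, Pi.add_apply, sq, ← mul_assoc]
  exact h1

theorem bd_L2 {g g' G G' : ℂ → ℂ} (hg : MemLp g 2 ν) (hg' : MemLp g' 2 ν) (hG : MemLp G 2 ν)
    (hG' : MemLp G' 2 ν) {q : ℂ → ℂ → ℝ} {C : ℝ}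
    (hq : Continuous fun p : ℂ × ℂ => q p.1 p.2) (h0 : q 0 0 = 0)
    (hC : ∀ x y x' y', |q x y - q x' y'| ≤
      C * (‖x - x'‖ + ‖y - y'‖) * (‖x‖ + ‖y‖ + ‖x'‖ + ‖y'‖)) :
    ‖∫ z, q (g z) (g' z) ∂ν - ∫ z, q (G z) (G' z) ∂ν‖ ≤
      |C| * (∫ z, (‖g z - G z‖ + ‖g' z - G' z‖) ^ 2 ∂ν +
        2 * (√(∫ z, (‖g z - G z‖ + ‖g' z - G' z‖) ^ 2 ∂ν) * √(∫ z, (‖G z‖ + ‖G' z‖) ^ 2 ∂ν))) := by
  have ha : MemLp (fun z => ‖g z - G z‖ + ‖g' z - G' z‖) 2 ν :=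
    (hg.sub hG).norm.add (hg'.sub hG').norm
  have hb : MemLp (fun z => ‖G z‖ + ‖G' z‖) 2 ν := hG.norm.add hG'.norm
  have i1 := ha.integrable_sq
  have i2 : Integrable (fun z => 2 * ((‖g z - G z‖ + ‖g' z - G' z‖) * (‖G z‖ + ‖G' z‖))) ν :=
    (ha.integrable_mul hb).const_mul 2
  rw [← integral_sub (int_L2 hg hg' hq h0 hC) (int_L2 hG hG' hq h0 hC)]
  refine (norm_integral_le_of_norm_le ((i1.add i2).const_mul |C|)
    (Eventually.of_forall fun z => ?_)).trans ?_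
  · refine (hC _ _ _ _).trans ?_
    have e1 := norm_le_norm_sub_add (g z) (G z)
    have e2 := norm_le_norm_sub_add (g' z) (G' z)
    rw [mul_assoc]
    refine (mul_le_mul_of_nonneg_right (le_abs_self C) (by positivity)).trans
      (mul_le_mul_of_nonneg_left ?_ (abs_nonneg C))
    simp only [Pi.add_apply]
    have e3 : 0 ≤ ‖g z - G z‖ + ‖g' z - G' z‖ := by positivity
    nlinarith [mul_le_mul_of_nonneg_left (add_le_add e1 e2) e3]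
  · simp only [Pi.add_apply]
    rw [integral_const_mul, integral_add i1 i2, integral_const_mul]
    have := cs_L2 ha hb
    exact mul_le_mul_of_nonneg_left (by linarith) (abs_nonneg C)

theorem l2_lim {g : ℕ → ℂ → ℂ} (hg : ∀ n, MemLp (g n) 2 ν)
    (hc : ∀ ε : ℝ, 0 < ε → ∃ S ∈ UF, ∀ n ∈ S, ∀ m ∈ S, ∫ z, ‖g n z - g m z‖ ^ 2 ∂ν ≤ ε) :
    ∃ G, MemLp G 2 ν ∧ Tendsto (fun n => ∫ z, ‖g n z - G z‖ ^ 2 ∂ν) UF (𝓝 0) := by
  have h1 : Cauchy (map (fun n => (hg n).toLp (g n)) UF) := by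
    refine Metric.cauchy_iff.2 ⟨UF_ne.map _, fun ε hε => ?_⟩
    obtain ⟨S, hS, h⟩ := hc ((ε / 2) ^ 2) (by positivity)
    refine ⟨_, image_mem_map hS, ?_⟩
    rintro _ ⟨n, hn, rfl⟩ _ ⟨m, hm, rfl⟩
    rw [dist_eq_norm, dist_L2]
    exact (Real.sqrt_le_iff.2 ⟨by positivity, h n hn m hm⟩).trans_lt (half_lt_self hε)
  obtain ⟨x, hx⟩ := CompleteSpace.complete h1
  refine ⟨x, Lp.memLp x, ?_⟩
  have h2 : Tendsto (fun n => (hg n).toLp (g n)) UF (𝓝 ((Lp.memLp x).toLp x)) := by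
    rw [Lp.toLp_coeFn]
    exact hx
  have h3 := (tendsto_iff_norm_sub_tendsto_zero.1 h2).pow 2
  rw [zero_pow two_ne_zero] at h3
  refine h3.congr fun n => ?_
  rw [dist_L2, Real.sq_sqrt (integral_nonneg fun z => sq_nonneg _)]

theorem l2_pair {g : ℕ → ℂ → ℂ} {G k : ℂ → ℂ} (hg : ∀ n, MemLp (g n) 2 ν) (hG : MemLp G 2 ν)
    (hk : MemLp k 2 ν) (h : Tendsto (fun n => ∫ z, ‖g n z - G z‖ ^ 2 ∂ν) UF (𝓝 0)) :
    Tendsto (fun n => ∫ z, g n z * k z ∂ν) UF (𝓝 (∫ z, G z * k z ∂ν)) := by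
  have hk' : MemLp (fun z => conj (k z)) 2 ν :=
    hk.of_le (Complex.continuous_conj.comp_aestronglyMeasurable hk.1)
      (Eventually.of_forall fun z => (Complex.norm_conj _).le)
  have h1 := (tendsto_const_nhds (x := hk'.toLp _)).inner (𝕜 := ℂ) (tend_L2 hg hG h)
  simpa only [pair_L2] using h1

theorem l2_unique {g : ℕ → ℂ → ℂ} {G G' : ℂ → ℂ} (hg : ∀ n, MemLp (g n) 2 ν) (hG : MemLp G 2 ν)
    (hG' : MemLp G' 2 ν) (h : Tendsto (fun n => ∫ z, ‖g n z - G z‖ ^ 2 ∂ν) UF (𝓝 0))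
    (h' : Tendsto (fun n => ∫ z, ‖g n z - G' z‖ ^ 2 ∂ν) UF (𝓝 0)) : G =ᵐ[ν] G' := by
  have := UF_ne
  exact (hG.toLp_eq_toLp_iff hG').1 (tendsto_nhds_unique (tend_L2 hg hG h) (tend_L2 hg hG' h'))

theorem l2_quad {g g' : ℕ → ℂ → ℂ} {G G' : ℂ → ℂ} (hg : ∀ n, MemLp (g n) 2 ν)
    (hg' : ∀ n, MemLp (g' n) 2 ν) (hG : MemLp G 2 ν) (hG' : MemLp G' 2 ν)
    (h : Tendsto (fun n => ∫ z, ‖g n z - G z‖ ^ 2 ∂ν) UF (𝓝 0))
    (h' : Tendsto (fun n => ∫ z, ‖g' n z - G' z‖ ^ 2 ∂ν) UF (𝓝 0)) {q : ℂ → ℂ → ℝ} {C : ℝ}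
    (hq : Continuous fun p : ℂ × ℂ => q p.1 p.2) (h0 : q 0 0 = 0)
    (hC : ∀ x y x' y', |q x y - q x' y'| ≤
      C * (‖x - x'‖ + ‖y - y'‖) * (‖x‖ + ‖y‖ + ‖x'‖ + ‖y'‖)) :
    Tendsto (fun n => ∫ z, q (g n z) (g' n z) ∂ν) UF (𝓝 (∫ z, q (G z) (G' z) ∂ν)) := by
  have h1 : Tendsto (fun n => ∫ z, (‖g n z - G z‖ + ‖g' n z - G' z‖) ^ 2 ∂ν) UF (𝓝 0) := by
    have h2 := (h.const_mul 2).add (h'.const_mul 2)
    rw [mul_zero, add_zero] at h2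
    refine squeeze_zero (fun n => integral_nonneg fun z => sq_nonneg _) (fun n => ?_) h2
    have i1 : Integrable (fun z => 2 * ‖g n z - G z‖ ^ 2) ν :=
      ((hg n).sub hG).norm.integrable_sq.const_mul 2
    have i2 : Integrable (fun z => 2 * ‖g' n z - G' z‖ ^ 2) ν :=
      ((hg' n).sub hG').norm.integrable_sq.const_mul 2
    rw [← integral_const_mul, ← integral_const_mul, ← integral_add i1 i2]
    refine integral_mono_of_nonneg (Eventually.of_forall fun z => sq_nonneg _) (i1.add i2)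
      (Eventually.of_forall fun z => ?_)
    simp only
    nlinarith [sq_nonneg (‖g n z - G z‖ - ‖g' n z - G' z‖)]
  have h3 := (h1.add ((h1.sqrt.mul_const √(∫ z, (‖G z‖ + ‖G' z‖) ^ 2 ∂ν)).const_mul 2)).const_mul |C|
  rw [Real.sqrt_zero, zero_mul, mul_zero, add_zero, mul_zero] at h3
  rw [tendsto_iff_norm_sub_tendsto_zero]
  exact squeeze_zero (fun n => norm_nonneg _) (fun n => bd_L2 (hg n) (hg' n) hG hG' hq h0 hC) h3

theorem TF.Fn.memLp {a : TF E} (h : a.Fn) {A : Set ℂ} (hA : A ⊆ Q \ E) :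
    MemLp (fun z => conj (gr a.hi z)) 2 (volume.restrict A) := by
  refine (memLp_two_iff_integrable_sq_norm (Complex.continuous_conj.measurable.comp
    (EARN.measurable_gr a.hi).1).aestronglyMeasurable).2 ?_
  simp only [Function.comp, Complex.norm_conj]
  exact h.1.mono_set hA

theorem memLp_cont {G : ℂ → ℂ} {K : Set ℂ} (hK : IsCompact K) (h : ContinuousOn G K) :
    MemLp G 2 (volume.restrict K) := by
  exact (memLp_two_iff_integrable_sq_norm (h.aestronglyMeasurable hK.measurableSet)).2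
    ((h.norm.pow 2).integrableOn_compact hK)

end Vale.Agent.P116
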