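import Vale.Agent.P116.S.Defs

/-! P116 S/Lip (TASK, owner helper20). Definitions in S/Defs. Helper names end with `_Lip`.
`ae_diff`: `LipschitzOnWith.ae_differentiableWithinAt_of_mem` on countably many balls (`TopologicalSpace.countable_cover_nhdsWithin`, `ae_ball_iff`). Null sets have null images:
`LipschitzOnWith.hausdorffMeasure_image_le` with `μH[finrank]` a Haar measure (`Measure.isAddHaarMeasure_hausdorffMeasure`, `absolutelyContinuous_isAddHaarMeasure`), again on countably many pieces.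
On the set of differentiability (`measurableSet_of_differentiableAt`) use `addHaar_image_le_lintegral_abs_det_fderiv`. Determinant in the basis `basisOneI` (`LinearMap.det_toMatrix`, `Matrix.det_fin_two`). -/

open MeasureTheory Set Metric Filter Topology Complex
open scoped ENNReal ComplexConjugate

set_option linter.unusedVariables false

noncomputable section

namespace Vale.Agent.P116

open Vale.Agent.P128

variable {E : Set ℂ}

theorem cover_Lip {F : Type} [PseudoEMetricSpace F] {O : Set ℂ} {g : ℂ → F} (hO : IsOpen O)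
    (hg : LocallyLipschitzOn O g) : ∃ (T : Set ℂ) (t : ℂ → Set ℂ), T.Countable ∧ O ⊆ ⋃ x ∈ T, t x ∧
      ∀ x ∈ T, IsOpen (t x) ∧ ∃ K, LipschitzOnWith K g (t x) := by
  have hg' : ∀ x ∈ O, ∃ K, ∃ t ∈ 𝓝[O] x, LipschitzOnWith K g t := fun x hx => hg hx
  choose! K t ht hK using hg'
  obtain ⟨T, h1, h2, h3⟩ := TopologicalSpace.countable_cover_nhdsWithin (s := O)
    (f := fun x => interior (t x)) fun x hx => mem_nhdsWithin_of_mem_nhds
      (interior_mem_nhds.2 (hO.nhdsWithin_eq hx ▸ ht x hx))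
  exact ⟨T, fun x => interior (t x), h2, h3,
    fun x hx => ⟨isOpen_interior, K x, (hK x (h1 hx)).mono interior_subset⟩⟩

theorem null_Lip {O A : Set ℂ} {g : ℂ → ℂ} (hO : IsOpen O) (hg : LocallyLipschitzOn O g)
    (hAO : A ⊆ O) (h0 : volume A = 0) : volume (g '' A) = 0 := by
  obtain ⟨T, t, h1, h2, h3⟩ := cover_Lip hO hg
  refine measure_mono_null (t := ⋃ x ∈ T, g '' (A ∩ t x)) ?_
    ((measure_biUnion_null_iff h1).2 fun x hx => ?_)
  · rintro _ ⟨z, hz, rfl⟩
    obtain ⟨x, hx, h4⟩ := mem_iUnion₂.1 (h2 (hAO hz))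
    exact mem_iUnion₂.2 ⟨x, hx, z, ⟨hz, h4⟩, rfl⟩
  · obtain ⟨K, hK⟩ := (h3 x hx).2
    have h4 := (hK.mono (inter_subset_right (s := A))).hausdorffMeasure_image_le
      (d := Module.finrank ℝ ℂ) (Nat.cast_nonneg _)
    rw [Measure.absolutelyContinuous_isAddHaarMeasure
      (Measure.hausdorffMeasure (Module.finrank ℝ ℂ)) volume
      (measure_mono_null inter_subset_left h0), mul_zero] at h4
    exact Measure.absolutelyContinuous_isAddHaarMeasure volume _ (nonpos_iff_eq_zero.1 h4)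

theorem det_Lip (L : ℂ →L[ℝ] ℂ) : L.det = (L 1).re * (L I).im - (L I).re * (L 1).im := by
  rw [ContinuousLinearMap.det, ← LinearMap.det_toMatrix basisOneI, Matrix.det_fin_two]
  simp [LinearMap.toMatrix_apply]

theorem ae_diff {F : Type} [NormedAddCommGroup F] [NormedSpace ℝ F] [FiniteDimensional ℝ F]
    {O : Set ℂ} {g : ℂ → F} (hO : IsOpen O) (hg : LocallyLipschitzOn O g) :
    ∀ᵐ z, z ∈ O → DifferentiableAt ℝ g z := by
  obtain ⟨T, t, h1, h2, h3⟩ := cover_Lip hO hg
  have h4 : ∀ᵐ z, ∀ x ∈ T, z ∈ t x → DifferentiableWithinAt ℝ g (t x) z :=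
    (ae_ball_iff h1).2 fun x hx => (h3 x hx).2.choose_spec.ae_differentiableWithinAt_of_mem
  filter_upwards [h4] with z hz hzO
  obtain ⟨x, hx, h5⟩ := mem_iUnion₂.1 (h2 hzO)
  exact (hz x hx h5).differentiableAt ((h3 x hx).1.mem_nhds h5)

theorem vol_image_le {O A : Set ℂ} {g : ℂ → ℂ} (hO : IsOpen O) (hg : LocallyLipschitzOn O g)
    (hA : MeasurableSet A) (hAO : A ⊆ O) :
    volume (g '' A) ≤ ∫⁻ z in A, ENNReal.ofReal |(fderiv ℝ g z).det| := by
  have h1 : volume (A \ {z | DifferentiableAt ℝ g z}) = 0 :=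
    measure_mono_null (t := {z | ¬ (z ∈ O → DifferentiableAt ℝ g z)})
      (fun z hz h => hz.2 (h (hAO hz.1))) (ae_iff.1 (ae_diff hO hg))
  rw [← inter_union_diff A {z | DifferentiableAt ℝ g z}, image_union, inter_union_diff]
  refine (measure_union_le _ _).trans ?_
  rw [null_Lip hO hg (diff_subset.trans hAO) h1, add_zero]
  exact (addHaar_image_le_lintegral_abs_det_fderiv volume
    (hA.inter (measurableSet_of_differentiableAt ℝ g))
    fun z hz => hz.2.hasFDerivAt.hasFDerivWithinAt).trans (lintegral_mono_set inter_subset_left)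

theorem vol_pair_le {O A : Set ℂ} {u v : ℂ → ℝ} (hO : IsOpen O) (hu : LocallyLipschitzOn O u)
    (hv : LocallyLipschitzOn O v) (hA : MeasurableSet A) (hAO : A ⊆ O) :
    volume ((fun z => (⟨u z, v z⟩ : ℂ)) '' A) ≤ ∫⁻ z in A, ENNReal.ofReal |jac u v z| := by
  have h1 : LocallyLipschitzOn O fun z => (⟨u z, v z⟩ : ℂ) := fun z hz => by
    obtain ⟨K, t, ht, hK⟩ := hu hz
    obtain ⟨K', t', ht', hK'⟩ := hv hz
    exact ⟨_, t ∩ t', inter_mem ht ht', equivRealProdCLM.symm.lipschitz.comp_lipschitzOnWith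
      ((hK.mono inter_subset_left).prodMk (hK'.mono inter_subset_right))⟩
  refine (vol_image_le hO h1 hA hAO).trans (lintegral_congr_ae ?_).le
  filter_upwards [ae_restrict_mem hA, ae_restrict_of_ae (ae_diff hO hu),
    ae_restrict_of_ae (ae_diff hO hv)] with z hz a1 a2
  have h2 : HasFDerivAt (fun z => (⟨u z, v z⟩ : ℂ)) _ z :=
    equivRealProdCLM.symm.hasFDerivAt.comp z
      ((a1 (hAO hz)).hasFDerivAt.prodMk (a2 (hAO hz)).hasFDerivAt)
  rw [h2.fderiv, det_Lip]
  refine congrArg (fun t : ℝ => ENNReal.ofReal |t|) ?_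
  simp [jac, gr, equivRealProdCLM_symm_apply]
  ring

theorem abs_jac_le (u v : ℂ → ℝ) (z : ℂ) : |jac u v z| ≤ ‖gr u z‖ * ‖gr v z‖ := by
  refine (abs_im_le_norm _).trans_eq ?_
  rw [norm_mul, RCLike.norm_conj]

theorem measurable_jac (u v : ℂ → ℝ) : Measurable (jac u v) := by
  exact measurable_im.comp
    ((continuous_conj.measurable.comp (EARN.measurable_gr u).1).mul (EARN.measurable_gr v).1)

theorem vol_pair_cs {O A : Set ℂ} {u v : ℂ → ℝ} (hO : IsOpen O) (hu : LocallyLipschitzOn O u)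
    (hv : LocallyLipschitzOn O v) (hA : MeasurableSet A) (hAO : A ⊆ O)
    (iu : IntegrableOn (fun z => ‖gr u z‖ ^ 2) A) (iv : IntegrableOn (fun z => ‖gr v z‖ ^ 2) A) :
    volume ((fun z => (⟨u z, v z⟩ : ℂ)) '' A) ≤
      ENNReal.ofReal (√(∫ z in A, ‖gr u z‖ ^ 2) * √(∫ z in A, ‖gr v z‖ ^ 2)) := by
  have mu := (EARN.measurable_gr u).1.norm.aestronglyMeasurable (μ := volume.restrict A)
  have mv := (EARN.measurable_gr v).1.norm.aestronglyMeasurable (μ := volume.restrict A)
  have h1 := (memLp_two_iff_integrable_sq mu).2 iu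
  have h2 := (memLp_two_iff_integrable_sq mv).2 iv
  have h3 := integral_mul_le_Lp_mul_Lq_of_nonneg (μ := volume.restrict A) Real.HolderConjugate.two_two
    (f := fun z => ‖gr u z‖) (g := fun z => ‖gr v z‖) (ae_of_all _ fun z => norm_nonneg _)
    (ae_of_all _ fun z => norm_nonneg _) (by simpa using h1) (by simpa using h2)
  simp only [Real.rpow_two, ← Real.sqrt_eq_rpow] at h3
  refine (vol_pair_le hO hu hv hA hAO).trans ((lintegral_mono fun z =>
    ENNReal.ofReal_le_ofReal (abs_jac_le u v z)).trans ?_)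
  rw [← ofReal_integral_eq_lintegral_ofReal (f := fun z => ‖gr u z‖ * ‖gr v z‖)
    (h1.integrable_mul h2)
    (ae_of_all _ fun z => mul_nonneg (norm_nonneg _) (norm_nonneg _))]
  exact ENNReal.ofReal_le_ofReal h3

theorem vol_holo_le {O A : Set ℂ} {f : ℂ → ℂ} (hO : IsOpen O) (hf : DifferentiableOn ℂ f O)
    (hA : MeasurableSet A) (hAO : A ⊆ O) : volume (f '' A) ≤ ∫⁻ z in A, ‖deriv f z‖ₑ ^ 2 := by
  refine (addHaar_image_le_lintegral_abs_det_fderiv volume hA fun z hz =>
    ((hf.differentiableAt (hO.mem_nhds (hAO hz))).hasDerivAt.hasFDerivAt.restrictScalars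
      ℝ).hasFDerivWithinAt).trans (lintegral_congr fun z => ?_).le
  rw [det_Lip, ← ofReal_norm_eq_enorm, ← ENNReal.ofReal_pow (norm_nonneg _), Complex.sq_norm,
    ← abs_of_nonneg (normSq_nonneg (deriv f z)), normSq_apply]
  simp

end Vale.Agent.P116
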