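import Vale.Agent.P116.S.Arg
import Vale.Agent.P116.S.Rect

/-! P116 S/Cover (TASK, owner helper20). Definitions in S/Defs. Helper names end with `_Cover`.
Suppose `ζ ∈ Q` is not in `img`. Let `k z = ⟨max 0 (min 1 z.re), max 0 (min 1 z.im)⟩` (continuous, values in `Qc`); `Xp = {ζ.re < a.lo (k z)}`, `Xm = {a.hi (k z) < ζ.re}`, the same with `b`, `ζ.im`.
They are open (semicontinuity composed with `k`) and cover (on the boundary of the square `lo = hi ∈ {0, 1}` for one of the functions). `exists_arg`; shift `θ` so that `θ 1 ∈ (-π/2, 0)` (corner `1`, `exists_shift`); `stay` on the four sides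
(convex sets): right side `(-π/2, π/2)`, so `θ (1 + I) ∈ (0, π/2)`; top `(0, π)`, so `θ I ∈ (π/2, π)`; left `(π/2, 3π/2)`, so `θ 0 ∈ (π, 3π/2)`; bottom `(π, 2π)`: contradiction at `1`. -/

open MeasureTheory Set Metric Filter Topology Complex
open scoped ENNReal ComplexConjugate

set_option linter.unusedVariables false

noncomputable section

namespace Vale.Agent.P116

open Vale.Agent.P128

variable {E : Set ℂ}

theorem wind_Cover {θ : ℂ → ℝ} (hθ : Continuous θ)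
    (hR : ∀ z ∈ Icc (1 : ℝ) 1 ×ℂ Icc (0 : ℝ) 1, 0 < Real.cos (θ z))
    (hT : ∀ z ∈ Icc (0 : ℝ) 1 ×ℂ Icc (1 : ℝ) 1, 0 < Real.sin (θ z))
    (hL : ∀ z ∈ Icc (0 : ℝ) 0 ×ℂ Icc (0 : ℝ) 1, Real.cos (θ z) < 0)
    (hB : ∀ z ∈ Icc (0 : ℝ) 1 ×ℂ Icc (0 : ℝ) 0, Real.sin (θ z) < 0)
    (h1 : θ ⟨1, 0⟩ ∈ Ioo (-(Real.pi / 2)) 0) : False := by
  have hpi := Real.pi_pos
  have m0 : (0 : ℝ) ∈ Icc (0 : ℝ) 1 := ⟨le_rfl, zero_le_one⟩
  have m1 : (1 : ℝ) ∈ Icc (0 : ℝ) 1 := ⟨zero_le_one, le_rfl⟩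
  have n0 : (0 : ℝ) ∈ Icc (0 : ℝ) 0 := ⟨le_rfl, le_rfl⟩
  have n1 : (1 : ℝ) ∈ Icc (1 : ℝ) 1 := ⟨le_rfl, le_rfl⟩
  have a1 := stay hθ (cvx_Icc 1 1 0 1).isPreconnected (a := -(Real.pi / 2)) (b := Real.pi / 2)
    (fun z hz => ⟨fun e => by simpa [e] using hR z hz, fun e => by simpa [e] using hR z hz⟩)
    (z₀ := ⟨1, 0⟩) ⟨n1, m0⟩ ⟨h1.1, by linarith [h1.2]⟩ ⟨1, 1⟩ ⟨n1, m1⟩
  have a2 : 0 < θ ⟨1, 1⟩ := not_le.1 fun h => not_le.2 (hT ⟨1, 1⟩ ⟨m1, n1⟩)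
    (Real.sin_nonpos_of_nonpos_of_neg_pi_le h (by linarith [a1.1]))
  have a3 := stay hθ (cvx_Icc 0 1 1 1).isPreconnected (a := 0) (b := Real.pi)
    (fun z hz => ⟨fun e => by simpa [e] using hT z hz, fun e => by simpa [e] using hT z hz⟩)
    (z₀ := ⟨1, 1⟩) ⟨m1, n1⟩ ⟨a2, by linarith [a1.2]⟩ ⟨0, 1⟩ ⟨m0, n1⟩
  have a4 : Real.pi / 2 < θ ⟨0, 1⟩ := not_le.1 fun h => not_le.2 (hL ⟨0, 1⟩ ⟨n0, m1⟩)
    (Real.cos_nonneg_of_mem_Icc ⟨by linarith [a3.1], h⟩)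
  have a5 := stay hθ (cvx_Icc 0 0 0 1).isPreconnected (a := Real.pi / 2)
    (b := Real.pi / 2 + Real.pi)
    (fun z hz => ⟨fun e => by simpa [e] using hL z hz,
      fun e => by simpa [e, Real.cos_add_pi] using hL z hz⟩)
    (z₀ := ⟨0, 1⟩) ⟨n0, m1⟩ ⟨a4, by linarith [a3.2]⟩ ⟨0, 0⟩ ⟨n0, m0⟩
  have a6 : Real.pi < θ ⟨0, 0⟩ := not_le.1 fun h => not_le.2 (hB ⟨0, 0⟩ ⟨m0, n0⟩)
    (Real.sin_nonneg_of_nonneg_of_le_pi (by linarith [a5.1]) h)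
  have a7 := stay hθ (cvx_Icc 0 1 0 0).isPreconnected (a := Real.pi) (b := 2 * Real.pi)
    (fun z hz => ⟨fun e => by simpa [e] using hB z hz, fun e => by simpa [e] using hB z hz⟩)
    (z₀ := ⟨0, 0⟩) ⟨m0, n0⟩ ⟨a6, by linarith [a5.2]⟩ ⟨1, 0⟩ ⟨m1, n0⟩
  linarith [a7.1, h1.2]

theorem ret_Cover : ∃ k : ℂ → ℂ, Continuous k ∧ (∀ z, k z ∈ Qc) ∧ ∀ z ∈ Qc, k z = z := by
  refine ⟨fun z => ((max 0 (min 1 z.re) : ℝ) : ℂ) + ((max 0 (min 1 z.im) : ℝ) : ℂ) * I,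
    by fun_prop, fun z => ⟨?_, ?_⟩, fun z hz => ?_⟩
  · simp
  · simp
  · have h1 : max 0 (min 1 z.re) = z.re := by rw [min_eq_right hz.1.2, max_eq_right hz.1.1]
    have h2 : max 0 (min 1 z.im) = z.im := by rw [min_eq_right hz.2.2, max_eq_right hz.2.1]
    simp only [h1, h2, re_add_im]

theorem lo_Cover (a : TF E) {k : ℂ → ℂ} (hk : Continuous k) (h : ∀ z, k z ∈ Qc) (t : ℝ) :
    IsOpen {z | t < a.lo (k z)} :=
  isOpen_iff_mem_nhds.2 fun z hz =>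
    (tendsto_nhdsWithin_iff.2 ⟨hk.tendsto z, Eventually.of_forall h⟩).eventually
      (a.lsc (k z) (h z) t hz)

theorem hi_Cover (a : TF E) {k : ℂ → ℂ} (hk : Continuous k) (h : ∀ z, k z ∈ Qc) (t : ℝ) :
    IsOpen {z | a.hi (k z) < t} :=
  isOpen_iff_mem_nhds.2 fun z hz =>
    (tendsto_nhdsWithin_iff.2 ⟨hk.tendsto z, Eventually.of_forall h⟩).eventually
      (a.usc (k z) (h z) t hz)

theorem cover (hE : Dom E) {a b : TF E} (ha : a.H) (hb : b.V) : Q ⊆ a.img b Q := by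
  intro ζ hζ
  by_contra hn
  obtain ⟨k, k1, k2, k3⟩ := ret_Cover
  have hR : ∀ w ∈ Qc, w.re = 1 → ζ.re < a.lo w := fun w hw e => by
    rw [a.eq w fun h => (hE.sub h).1.2.ne e, (ha w hw).2 e]
    exact hζ.1.2
  have hL : ∀ w ∈ Qc, w.re = 0 → a.hi w < ζ.re := fun w hw e => by
    rw [(ha w hw).1 e]
    exact hζ.1.1
  have hT : ∀ w ∈ Qc, w.im = 1 → ζ.im < b.lo w := fun w hw e => by
    rw [b.eq w fun h => (hE.sub h).2.2.ne e, (hb w hw).2 e]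
    exact hζ.2.2
  have hB : ∀ w ∈ Qc, w.im = 0 → b.hi w < ζ.im := fun w hw e => by
    rw [(hb w hw).1 e]
    exact hζ.2.1
  obtain ⟨θ, hθ, h⟩ := exists_arg (lo_Cover a k1 k2 ζ.re) (hi_Cover a k1 k2 ζ.re)
    (lo_Cover b k1 k2 ζ.im) (hi_Cover b k1 k2 ζ.im)
    (disjoint_left.2 fun z h1 h2 => lt_asymm (lt_of_lt_of_le h1 (a.le _)) h2)
    (disjoint_left.2 fun z h1 h2 => lt_asymm (lt_of_lt_of_le h1 (b.le _)) h2) fun z => by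
      by_contra h0
      simp only [not_or] at h0
      obtain ⟨n1, n2, n3, n4⟩ := h0
      have hw := k2 z
      refine hn (mem_iUnion₂.2 ⟨k z, ⟨⟨?_, ?_⟩, ?_, ?_⟩,
        ⟨not_lt.1 n1, not_lt.1 n2⟩, not_lt.1 n3, not_lt.1 n4⟩)
      · exact lt_of_le_of_ne hw.1.1 fun e => n2 (hL _ hw e.symm)
      · exact lt_of_le_of_ne hw.1.2 fun e => n1 (hR _ hw e)
      · exact lt_of_le_of_ne hw.2.1 fun e => n4 (hB _ hw e.symm)
      · exact lt_of_le_of_ne hw.2.2 fun e => n3 (hT _ hw e)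
  have m0 : Icc (0 : ℝ) 0 ⊆ Icc (0 : ℝ) 1 := Icc_subset_Icc le_rfl zero_le_one
  have m1 : Icc (1 : ℝ) 1 ⊆ Icc (0 : ℝ) 1 := Icc_subset_Icc zero_le_one le_rfl
  have cR : ∀ z ∈ Icc (1 : ℝ) 1 ×ℂ Icc (0 : ℝ) 1, 0 < Real.cos (θ z) := fun z hz => by
    have hw : z ∈ Qc := ⟨m1 hz.1, hz.2⟩
    refine (h z).1.2 (show ζ.re < a.lo (k z) from ?_)
    rw [k3 z hw]
    exact hR z hw (le_antisymm hz.1.2 hz.1.1)
  have cT : ∀ z ∈ Icc (0 : ℝ) 1 ×ℂ Icc (1 : ℝ) 1, 0 < Real.sin (θ z) := fun z hz => by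
    have hw : z ∈ Qc := ⟨hz.1, m1 hz.2⟩
    refine (h z).2.2.1.2 (show ζ.im < b.lo (k z) from ?_)
    rw [k3 z hw]
    exact hT z hw (le_antisymm hz.2.2 hz.2.1)
  have cL : ∀ z ∈ Icc (0 : ℝ) 0 ×ℂ Icc (0 : ℝ) 1, Real.cos (θ z) < 0 := fun z hz => by
    have hw : z ∈ Qc := ⟨m0 hz.1, hz.2⟩
    refine (h z).2.1.2 (show a.hi (k z) < ζ.re from ?_)
    rw [k3 z hw]
    exact hL z hw (le_antisymm hz.1.2 hz.1.1)
  have cB : ∀ z ∈ Icc (0 : ℝ) 1 ×ℂ Icc (0 : ℝ) 0, Real.sin (θ z) < 0 := fun z hz => by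
    have hw : z ∈ Qc := ⟨hz.1, m0 hz.2⟩
    refine (h z).2.2.2.2 (show b.hi (k z) < ζ.im from ?_)
    rw [k3 z hw]
    exact hB z hw (le_antisymm hz.2.2 hz.2.1)
  obtain ⟨j, hj⟩ := exists_shift (cR ⟨1, 0⟩ ⟨⟨le_rfl, le_rfl⟩, le_rfl, zero_le_one⟩)
    (cB ⟨1, 0⟩ ⟨⟨zero_le_one, le_rfl⟩, le_rfl, le_rfl⟩)
  refine wind_Cover (θ := fun z => θ z + j * (2 * Real.pi)) (hθ.add continuous_const)
    (fun z hz => ?_) (fun z hz => ?_) (fun z hz => ?_) (fun z hz => ?_) hj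
  · rw [Real.cos_add_int_mul_two_pi]; exact cR z hz
  · rw [Real.sin_add_int_mul_two_pi]; exact cT z hz
  · rw [Real.cos_add_int_mul_two_pi]; exact cL z hz
  · rw [Real.sin_add_int_mul_two_pi]; exact cB z hz

end Vale.Agent.P116
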