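import Vale.Agent.P116.S.Defs

/-! P116 S/Bas (TASK, owner helper20). Definitions in S/Defs. Helper names end with `_Bas`.
Elementary facts. `connectedComponentIn_eq`, `mem_connectedComponentIn`, `isPreconnected_connectedComponentIn`; a component of a compact set is closed
(`IsPreconnected.subset_connectedComponentIn` for the closure). `cont`: off `E` the function is both lower and upper semicontinuous. `open_hi`: `Qc` is a neighbourhood of points of `Q`.
`countable`: `Summable.countable_support`. `tendsto_UF`: `isCompact_Icc.ultrafilter_le_nhds`, `tendsto_nhds_limUnder`. -/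

open MeasureTheory Set Metric Filter Topology Complex
open scoped ENNReal ComplexConjugate

set_option linter.unusedVariables false

noncomputable section

namespace Vale.Agent.P116

open Vale.Agent.P128

variable {E : Set ℂ}

theorem isOpen_Q : IsOpen Q := by
  exact isOpen_Ioo.reProdIm isOpen_Ioo

theorem isCompact_Qc : IsCompact Qc := by
  exact isCompact_Icc.reProdIm isCompact_Icc

theorem Q_sub : Q ⊆ Qc := by
  exact fun z hz => ⟨Ioo_subset_Icc_self hz.1, Ioo_subset_Icc_self hz.2⟩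

theorem Dom.op (hE : Dom E) : IsOpen (Q \ E) := by
  exact isOpen_Q.sdiff hE.cpt.isClosed

theorem Cp.pt_mem (c : Cp E) : c.pt ∈ E := by
  exact c.2.choose_spec.1

theorem Cp.eq (c : Cp E) : c.1 = connectedComponentIn E c.pt := by
  exact c.2.choose_spec.2

theorem Cp.pt_in (c : Cp E) : c.pt ∈ c.1 := by
  rw [c.eq]
  exact mem_connectedComponentIn c.pt_mem

theorem Cp.sub (c : Cp E) : c.1 ⊆ E := by
  rw [c.eq]
  exact connectedComponentIn_subset _ _

theorem Cp.mem_mk (z : ℂ) (hz : z ∈ E) : z ∈ (Cp.mk z hz).1 := by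
  exact mem_connectedComponentIn hz

theorem Cp.ext_mem {c c' : Cp E} {z : ℂ} (h : z ∈ c.1) (h' : z ∈ c'.1) : c = c' := by
  rw [c.eq] at h
  rw [c'.eq] at h'
  refine Subtype.ext ?_
  rw [c.eq, c'.eq, connectedComponentIn_eq h, connectedComponentIn_eq h']

theorem Cp.pre (c : Cp E) : IsPreconnected c.1 := by
  rw [c.eq]
  exact isPreconnected_connectedComponentIn

theorem Cp.cpt (hE : IsCompact E) (c : Cp E) : IsCompact c.1 := by
  refine hE.of_isClosed_subset (closure_subset_iff_isClosed.1 ?_) c.sub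
  have h := c.pre.closure.subset_connectedComponentIn (subset_closure c.pt_in)
    (closure_minimal c.sub hE.isClosed)
  rwa [← c.eq] at h

theorem TF.at_pt (a : TF E) {c : Cp E} {z : ℂ} (hz : z ∈ c.1) :
    a.lo z = a.lo c.pt ∧ a.hi z = a.hi c.pt := by
  rw [c.eq] at hz
  exact a.cst _ c.pt_mem z hz

theorem TF.osc_nonneg (a : TF E) (c : Cp E) : 0 ≤ a.osc c := by
  exact sub_nonneg.2 (a.le _)

theorem TF.cont (a : TF E) : ContinuousOn a.hi (Qc \ E) := by
  refine continuousOn_iff_lower_upperSemicontinuousOn.2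
    ⟨fun z hz y hy => ?_, a.usc.mono sdiff_subset⟩
  have h := (a.lsc.mono (sdiff_subset (t := E))) z hz y (lt_of_lt_of_eq hy (a.eq z hz.2).symm)
  filter_upwards [h] with x hx using lt_of_lt_of_le hx (a.le x)

theorem TF.open_hi (a : TF E) (t : ℝ) : IsOpen {z | z ∈ Q ∧ a.hi z < t} := by
  refine isOpen_iff_mem_nhds.2 fun z hz => ?_
  have h := a.usc z (Q_sub hz.1) t hz.2
  rw [nhdsWithin_eq_nhds.2 (mem_of_superset (isOpen_Q.mem_nhds hz.1) Q_sub)] at h
  filter_upwards [h, isOpen_Q.mem_nhds hz.1] with x h1 h2 using ⟨h2, h1⟩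

theorem TF.open_lo (a : TF E) (t : ℝ) : IsOpen {z | z ∈ Q ∧ t < a.lo z} := by
  refine isOpen_iff_mem_nhds.2 fun z hz => ?_
  have h := a.lsc z (Q_sub hz.1) t hz.2
  rw [nhdsWithin_eq_nhds.2 (mem_of_superset (isOpen_Q.mem_nhds hz.1) Q_sub)] at h
  filter_upwards [h, isOpen_Q.mem_nhds hz.1] with x h1 h2 using ⟨h2, h1⟩

theorem TF.Fn.countable {a : TF E} (h : a.Fn) : {c | 0 < a.osc c}.Countable := by
  exact h.2.countable_support.mono fun c hc => pow_ne_zero 2 (ne_of_gt hc)

theorem TF.Fn.dir_le {a : TF E} (h : a.Fn) {A : Set ℂ} (hA : A ⊆ Q \ E) :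
    ∫ z in A, ‖gr a.hi z‖ ^ 2 ≤ a.en := by
  have h1 : ∫ z in A, ‖gr a.hi z‖ ^ 2 ≤ ∫ z in Q \ E, ‖gr a.hi z‖ ^ 2 :=
    setIntegral_mono_set h.1 (Eventually.of_forall fun z => sq_nonneg _) hA.eventuallyLE
  exact h1.trans (le_add_of_nonneg_right (tsum_nonneg fun c => sq_nonneg _))

theorem TF.Mono.neg {a : TF E} (h : a.Mono) : a.neg.Mono := by
  intro W hW hc t
  exact ⟨fun h1 z hz => neg_le.1 ((h W hW hc (-t)).2 (fun y hy => neg_le.1 (h1 y hy)) z hz),
    fun h1 z hz => le_neg.1 ((h W hW hc (-t)).1 (fun y hy => le_neg.1 (h1 y hy)) z hz)⟩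

theorem UF_le : UF ≤ atTop := by
  exact Ultrafilter.of_le _

theorem UF_ne : UF.NeBot := by
  exact Ultrafilter.neBot _

theorem tendsto_UF {x : ℕ → ℝ} (h : ∀ n, x n ∈ Icc (0 : ℝ) 1) : Tendsto x UF (𝓝 (limUnder UF x)) := by
  obtain ⟨y, -, hy⟩ := isCompact_Icc.ultrafilter_le_nhds ((Ultrafilter.of atTop).map x)
    (le_principal_iff.2 (mem_map.2 (univ_mem' h)))
  have := UF_ne
  exact tendsto_nhds_limUnder ⟨y, hy⟩

end Vale.Agent.P116
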