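import Vale.Agent.P116.S.Defs

/-! P116 S/Sep (TASK, owner helper20). Definitions in S/Defs. Helper names end with `_Sep`.
`k y = exp (2 π i χ (invFunOn f O y))` on `f '' O`, `1` elsewhere. It is continuous on the open set `f '' O` (the inverse of an open injective map is continuous) and equal to `1` on the open set `(f '' S)ᶜ`. `Complex.exists_continuousOn_eqOn_exp_comp` on `univ`: `k = exp L`,
`φ₀ = (L y).im / (2 π)`; `φ₀ (f z) - χ z` is an integer, continuous on `O`, so constant (`IsPreconnected.constant_of_mapsTo` with the discrete set of integers, or `IsPreconnected.intermediate_value` at a half integer); subtract the constant. On `P` the function `φ₀` is an integer. If `O` is empty take `0`. -/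

open MeasureTheory Set Metric Filter Topology Complex
open scoped ENNReal ComplexConjugate

set_option linter.unusedVariables false

noncomputable section

namespace Vale.Agent.P116

open Vale.Agent.P128

variable {E : Set ℂ}

theorem const_of_int {X : Set ℂ} {g : ℂ → ℝ} (hX : IsPreconnected X) (hg : ContinuousOn g X)
    (h : ∀ z ∈ X, ∃ k : ℤ, g z = k) : ∀ z ∈ X, ∀ z' ∈ X, g z = g z' := by
  have h1 : ∀ z ∈ X, ∀ z' ∈ X, ¬ g z < g z' := by
    intro z hz z' hz' hlt
    obtain ⟨k, hk⟩ := h z hz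
    obtain ⟨k', hk'⟩ := h z' hz'
    have h2 : (k : ℝ) + 1 ≤ k' := by
      rw [hk, hk'] at hlt
      exact_mod_cast Int.add_one_le_iff.2 (Int.cast_lt.1 hlt)
    obtain ⟨w, hw, e⟩ := hX.intermediate_value hz hz' hg
      (show (k : ℝ) + 1 / 2 ∈ Icc (g z) (g z') from ⟨by linarith, by linarith⟩)
    obtain ⟨l, hl⟩ := h w hw
    have h3 : ((2 * l : ℤ) : ℝ) = ((2 * k + 1 : ℤ) : ℝ) := by
      push_cast
      linarith
    have h4 : 2 * l = 2 * k + 1 := Int.cast_injective h3
    omega
  exact fun z hz z' hz' => le_antisymm (not_lt.1 (h1 z' hz' z hz)) (not_lt.1 (h1 z hz z' hz'))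

theorem inv_Sep {O : Set ℂ} {f : ℂ → ℂ} (hO : IsOpen O) (hi : InjOn f O)
    (ho : ∀ V, IsOpen V → V ⊆ O → IsOpen (f '' V)) :
    ContinuousOn (Function.invFunOn f O) (f '' O) := by
  refine (continuousOn_open_iff (ho O hO Subset.rfl)).2 fun V hV => ?_
  have h1 : f '' O ∩ Function.invFunOn f O ⁻¹' V = f '' (V ∩ O) := by
    ext y
    constructor
    · rintro ⟨⟨z, hz, rfl⟩, h2⟩
      rw [mem_preimage, hi.leftInvOn_invFunOn hz] at h2
      exact ⟨z, ⟨h2, hz⟩, rfl⟩
    · rintro ⟨z, ⟨h2, hz⟩, rfl⟩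
      refine ⟨⟨z, hz, rfl⟩, ?_⟩
      rwa [mem_preimage, hi.leftInvOn_invFunOn hz]
  rw [h1]
  exact ho _ (hV.inter hO) inter_subset_right

theorem im_Sep {x : ℂ} {a : ℝ} (h : exp x = exp (a * (2 * Real.pi * I))) :
    ∃ k : ℤ, x.im / (2 * Real.pi) - a = k := by
  obtain ⟨k, hk⟩ := exp_eq_exp_iff_exists_int.1 h
  refine ⟨k, ?_⟩
  have h1 := Real.pi_pos.ne'
  have h2 : x.im = (a + k) * (2 * Real.pi) := by
    rw [hk]
    simp
    ring
  rw [h2]
  field_simp
  ring

theorem sep_lift {O S : Set ℂ} {f : ℂ → ℂ} {χ : ℂ → ℝ} (hO : IsOpen O) (hc : IsPreconnected O)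
    (hf : ContinuousOn f O) (hi : InjOn f O) (ho : ∀ V, IsOpen V → V ⊆ O → IsOpen (f '' V))
    (hS : IsCompact S) (hSO : S ⊆ O) (hχ : ContinuousOn χ O) (h01 : ∀ z ∈ O \ S, χ z = 0 ∨ χ z = 1) :
    ∃ φ : ℂ → ℝ, Continuous φ ∧ (∀ z ∈ O, φ (f z) = χ z) ∧
      ∀ P, IsPreconnected P → Disjoint P (f '' S) → ∀ y ∈ P, ∀ y' ∈ P, φ y = φ y' := by
  classical
  rcases O.eq_empty_or_nonempty with rfl | ⟨z₀, hz₀⟩
  · exact ⟨fun _ => 0, continuous_const, fun z hz => hz.elim, fun _ _ _ _ _ _ _ => rfl⟩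
  obtain ⟨k, hk⟩ : ∃ k : ℂ → ℂ, ∀ y, k y = if y ∈ f '' O then
    exp (χ (Function.invFunOn f O y) * (2 * Real.pi * I)) else 1 := ⟨_, fun _ => rfl⟩
  have k1 : ∀ z ∈ O, k (f z) = exp (χ z * (2 * Real.pi * I)) := fun z hz => by
    rw [hk, if_pos (mem_image_of_mem f hz), hi.leftInvOn_invFunOn hz]
  have k2 : ∀ y, y ∉ f '' S → k y = 1 := fun y hy => by
    by_cases h : y ∈ f '' O
    · obtain ⟨z, hz, rfl⟩ := h
      rw [k1 z hz]
      rcases h01 z ⟨hz, fun h2 => hy (mem_image_of_mem f h2)⟩ with h2 | h2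
      · simp [h2]
      · simp [h2]
    · rw [hk, if_neg h]
  have hcl : IsClosed (f '' S) := (hS.image_of_continuousOn (hf.mono hSO)).isClosed
  have k3 : Continuous k := by
    refine continuous_iff_continuousAt.2 fun y => ?_
    by_cases h : y ∈ f '' S
    · have h2 : ContinuousOn (fun y => χ (Function.invFunOn f O y)) (f '' O) :=
        hχ.comp (inv_Sep hO hi ho) fun y hy => Function.invFunOn_mem hy
      have h3 : ContinuousOn k (f '' O) :=
        ((continuous_ofReal.comp_continuousOn h2).mul continuousOn_const).cexp.congr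
          fun y hy => by rw [hk, if_pos hy]; rfl
      exact h3.continuousAt ((ho O hO Subset.rfl).mem_nhds (image_mono hSO h))
    · exact (continuousAt_const (y := (1 : ℂ))).congr
        (mem_of_superset (hcl.isOpen_compl.mem_nhds h) fun y hy => (k2 y hy).symm)
  have k4 : (0 : ℂ) ∉ k '' univ := by
    rintro ⟨y, -, hy⟩
    rw [hk] at hy
    split_ifs at hy
    · exact exp_ne_zero _ hy
    · exact one_ne_zero hy
  have hu : IsSimplyConnected (univ : Set ℂ) := by
    have := (convex_univ (𝕜 := ℝ) (E := ℂ)).contractibleSpace univ_nonempty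
    exact SimplyConnectedSpace.ofContractible _
  obtain ⟨L, hL, hLk⟩ := exists_continuousOn_eqOn_exp_comp hu isOpen_univ k3.continuousOn k4
  have l1 : Continuous fun y => (L y).im / (2 * Real.pi) :=
    (continuous_im.comp (continuousOn_univ.1 hL)).div_const _
  have l2 := const_of_int hc ((l1.comp_continuousOn hf).sub hχ) fun z hz =>
    im_Sep ((hLk (mem_univ _)).trans (k1 z hz))
  refine ⟨fun y => (L y).im / (2 * Real.pi) - ((L (f z₀)).im / (2 * Real.pi) - χ z₀),
    l1.sub continuous_const, fun z hz => ?_, fun P hP hd y hy y' hy' => ?_⟩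
  · have h2 : (L (f z)).im / (2 * Real.pi) - χ z = (L (f z₀)).im / (2 * Real.pi) - χ z₀ :=
      l2 z hz z₀ hz₀
    linarith
  · have h2 := const_of_int hP l1.continuousOn (fun w hw => by
      obtain ⟨j, hj⟩ := im_Sep (x := L w) (a := 0) (by
        rw [ofReal_zero, zero_mul, exp_zero]
        exact (hLk (mem_univ _)).trans (k2 w (disjoint_left.1 hd hw)))
      exact ⟨j, by rw [← hj, sub_zero]⟩) y hy y' hy'
    simp only [h2]

end Vale.Agent.P116
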