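import Vale.Agent.P116.S.Lip
import Vale.Agent.P116.S.Cover

/-! P116 S/Area (TASK, owner helper20). Definitions in S/Defs. Helper names end with `_Area`.
`img a b U ⊆ pr '' (U \ E) ∪ pr '' {non atoms} ∪ ⋃ boxes` over the countably many `c` meeting `U` with `0 < a.osc c` or `0 < b.osc c` (`TF.at_pt`, `Fn.countable`); `measure_biUnion_le`, `vol_Icc`,
`ENNReal.tsum_mono_subtype` / `tsum_le_tsum_of_inj`. `2 x y ≤ x² + y²`. `area_ineq`: for every `t > 0`, `2 ≤ t * a.en + b.en / t`; both energies are nonnegative; optimise (or apply with `t = b.en`, ...). -/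

open MeasureTheory Set Metric Filter Topology Complex
open scoped ENNReal ComplexConjugate

set_option linter.unusedVariables false

noncomputable section

namespace Vale.Agent.P116

open Vale.Agent.P128

variable {E : Set ℂ}

theorem box_Area {a b : TF E} {z y : ℂ} (h1 : a.lo z = a.hi z) (h2 : b.lo z = b.hi z)
    (hy : y ∈ TF.box a b z) : TF.pr a b z = y := by
  rw [TF.box, h1, h2, mem_reProdIm] at hy
  exact Complex.ext (le_antisymm hy.1.1 hy.1.2) (le_antisymm hy.2.1 hy.2.2)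

theorem amgm_Area {t : ℝ} (ht : 0 < t) (x y : ℝ) : 2 * (x * y) ≤ t * x ^ 2 + t⁻¹ * y ^ 2 := by
  have h1 : 0 ≤ t⁻¹ * (t * x - y) ^ 2 := by positivity
  have h2 : t⁻¹ * (t * x - y) ^ 2 = t * x ^ 2 + t⁻¹ * y ^ 2 - 2 * (x * y) := by
    field_simp
    ring
  linarith

theorem area (hE : Dom E) {a b : TF E} (ha : a.Fn) (hb : b.Fn) (h : a.Cmp b) {U : Set ℂ}
    (hU : MeasurableSet U) (hUQ : U ⊆ Q) :
    volume (a.img b U) ≤ (∫⁻ z in U \ E, ENNReal.ofReal |jac a.hi b.hi z|) +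
      ∑' c : {c : Cp E // (c.1 ∩ U).Nonempty}, ENNReal.ofReal (a.osc c * b.osc c) := by
  have hS : {c : Cp E | (c.1 ∩ U).Nonempty ∧ (0 < a.osc c ∨ 0 < b.osc c)}.Countable :=
    (ha.countable.union hb.countable).mono fun c hc => hc.2
  have hsub : a.img b U ⊆ (TF.pr a b '' (U \ E) ∪
      TF.pr a b '' {z | z ∈ E ∧ a.lo z = a.hi z ∧ b.lo z = b.hi z}) ∪
      ⋃ c ∈ {c : Cp E | (c.1 ∩ U).Nonempty ∧ (0 < a.osc c ∨ 0 < b.osc c)}, TF.box a b c.pt := by
    intro y hy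
    obtain ⟨z, hz, hy⟩ := mem_iUnion₂.1 hy
    by_cases hzE : z ∈ E
    · by_cases he : a.lo z = a.hi z ∧ b.lo z = b.hi z
      · exact Or.inl (Or.inr ⟨z, ⟨hzE, he⟩, box_Area he.1 he.2 hy⟩)
      · have hm := Cp.mem_mk z hzE
        have e1 := a.at_pt hm
        have e2 := b.at_pt hm
        refine Or.inr (mem_iUnion₂.2 ⟨Cp.mk z hzE, ⟨⟨z, hm, hz⟩, ?_⟩, ?_⟩)
        · rw [TF.osc, TF.osc, ← e1.1, ← e1.2, ← e2.1, ← e2.2]
          rcases not_and_or.1 he with h1 | h1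
          · exact Or.inl (sub_pos.2 ((a.le z).lt_of_ne h1))
          · exact Or.inr (sub_pos.2 ((b.le z).lt_of_ne h1))
        · rw [TF.box, ← e1.1, ← e1.2, ← e2.1, ← e2.2]
          exact hy
    · exact Or.inl (Or.inl ⟨z, ⟨hz, hzE⟩, box_Area (a.eq z hzE) (b.eq z hzE) hy⟩)
  refine (measure_mono hsub).trans ((measure_union_le _ _).trans (add_le_add ?_ ?_))
  · refine (measure_union_le _ _).trans ?_
    rw [show volume (TF.pr a b '' {z | z ∈ E ∧ a.lo z = a.hi z ∧ b.lo z = b.hi z}) = 0 from h,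
      add_zero]
    exact vol_pair_le hE.op a.lip b.lip (hU.diff hE.cpt.measurableSet) (sdiff_subset_sdiff_left hUQ)
  · refine (measure_biUnion_le _ hS _).trans ?_
    have e : ∀ c : Cp E, volume (TF.box a b c.pt) = ENNReal.ofReal (a.osc c * b.osc c) :=
      fun c => by rw [TF.box, vol_Icc, ENNReal.ofReal_mul (a.osc_nonneg c)]; rfl
    simp only [e]
    exact ENNReal.tsum_mono_subtype (fun c => ENNReal.ofReal (a.osc c * b.osc c))
      (t := {c : Cp E | (c.1 ∩ U).Nonempty}) fun c hc => hc.1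

theorem jac_int (hE : Dom E) {a b : TF E} (ha : a.Fn) (hb : b.Fn) :
    IntegrableOn (fun z => ‖gr a.hi z‖ * ‖gr b.hi z‖) (Q \ E) ∧
      IntegrableOn (fun z => |jac a.hi b.hi z|) (Q \ E) ∧ Summable fun c => a.osc c * b.osc c := by
  have h1 : IntegrableOn (fun z => ‖gr a.hi z‖ * ‖gr b.hi z‖) (Q \ E) := by
    refine (ha.1.add hb.1).mono'
      (((EARN.measurable_gr a.hi).1.norm.mul (EARN.measurable_gr b.hi).1.norm).aestronglyMeasurable)
      (Eventually.of_forall fun z => ?_)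
    rw [Real.norm_of_nonneg (by positivity), Pi.add_apply]
    nlinarith [sq_nonneg (‖gr a.hi z‖ - ‖gr b.hi z‖), norm_nonneg (gr a.hi z),
      norm_nonneg (gr b.hi z)]
  refine ⟨h1, h1.mono' (measurable_jac _ _).norm.aestronglyMeasurable
    (Eventually.of_forall fun z => ?_), Summable.of_nonneg_of_le
      (fun c => mul_nonneg (a.osc_nonneg c) (b.osc_nonneg c)) (fun c => ?_) (ha.2.add hb.2)⟩
  · rw [Real.norm_of_nonneg (abs_nonneg _)]
    exact abs_jac_le _ _ _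
  · nlinarith [sq_nonneg (a.osc c - b.osc c), a.osc_nonneg c, b.osc_nonneg c]

theorem area_one (hE : Dom E) {a b : TF E} (ha : a.Fn) (hb : b.Fn) (h : a.Cmp b) (hH : a.H)
    (hV : b.V) : 1 ≤ (∫ z in Q \ E, |jac a.hi b.hi z|) + ∑' c, a.osc c * b.osc c := by
  obtain ⟨-, i2, i3⟩ := jac_int hE ha hb
  have n3 : ∀ c, 0 ≤ a.osc c * b.osc c := fun c => mul_nonneg (a.osc_nonneg c) (b.osc_nonneg c)
  have h1 := (measure_mono (cover hE hH hV)).trans
    (area hE ha hb h isOpen_Q.measurableSet subset_rfl)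
  have h2 : ∑' c : {c : Cp E // (c.1 ∩ Q).Nonempty}, ENNReal.ofReal (a.osc c * b.osc c) ≤
      ENNReal.ofReal (∑' c, a.osc c * b.osc c) := by
    rw [ENNReal.ofReal_tsum_of_nonneg n3 i3]
    exact ENNReal.tsum_comp_le_tsum_of_injective Subtype.val_injective
      fun c => ENNReal.ofReal (a.osc c * b.osc c)
  rw [vol_Q, ← ofReal_integral_eq_lintegral_ofReal i2
    (Eventually.of_forall fun z => abs_nonneg _)] at h1
  have h3 := h1.trans (add_le_add le_rfl h2)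
  rw [← ENNReal.ofReal_add (integral_nonneg fun z => abs_nonneg _) (tsum_nonneg n3)] at h3
  exact ENNReal.one_le_ofReal.1 h3

theorem area_ineq (hE : Dom E) {a b : TF E} (ha : a.Fn) (hb : b.Fn) (h : a.Cmp b) (hH : a.H)
    (hV : b.V) : 1 ≤ a.en * b.en := by
  obtain ⟨-, i2, i3⟩ := jac_int hE ha hb
  have h1 := area_one hE ha hb h hH hV
  have key : ∀ t : ℝ, 0 < t → 2 ≤ t * a.en + t⁻¹ * b.en := by
    intro t ht
    have k1 : ∫ z in Q \ E, 2 * |jac a.hi b.hi z| ≤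
        ∫ z in Q \ E, (t * ‖gr a.hi z‖ ^ 2 + t⁻¹ * ‖gr b.hi z‖ ^ 2) :=
      integral_mono (i2.const_mul 2) ((ha.1.const_mul t).add (hb.1.const_mul t⁻¹)) fun z =>
        (mul_le_mul_of_nonneg_left (abs_jac_le _ _ z) zero_le_two).trans (amgm_Area ht _ _)
    have k2 : ∑' c, 2 * (a.osc c * b.osc c) ≤ ∑' c, (t * a.osc c ^ 2 + t⁻¹ * b.osc c ^ 2) :=
      (i3.mul_left 2).tsum_le_tsum (fun c => amgm_Area ht _ _)
        ((ha.2.mul_left t).add (hb.2.mul_left t⁻¹))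
    rw [integral_add (ha.1.const_mul t) (hb.1.const_mul t⁻¹), integral_const_mul,
      integral_const_mul, integral_const_mul] at k1
    rw [(ha.2.mul_left t).tsum_add (hb.2.mul_left t⁻¹), tsum_mul_left, tsum_mul_left,
      tsum_mul_left] at k2
    rw [TF.en, TF.en]
    linarith
  have nn : ∀ a : TF E, 0 ≤ a.en := fun a =>
    add_nonneg (integral_nonneg fun z => sq_nonneg _) (tsum_nonneg fun c => sq_nonneg _)
  rcases (nn a).eq_or_lt with h0 | h0
  · have hb0 := nn b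
    have k := key (b.en + 1) (by linarith)
    rw [← h0, mul_zero, zero_add, ← div_eq_inv_mul, le_div_iff₀ (by linarith)] at k
    linarith
  · have k := key a.en⁻¹ (inv_pos.2 h0)
    rw [inv_mul_cancel₀ h0.ne', inv_inv] at k
    linarith

theorem area_small (hE : Dom E) {a b : TF E} (ha : a.Fn) (hb : b.Fn) (h : a.Cmp b) {K : Set ℂ}
    (hK : IsCompact K) (F : Finset (Cp E)) {α β : ℝ}
    (h1 : ∫ z in (Q \ E) \ K, ‖gr a.hi z‖ ^ 2 ≤ α) (h2 : ∑' c : {c // c ∉ F}, a.osc c ^ 2 ≤ α)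
    (h3 : ∫ z in (Q \ E) \ K, ‖gr b.hi z‖ ^ 2 ≤ β) (h4 : ∑' c : {c // c ∉ F}, b.osc c ^ 2 ≤ β) :
    volume (a.img b ((Q \ K) \ ⋃ c ∈ F, c.1)) ≤ ENNReal.ofReal (α + β) := by
  obtain ⟨-, i2, i3⟩ := jac_int hE ha hb
  have n3 : ∀ c, 0 ≤ a.osc c * b.osc c := fun c => mul_nonneg (a.osc_nonneg c) (b.osc_nonneg c)
  have hU : MeasurableSet ((Q \ K) \ ⋃ c ∈ F, c.1) :=
    (isOpen_Q.measurableSet.diff hK.measurableSet).diff
      (F.measurableSet_biUnion fun c _ => (c.cpt hE.cpt).measurableSet)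
  have s0 : (Q \ E) \ K ⊆ Q \ E := sdiff_subset
  have ja := ha.1.mono_set s0
  have jb := hb.1.mono_set s0
  have sa := ha.2.subtype {c | c ∉ F}
  have sb := hb.2.subtype {c | c ∉ F}
  have s3 := i3.subtype {c | c ∉ F}
  have k1 : ∫ z in (Q \ E) \ K, |jac a.hi b.hi z| ≤ (α + β) / 2 := by
    have k : ∫ z in (Q \ E) \ K, 2 * |jac a.hi b.hi z| ≤
        ∫ z in (Q \ E) \ K, (‖gr a.hi z‖ ^ 2 + ‖gr b.hi z‖ ^ 2) :=
      integral_mono ((i2.mono_set s0).const_mul 2) (ja.add jb) fun z => by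
        have := abs_jac_le a.hi b.hi z
        simp only
        nlinarith [sq_nonneg (‖gr a.hi z‖ - ‖gr b.hi z‖)]
    rw [integral_add ja jb, integral_const_mul] at k
    linarith
  have k2 : ∑' c : {c // c ∉ F}, a.osc c * b.osc c ≤ (α + β) / 2 := by
    have k : ∑' c : {c // c ∉ F}, 2 * (a.osc c * b.osc c) ≤
        ∑' c : {c // c ∉ F}, (a.osc c ^ 2 + b.osc c ^ 2) :=
      (s3.mul_left 2).tsum_le_tsum (fun c => by nlinarith [sq_nonneg (a.osc c - b.osc c)])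
        (sa.add sb)
    have e : ∑' c : {c // c ∉ F}, (a.osc c ^ 2 + b.osc c ^ 2) =
        ∑' c : {c // c ∉ F}, a.osc c ^ 2 + ∑' c : {c // c ∉ F}, b.osc c ^ 2 := sa.tsum_add sb
    rw [e, tsum_mul_left] at k
    linarith
  have h0 : 0 ≤ (α + β) / 2 := (integral_nonneg fun z => abs_nonneg _).trans k1
  refine (area hE ha hb h hU (sdiff_subset.trans sdiff_subset)).trans ?_
  rw [← add_halves (α + β), ENNReal.ofReal_add h0 h0]
  refine add_le_add ?_ ?_
  · refine (lintegral_mono_set (t := (Q \ E) \ K) fun z hz => ⟨⟨hz.1.1.1, hz.2⟩, hz.1.1.2⟩).trans ?_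
    rw [← ofReal_integral_eq_lintegral_ofReal (i2.mono_set s0)
      (Eventually.of_forall fun z => abs_nonneg _)]
    exact ENNReal.ofReal_le_ofReal k1
  · refine (ENNReal.tsum_mono_subtype (fun c => ENNReal.ofReal (a.osc c * b.osc c))
      (s := {c : Cp E | (c.1 ∩ ((Q \ K) \ ⋃ c ∈ F, c.1)).Nonempty}) (t := {c | c ∉ F})
      fun c ⟨z, hz, hz'⟩ hc => hz'.2 (mem_iUnion₂.2 ⟨c, hc, hz⟩)).trans ?_
    have e : ENNReal.ofReal (∑' c : {c // c ∉ F}, a.osc c * b.osc c) =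
        ∑' c : {c // c ∉ F}, ENNReal.ofReal (a.osc c * b.osc c) :=
      ENNReal.ofReal_tsum_of_nonneg (fun c => n3 _) s3
    exact e.ge.trans (ENNReal.ofReal_le_ofReal k2)

end Vale.Agent.P116
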