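import Vale.Agent.P116.S.Lip

/-! P116 S/Tst (TASK, owner helper20). Definitions in S/Defs. Helper names end with `_Tst`.
`exists_cut`: `exists_contDiff_tsupport_subset`-like lemmas (`exists_contMDiff_support_eq`, `exists_smooth_one_nhds_of_subset_interior`, or `exists_contDiff_one_nhds_of_subset_interior`) with a compact set between; `ContDiff.lipschitzWith_of_hasCompactSupport`.
`Tst.mul`: the product is locally Lipschitz everywhere (zero off the support) with compact support (`LocallyLipschitzOn.exists_lipschitzOnWith_of_compact`, then globally by cases, or bounded `fderiv`-free argument with a slightly larger compact set).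
`ibp`: take a cutoff `χ = 1` near `tsupport φ` (apply `exists_cut` to a compact neighbourhood), `LipschitzWith.integral_lineDeriv_mul_eq` for `χ u` and `φ` in the directions `1`, `I`; `DifferentiableAt.lineDeriv_eq_fderiv` almost everywhere.
`curl`: `ibp` with the test functions `φ_x`, `φ_y` and `symm_Calc`. -/

open MeasureTheory Set Metric Filter Topology Complex
open scoped ENNReal ComplexConjugate

set_option linter.unusedVariables false

noncomputable section

namespace Vale.Agent.P116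

open Vale.Agent.P128

variable {E : Set ℂ}

theorem tst_of_smooth {O : Set ℂ} {φ : ℂ → ℝ} (h : ContDiff ℝ (⊤ : ℕ∞) φ)
    (hc : HasCompactSupport φ) (hs : tsupport φ ⊆ O) : Tst O φ :=
  ⟨ContDiff.lipschitzWith_of_hasCompactSupport hc h (by simp), hc, hs⟩

theorem exists_cut {O K : Set ℂ} (hO : IsOpen O) (hK : IsCompact K) (h : K ⊆ O) :
    ∃ χ : ℂ → ℝ, ContDiff ℝ (⊤ : ℕ∞) χ ∧ Tst O χ ∧ (∀ z, χ z ∈ Icc (0 : ℝ) 1) ∧ ∀ z ∈ K, χ z = 1 := by
  obtain ⟨L, hL, h1, h2⟩ := exists_compact_between hK hO h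
  obtain ⟨f, f1, f0, f2⟩ := exists_contMDiffMap_one_nhds_of_subset_interior
    (modelWithCornersSelf ℝ ℂ) (n := ⊤) hK.isClosed h1
  have hs : tsupport f ⊆ L :=
    closure_minimal (fun z hz => by_contra fun hz' => hz (f0 z hz')) hL.isClosed
  exact ⟨f, f.contMDiff.contDiff, tst_of_smooth f.contMDiff.contDiff
    (hL.of_isClosed_subset (isClosed_tsupport _) hs) (hs.trans h2), f2,
    fun z hz => f1.self_of_nhdsSet z hz⟩

theorem lipc_Tst {f : ℂ → ℝ} (h : LocallyLipschitz f) (hc : HasCompactSupport f) :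
    ∃ K, LipschitzWith K f := by
  obtain ⟨R, hR⟩ := hc.isCompact.isBounded.subset_closedBall 0
  obtain ⟨K, hK⟩ := LocallyLipschitzOn.exists_lipschitzOnWith_of_compact
    (isCompact_closedBall (0 : ℂ) (R + 1)) h.locallyLipschitzOn
  obtain ⟨M, hM⟩ := h.continuous.bounded_above_of_compact_support hc
  have M0 : 0 ≤ M := (norm_nonneg _).trans (hM 0)
  have h1 : ∀ z, z ∉ closedBall (0 : ℂ) R → f z = 0 := fun z hz =>
    image_eq_zero_of_notMem_tsupport fun h => hz (hR h)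
  have key : ∀ x y, x ∉ closedBall (0 : ℂ) (R + 1) → dist (f x) (f y) ≤ M * dist x y :=
    fun x y hx => by
      rw [mem_closedBall, not_le] at hx
      rw [h1 x (by rw [mem_closedBall, not_le]; linarith), dist_zero_left]
      by_cases hy : y ∈ closedBall (0 : ℂ) R
      · have := dist_triangle x y 0
        rw [mem_closedBall] at hy
        exact (hM y).trans (le_mul_of_one_le_right M0 (by linarith))
      · rw [h1 y hy, norm_zero]
        positivity
  refine ⟨K + ⟨M, M0⟩, LipschitzWith.of_dist_le_mul fun x y => ?_⟩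
  have e1 : 0 ≤ M * dist x y := by positivity
  have e2 : 0 ≤ K * dist x y := by positivity
  have e3 : ((K + ⟨M, M0⟩ : NNReal) : ℝ) * dist x y = K * dist x y + M * dist x y := add_mul _ _ _
  rw [e3]
  by_cases hx : x ∈ closedBall (0 : ℂ) (R + 1)
  · by_cases hy : y ∈ closedBall (0 : ℂ) (R + 1)
    · have := hK.dist_le_mul x hx y hy
      linarith
    · have := key y x hy
      rw [dist_comm (f y), dist_comm y] at this
      linarith
  · have := key x y hx
    linarith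

theorem Tst.mul {O : Set ℂ} {χ u : ℂ → ℝ} (hO : IsOpen O) (hχ : Tst O χ)
    (hu : LocallyLipschitzOn O u) : Tst O fun z => χ z * u z := by
  obtain ⟨⟨K, hK⟩, hc, hs⟩ := hχ
  have hc' : HasCompactSupport fun z => χ z * u z := hc.mul_right
  refine ⟨lipc_Tst (fun x => ?_) hc', hc', (tsupport_mul_subset_left (f := χ) (g := u)).trans hs⟩
  by_cases hx : x ∈ tsupport χ
  · obtain ⟨K₁, t, ht, h1⟩ := hu (hs hx)
    rw [hO.nhdsWithin_eq (hs hx)] at ht
    have h2 := (hK.lipschitzOnWith (s := t)).prodMk h1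
    have h3 : ContDiff ℝ 1 fun p : ℝ × ℝ => p.1 * p.2 := contDiff_fst.mul contDiff_snd
    obtain ⟨K₂, s, hs', h4⟩ := (h3.contDiffAt (x := (χ x, u x))).exists_lipschitzOnWith
    exact ⟨_, _, inter_mem ht (h2.continuousOn.continuousAt ht hs'),
      h4.comp (h2.mono inter_subset_left) fun z hz => hz.2⟩
  · refine ⟨0, _, (isClosed_tsupport χ).isOpen_compl.mem_nhds hx, fun a ha b hb => ?_⟩
    simp [image_eq_zero_of_notMem_tsupport ha, image_eq_zero_of_notMem_tsupport hb]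

theorem int_Tst {K : Set ℂ} {f : ℂ → ℝ} {C : ℝ} (hK : IsCompact K) (hf : Measurable f)
    (hb : ∀ z, ‖f z‖ ≤ C) (h0 : ∀ z, z ∉ K → f z = 0) : Integrable f :=
  (integrableOn_iff_integrable_of_support_subset (s := K)
    fun z hz => by_contra fun h => hz (h0 z h)).1
    (Measure.integrableOn_of_bounded hK.measure_lt_top.ne hf.aestronglyMeasurable
      (ae_of_all _ hb))

theorem Tst.bd {O : Set ℂ} {φ : ℂ → ℝ} (h : Tst O φ) : ∃ C : ℝ, 0 ≤ C ∧ (∀ z, ‖gr φ z‖ ≤ C) ∧
    (∀ z, |φ z| ≤ C) ∧ (∀ z, z ∉ tsupport φ → gr φ z = 0) ∧ Integrable fun z => ‖gr φ z‖ ^ 2 := by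
  obtain ⟨⟨K, hK⟩, hc, -⟩ := h
  obtain ⟨M, hM⟩ := hK.continuous.bounded_above_of_compact_support hc
  have h1 : ∀ z, ‖gr φ z‖ ≤ K := fun z => (norm_dz φ z).2.1.trans_le
    (norm_fderiv_le_of_lipschitz ℝ hK)
  have h2 : ∀ z, z ∉ tsupport φ → gr φ z = 0 := fun z hz => by
    rw [← norm_eq_zero, (norm_dz φ z).2.1, fderiv_of_notMem_tsupport ℝ hz, norm_zero]
  refine ⟨max K M, le_max_of_le_left K.2, fun z => le_max_of_le_left (h1 z),
    fun z => le_max_of_le_right (hM z), h2, int_Tst (C := K ^ 2) hc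
      ((EARN.measurable_gr φ).1.norm.pow_const 2) (fun z => ?_) fun z hz => by simp [h2 z hz]⟩
  rw [norm_pow, norm_norm]
  exact pow_le_pow_left₀ (norm_nonneg _) (h1 z) 2

theorem lip_bd {O K : Set ℂ} {u : ℂ → ℝ} (hO : IsOpen O) (hu : LocallyLipschitzOn O u)
    (hK : IsCompact K) (h : K ⊆ O) : ∃ C : ℝ, ∀ z ∈ K, ‖gr u z‖ ≤ C := by
  obtain ⟨L, hL, h1, h2⟩ := exists_compact_between hK hO h
  obtain ⟨C, hC⟩ := LocallyLipschitzOn.exists_lipschitzOnWith_of_compact hL (hu.mono h2)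
  exact ⟨C, fun z hz => (norm_dz u z).2.1.trans_le
    (norm_fderiv_le_of_lipschitzOn ℝ (mem_interior_iff_mem_nhds.1 (h1 hz)) hC)⟩

theorem int2_Tst {O : Set ℂ} {φ w : ℂ → ℝ} (hφ : Tst O φ) (hw : Tst O w) (v : ℂ) :
    Integrable fun z => φ z * fderiv ℝ w z v := by
  obtain ⟨C, -, -, h1, -⟩ := hφ.bd
  obtain ⟨K, hK⟩ := hw.1
  obtain ⟨K', hK'⟩ := hφ.1
  refine int_Tst (C := C * (K * ‖v‖)) hφ.2.1
    (hK'.continuous.measurable.mul (measurable_fderiv_apply_const ℝ w v)) (fun z => ?_)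
    fun z hz => by rw [image_eq_zero_of_notMem_tsupport hz, zero_mul]
  rw [norm_mul]
  exact mul_le_mul (h1 z) ((fderiv ℝ w z).le_of_opNorm_le (norm_fderiv_le_of_lipschitz ℝ hK) v)
    (norm_nonneg _) ((abs_nonneg _).trans (h1 z))

theorem ibp_Tst {O : Set ℂ} {φ u : ℂ → ℝ} (hO : IsOpen O) (hφ : Tst O φ)
    (hu : LocallyLipschitzOn O u) (v : ℂ) : (Integrable fun z => u z * fderiv ℝ φ z v) ∧
      (Integrable fun z => φ z * fderiv ℝ u z v) ∧
      ∫ z, u z * fderiv ℝ φ z v = -∫ z, φ z * fderiv ℝ u z v := by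
  obtain ⟨L, hL, h1, h2⟩ := exists_compact_between hφ.2.1 hO hφ.2.2
  obtain ⟨χ, -, c1, -, c2⟩ := exists_cut hO hL h2
  have hw := c1.mul hO hu
  have e1 : (fun z => u z * fderiv ℝ φ z v) = fun z => χ z * u z * fderiv ℝ φ z v := by
    funext z
    by_cases hz : z ∈ tsupport φ
    · rw [c2 z (interior_subset (h1 hz)), one_mul]
    · simp [fderiv_of_notMem_tsupport ℝ hz]
  have e2 : (fun z => φ z * fderiv ℝ u z v) =
      fun z => φ z * fderiv ℝ (fun z => χ z * u z) z v := by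
    funext z
    by_cases hz : z ∈ tsupport φ
    · have : (fun z => χ z * u z) =ᶠ[𝓝 z] u := by
        filter_upwards [mem_interior_iff_mem_nhds.1 (h1 hz)] with y hy
        rw [c2 y hy, one_mul]
      rw [this.fderiv_eq]
    · simp [image_eq_zero_of_notMem_tsupport hz]
  rw [e1, e2]
  refine ⟨int2_Tst hw hφ v, int2_Tst hφ hw v, ?_⟩
  obtain ⟨K, hK⟩ := hw.1
  obtain ⟨K', hK'⟩ := hφ.1
  have h3 := hK.integral_lineDeriv_mul_eq (μ := volume) hK' hφ.2.1 v
  rw [← neg_eq_iff_eq_neg, ← integral_neg]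
  refine (integral_congr_ae ?_).trans (h3.symm.trans (integral_congr_ae ?_))
  · filter_upwards [hK'.ae_differentiableAt (μ := volume)] with z hz
    rw [hz.lineDeriv_eq_fderiv, map_neg]
    ring
  · filter_upwards [hK.ae_differentiableAt (μ := volume)] with z hz
    rw [hz.lineDeriv_eq_fderiv, mul_comm]

theorem split_Tst {a b : ℂ → ℝ} (h1 : Integrable fun z => a z * fderiv ℝ b z 1)
    (h2 : Integrable fun z => a z * fderiv ℝ b z I) :
    ∫ z, (a z : ℂ) * gr b z = ((∫ z, a z * fderiv ℝ b z 1 : ℝ) : ℂ) +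
      I * ((∫ z, a z * fderiv ℝ b z I : ℝ) : ℂ) := by
  rw [← integral_complex_ofReal, ← integral_complex_ofReal, ← integral_const_mul]
  refine Eq.trans (integral_congr_ae (ae_of_all _ fun z => ?_))
    (integral_add h1.ofReal (h2.ofReal.const_mul I))
  simp only [gr, coe_algebraMap]
  push_cast
  ring

theorem ibp {O : Set ℂ} {φ u : ℂ → ℝ} (hO : IsOpen O) (hφ : Tst O φ)
    (hu : LocallyLipschitzOn O u) :
    ∫ z in O, (u z : ℂ) * gr φ z = -∫ z in O, (φ z : ℂ) * gr u z := by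
  obtain ⟨a1, a2, a3⟩ := ibp_Tst hO hφ hu 1
  obtain ⟨b1, b2, b3⟩ := ibp_Tst hO hφ hu I
  obtain ⟨C, -, -, -, h0, -⟩ := hφ.bd
  rw [setIntegral_eq_integral_of_forall_compl_eq_zero fun z hz => by
      rw [h0 z fun h => hz (hφ.2.2 h), mul_zero],
    setIntegral_eq_integral_of_forall_compl_eq_zero fun z hz => by
      rw [image_eq_zero_of_notMem_tsupport fun h => hz (hφ.2.2 h), ofReal_zero, zero_mul],
    split_Tst a1 b1, split_Tst a2 b2, a3, b3]
  push_cast
  ring

theorem curl {O : Set ℂ} {φ u : ℂ → ℝ} (hO : IsOpen O) (h : ContDiff ℝ (⊤ : ℕ∞) φ) (hφ : Tst O φ)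
    (hu : LocallyLipschitzOn O u) : ∫ z in O, jac u φ z = 0 := by
  have t : ∀ v : ℂ, Tst O fun z => fderiv ℝ φ z v := fun v => tst_of_smooth
    ((h.fderiv_right (m := (⊤ : ℕ∞)) (by simp)).clm_apply contDiff_const)
    (hφ.2.1.fderiv_apply ℝ v) ((tsupport_fderiv_apply_subset ℝ v).trans hφ.2.2)
  obtain ⟨-, a2, a3⟩ := ibp_Tst hO (t I) hu 1
  obtain ⟨-, b2, b3⟩ := ibp_Tst hO (t 1) hu I
  obtain ⟨C, -, -, -, h0, -⟩ := hφ.bd
  have e : ∀ z, jac u φ z = fderiv ℝ φ z I * fderiv ℝ u z 1 - fderiv ℝ φ z 1 * fderiv ℝ u z I :=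
    fun z => by
      simp [jac, gr]
      ring
  have h2 : ∀ z, ContDiffAt ℝ 2 φ z := fun z => h.contDiffAt.of_le (by norm_cast)
  rw [setIntegral_eq_integral_of_forall_compl_eq_zero fun z hz => by
    rw [jac, h0 z fun h => hz (hφ.2.2 h), mul_zero, zero_im]]
  simp only [e]
  simp only [fun z => EARN.symm_Calc (h2 z) I 1] at a3
  rw [integral_sub a2 b2]
  linarith

end Vale.Agent.P116
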