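import Vale.Agent.P116.S.Unif
import Vale.Agent.P116.S.Tst

/-! P116 S/Cacc (TASK, owner helper20). Definitions in S/Defs. Helper names end with `_Cacc`.
Cutoff `χ` from `exists_cut`, `d = a n - a m`, `φ = χ d` (`Tst.mul`), `gr φ = χ gr d + d gr χ` almost everywhere on `Q \ E` (`gr_add`). With `|d| ≤ η` on `tsupport χ` (`unif`), `‖gr χ‖ ≤ C`, `∫ ‖gr d‖² ≤ 4 M`, area of `Q` one:
`∫ ‖gr φ‖² ≤ 8 M + 2 C²`, `∫_K ‖gr d‖² ≤ ∫ χ ‖gr d‖² = ∫ ⟪gr d, gr φ⟫ - ∫ d ⟪gr d, gr χ⟫ ≤ 2 η √(8 M + 2 C²) + η C (1 + 4 M)` (`har` for `n` and `m`, `‖gr d‖ ≤ 1 + ‖gr d‖²`). -/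

open MeasureTheory Set Metric Filter Topology Complex
open scoped ENNReal ComplexConjugate

set_option linter.unusedVariables false

noncomputable section

namespace Vale.Agent.P116

open Vale.Agent.P128

variable {E : Set ℂ} {a : ℕ → TF E}

theorem pt_Cacc {x y p r : ℂ} {c b : ℝ} (hc : c ∈ Icc (0 : ℝ) 1)
    (hp : p = (c : ℂ) * (x - y) + r) (hr : ‖r‖ ≤ b) :
    c * ‖x - y‖ ^ 2 ≤ inner ℝ x p - inner ℝ y p + b * (1 + 2 * ‖x‖ ^ 2 + 2 * ‖y‖ ^ 2) ∧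
      ‖p‖ ^ 2 ≤ 2 * b ^ 2 + 4 * ‖x‖ ^ 2 + 4 * ‖y‖ ^ 2 := by
  have hb : 0 ≤ b := (norm_nonneg _).trans hr
  have g0 : 0 ≤ ‖x - y‖ := norm_nonneg _
  have g1 : ‖x - y‖ ≤ ‖x‖ + ‖y‖ := norm_sub_le _ _
  have g2 : ‖x - y‖ ^ 2 ≤ 2 * ‖x‖ ^ 2 + 2 * ‖y‖ ^ 2 := by
    have := pow_le_pow_left₀ g0 g1 2
    nlinarith [sq_nonneg (‖x‖ - ‖y‖)]
  constructor
  · have e : inner ℝ x p - inner ℝ y p = c * ‖x - y‖ ^ 2 + inner ℝ (x - y) r := by
      rw [← inner_sub_left, hp, inner_add_right, ← Complex.real_smul, real_inner_smul_right,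
        real_inner_self_eq_norm_sq]
    have h1 : |inner ℝ (x - y) r| ≤ ‖x - y‖ * b :=
      (abs_real_inner_le_norm _ _).trans (mul_le_mul_of_nonneg_left hr g0)
    have h2 : ‖x - y‖ ≤ 1 + 2 * ‖x‖ ^ 2 + 2 * ‖y‖ ^ 2 := by nlinarith [sq_nonneg (‖x - y‖ - 1)]
    have h3 := mul_le_mul_of_nonneg_left h2 hb
    have h4 := (abs_le.1 h1).1
    rw [e]
    nlinarith
  · have h1 : ‖p‖ ≤ ‖x - y‖ + b := by
      rw [hp]
      refine (norm_add_le _ _).trans (add_le_add ?_ hr)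
      rw [norm_mul, Complex.norm_real, Real.norm_of_nonneg hc.1]
      exact mul_le_of_le_one_left g0 hc.2
    have := pow_le_pow_left₀ (norm_nonneg _) h1 2
    nlinarith [sq_nonneg (‖x - y‖ - b)]

theorem inn_Cacc {O : Set ℂ} {u φ : ℂ → ℝ} (iu : IntegrableOn (fun z => ‖gr u z‖ ^ 2) O)
    (ip : IntegrableOn (fun z => ‖gr φ z‖ ^ 2) O) :
    IntegrableOn (fun z => inner ℝ (gr u z) (gr φ z)) O := by
  refine (iu.add ip).mono'
    ((EARN.measurable_gr u).1.inner (EARN.measurable_gr φ).1).aestronglyMeasurable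
    (Eventually.of_forall fun z => ?_)
  have := abs_real_inner_le_norm (gr u z) (gr φ z)
  rw [Real.norm_eq_abs, Pi.add_apply]
  nlinarith [sq_nonneg (‖gr u z‖ - ‖gr φ z‖), norm_nonneg (gr u z), norm_nonneg (gr φ z)]

theorem lin_Cacc {O : Set ℂ} {f g : ℂ → ℝ} {b c M : ℝ} (hv : volume O ≤ 1) (hb : 0 ≤ b)
    (hc : 0 ≤ c) (iu : IntegrableOn f O) (iv : IntegrableOn g O) (mu : ∫ z in O, f z ≤ M)
    (mv : ∫ z in O, g z ≤ M) : IntegrableOn (fun z => b + c * f z + c * g z) O ∧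
      ∫ z in O, (b + c * f z + c * g z) ≤ b + 2 * c * M := by
  have hf : volume O ≠ ∞ := ne_top_of_le_ne_top ENNReal.one_ne_top hv
  have i0 : IntegrableOn (fun _ : ℂ => b) O := integrableOn_const hf
  have i1 : IntegrableOn (fun z => b + c * f z) O := i0.add (iu.const_mul c)
  refine ⟨i1.add (iv.const_mul c), ?_⟩
  rw [integral_add i1 (iv.const_mul c), integral_add i0 (iu.const_mul c), integral_const_mul,
    integral_const_mul, setIntegral_const, smul_eq_mul]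
  have h1 : volume.real O ≤ 1 := by
    rw [measureReal_def]
    exact (ENNReal.toReal_mono ENNReal.one_ne_top hv).trans_eq ENNReal.toReal_one
  have h2 := mul_le_mul_of_nonneg_right h1 hb
  have h3 := mul_le_mul_of_nonneg_left mu hc
  have h4 := mul_le_mul_of_nonneg_left mv hc
  linarith

theorem core_Cacc {O K : Set ℂ} {χ u v : ℂ → ℝ} {C M η : ℝ} (hO : IsOpen O) (hv : volume O ≤ 1)
    (hK : MeasurableSet K) (hs : K ⊆ O) (hd : Differentiable ℝ χ) (hχ : Tst O χ)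
    (h01 : ∀ z, χ z ∈ Icc (0 : ℝ) 1) (h1 : ∀ z ∈ K, χ z = 1) (hC0 : 0 ≤ C)
    (hC : ∀ z, ‖gr χ z‖ ≤ C) (h0 : ∀ z, z ∉ tsupport χ → gr χ z = 0)
    (lu : LocallyLipschitzOn O u) (lv : LocallyLipschitzOn O v)
    (iu : IntegrableOn (fun z => ‖gr u z‖ ^ 2) O) (iv : IntegrableOn (fun z => ‖gr v z‖ ^ 2) O)
    (mu : ∫ z in O, ‖gr u z‖ ^ 2 ≤ M) (mv : ∫ z in O, ‖gr v z‖ ^ 2 ≤ M) (hη : 0 ≤ η)
    (hη1 : η ≤ 1) (hn : ∀ z ∈ tsupport χ, |u z - v z| ≤ η)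
    (au : ∀ φ, Tst O φ → |∫ z in O, inner ℝ (gr u z) (gr φ z)| ≤ η * √(∫ z, ‖gr φ z‖ ^ 2))
    (av : ∀ φ, Tst O φ → |∫ z in O, inner ℝ (gr v z) (gr φ z)| ≤ η * √(∫ z, ‖gr φ z‖ ^ 2)) :
    ∫ z in K, ‖gr u z - gr v z‖ ^ 2 ≤
      η * (2 * √(2 * C ^ 2 + 2 * 4 * M) + C * (1 + 2 * 2 * M)) := by
  have hφ : Tst O fun z => χ z * (u z - v z) := hχ.mul hO (lu.sub lv)
  set φ : ℂ → ℝ := fun z => χ z * (u z - v z) with eφ
  obtain ⟨-, -, -, -, z0, ip⟩ := hφ.bd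
  have hb : 0 ≤ η * C := mul_nonneg hη hC0
  have key : ∀ᵐ z ∂(volume.restrict O), χ z * ‖gr u z - gr v z‖ ^ 2 ≤
      inner ℝ (gr u z) (gr φ z) - inner ℝ (gr v z) (gr φ z) +
        η * C * (1 + 2 * ‖gr u z‖ ^ 2 + 2 * ‖gr v z‖ ^ 2) ∧
      ‖gr φ z‖ ^ 2 ≤ 2 * (η * C) ^ 2 + 4 * ‖gr u z‖ ^ 2 + 4 * ‖gr v z‖ ^ 2 := by
    rw [ae_restrict_iff' hO.measurableSet]
    filter_upwards [ae_diff hO lu, ae_diff hO lv] with z d1 d2 hz
    refine pt_Cacc (r := ((u z - v z : ℝ) : ℂ) * gr χ z) (h01 z) ?_ ?_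
    · rw [← (EARN.gr_add (d1 hz) (d2 hz)).2.1]
      exact (EARN.gr_add (hd z) ((d1 hz).sub (d2 hz))).2.2.2.2
    · by_cases ht : z ∈ tsupport χ
      · rw [norm_mul, Complex.norm_real, Real.norm_eq_abs]
        exact mul_le_mul (hn z ht) (hC z) (norm_nonneg _) hη
      · rw [h0 z ht, mul_zero, norm_zero]
        exact hb
  have A := lin_Cacc (b := 2 * C ^ 2) (c := 4) hv (by positivity) (by norm_num) iu iv mu mv
  have B := lin_Cacc (b := 1) (c := 2) hv (by norm_num) (by norm_num) iu iv mu mv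
  have s1 : ∫ z, ‖gr φ z‖ ^ 2 ≤ 2 * C ^ 2 + 2 * 4 * M := by
    rw [← setIntegral_eq_integral_of_forall_compl_eq_zero (s := O) fun z hz => by
      rw [z0 z fun ht => hz (hφ.2.2 ht), norm_zero, zero_pow two_ne_zero]]
    refine (integral_mono_ae ip.integrableOn A.1 ?_).trans A.2
    filter_upwards [key] with z hz
    have : (η * C) ^ 2 ≤ C ^ 2 := pow_le_pow_left₀ hb (mul_le_of_le_one_left hC0 hη1) 2
    linarith [hz.2]
  have s2 := mul_le_mul_of_nonneg_left (Real.sqrt_le_sqrt s1) hη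
  have ju := inn_Cacc iu ip.integrableOn
  have jv := inn_Cacc iv ip.integrableOn
  have j1 : IntegrableOn (fun z => inner ℝ (gr u z) (gr φ z) - inner ℝ (gr v z) (gr φ z)) O :=
    ju.sub jv
  have j2 : IntegrableOn
      (fun z => η * C * (1 + 2 * ‖gr u z‖ ^ 2 + 2 * ‖gr v z‖ ^ 2)) O := B.1.const_mul _
  have s3 : ∫ z in K, ‖gr u z - gr v z‖ ^ 2 ≤ ∫ z in O, (inner ℝ (gr u z) (gr φ z) -
      inner ℝ (gr v z) (gr φ z) + η * C * (1 + 2 * ‖gr u z‖ ^ 2 + 2 * ‖gr v z‖ ^ 2)) := by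
    have e : ∫ z in K, ‖gr u z - gr v z‖ ^ 2 =
        ∫ z in O, K.indicator (fun z => ‖gr u z - gr v z‖ ^ 2) z := by
      rw [integral_indicator hK, Measure.restrict_restrict hK, inter_eq_left.2 hs]
    rw [e]
    refine integral_mono_of_nonneg
      (Eventually.of_forall fun z => indicator_nonneg (fun _ _ => sq_nonneg _) z) (j1.add j2) ?_
    filter_upwards [key] with z hz
    refine le_trans ?_ hz.1
    by_cases hk : z ∈ K
    · rw [indicator_of_mem hk, h1 z hk, one_mul]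
    · rw [indicator_of_notMem hk]
      exact mul_nonneg (h01 z).1 (sq_nonneg _)
  rw [integral_add j1 j2, integral_sub ju jv, integral_const_mul] at s3
  have s4 := mul_le_mul_of_nonneg_left B.2 hb
  have s5 := (abs_le.1 (au φ hφ)).2
  have s6 := (abs_le.1 (av φ hφ)).1
  nlinarith

theorem Good.cauchy (hE : Dom E) (h : Good a) {K : Set ℂ} (hK : IsCompact K) (hs : K ⊆ Q \ E)
    {ε : ℝ} (hε : 0 < ε) : ∃ S ∈ UF, ∀ n ∈ S, ∀ m ∈ S,
      ∫ z in K, ‖gr (a n).hi z - gr (a m).hi z‖ ^ 2 ≤ ε := by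
  obtain ⟨χ, hd, hχ, h01, h1⟩ := exists_cut hE.op hK hs
  obtain ⟨C, hC0, hC, -, h0, -⟩ := hχ.bd
  obtain ⟨M, hM⟩ := h.bd
  have mu : ∀ n, ∫ z in Q \ E, ‖gr (a n).hi z‖ ^ 2 ≤ M := fun n =>
    ((h.fn n).dir_le subset_rfl).trans (hM n)
  have hM0 : 0 ≤ M := (integral_nonneg fun z => sq_nonneg _).trans (mu 0)
  have hv : volume (Q \ E) ≤ 1 := (measure_mono sdiff_subset).trans_eq vol_Q
  obtain ⟨B, hB⟩ : ∃ B, B = 2 * √(2 * C ^ 2 + 2 * 4 * M) + C * (1 + 2 * 2 * M) := ⟨_, rfl⟩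
  have hB0 : 0 ≤ B := by rw [hB]; positivity
  obtain ⟨η, hη, hη1, hηB⟩ : ∃ η : ℝ, 0 < η ∧ η ≤ 1 ∧ η * B ≤ ε := by
    refine ⟨min 1 (ε / (B + 1)), lt_min one_pos (by positivity), min_le_left _ _, ?_⟩
    refine (mul_le_mul_of_nonneg_right (min_le_right _ _) hB0).trans ?_
    rw [div_mul_eq_mul_div, div_le_iff₀ (by positivity)]
    nlinarith
  have u1 := Metric.tendstoUniformlyOn_iff.1 (h.unif hE hχ.2.1.isCompact hχ.2.2) (η / 2)
    (half_pos hη)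
  have u2 := (h.har η hη).filter_mono UF_le
  refine ⟨_, u1.and u2, fun n hn m hm => ?_⟩
  refine (core_Cacc hE.op hv hK.measurableSet hs (hd.differentiable (by simp)) hχ h01 h1 hC0 hC h0
    (a n).lip (a m).lip (h.fn n).1 (h.fn m).1 (mu n) (mu m) hη.le hη1 (fun z hz => ?_)
    hn.2 hm.2).trans (hB ▸ hηB)
  have d1 := hn.1 z hz
  have d2 := hm.1 z hz
  rw [Real.dist_eq, abs_lt] at d1 d2
  exact abs_le.2 ⟨by linarith [d1.1, d2.2], by linarith [d1.2, d2.1]⟩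

end Vale.Agent.P116
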