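import Vale.Agent.P116.S.Ineq

/-! P116 S/Ui (TASK, owner helper20). Definitions in S/Defs. Helper names end with `_Ui`.
Uniform integrability. `ui_one`: one integrable function: `Q \ E` is an increasing union of compact sets, or `IsOpen.exists_lt_isCompact` / `MeasurableSet.exists_isCompact_diff_lt` with `exists_pos_setLIntegral_lt_of_measure_lt`;
one summable family: `tendsto_tsum_compl_atTop_zero`. `ui_gen`: `X² ≤ 2 (X - t Y)² + 2 t² Y²` for `n ≥ N`; take the union of the compact sets and finsets for `b` and the finitely many `n < N`; monotonicity in `K`, `F`. -/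

open MeasureTheory Set Metric Filter Topology Complex
open scoped ENNReal ComplexConjugate

set_option linter.unusedVariables false

noncomputable section

namespace Vale.Agent.P116

open Vale.Agent.P128

variable {E : Set ℂ}

theorem ui_one (hE : Dom E) {a : TF E} (ha : a.Fn) {ε : ℝ} (hε : 0 < ε) :
    ∃ (K : Set ℂ) (F : Finset (Cp E)), IsCompact K ∧ K ⊆ Q \ E ∧
      ∫ z in (Q \ E) \ K, ‖gr a.hi z‖ ^ 2 ≤ ε ∧ ∑' c : {c // c ∉ F}, a.osc c ^ 2 ≤ ε := by
  obtain ⟨K, h1, h2, h3, h4⟩ :=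
    IsOpen.exists_iUnion_isClosed (U := Q \ E)
      ((isOpen_Ioo.reProdIm isOpen_Ioo).sdiff hE.cpt.isClosed)
  have h5 := tendsto_setIntegral_of_monotone (fun n => (h1 n).measurableSet) h4 (h3.symm ▸ ha.1)
  rw [h3] at h5
  obtain ⟨n, hn⟩ := (h5.eventually (lt_mem_nhds (sub_lt_self _ hε))).exists
  obtain ⟨F, hF⟩ := ((tendsto_tsum_compl_atTop_zero fun c => a.osc c ^ 2).eventually
    (gt_mem_nhds hε)).exists
  refine ⟨K n, F, isCompact_of_isClosed_isBounded (h1 n)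
    (((isBounded_Ioo 0 1).reProdIm (isBounded_Ioo 0 1)).subset ((h2 n).trans sdiff_subset)), h2 n,
    ?_, hF.le⟩
  rw [setIntegral_sdiff (h1 n).measurableSet ha.1 (h2 n)]
  linarith

theorem ui_mono {a : TF E} (ha : a.Fn) {K K' : Set ℂ} {F F' : Finset (Cp E)} (hK : K ⊆ K')
    (hF : F ⊆ F') : ∫ z in (Q \ E) \ K', ‖gr a.hi z‖ ^ 2 ≤ ∫ z in (Q \ E) \ K, ‖gr a.hi z‖ ^ 2 ∧
      ∑' c : {c // c ∉ F'}, a.osc c ^ 2 ≤ ∑' c : {c // c ∉ F}, a.osc c ^ 2 := by
  exact ⟨setIntegral_mono_set (ha.1.mono_set sdiff_subset)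
    (Eventually.of_forall fun _ => sq_nonneg _) (sdiff_subset_sdiff_right hK).eventuallyLE,
    Summable.tsum_le_tsum_of_inj (fun c : {c // c ∉ F'} => (⟨c.1, fun h => c.2 (hF h)⟩ : {c // c ∉ F}))
      (fun c c' e => Subtype.ext (Subtype.mk.inj e)) (fun _ _ => sq_nonneg _) (fun _ => le_rfl)
      (ha.2.subtype _) (ha.2.subtype _)⟩

theorem ui_gen (hE : Dom E) {a : ℕ → TF E} (ha : ∀ n, (a n).Fn)
    (h : ∀ ε : ℝ, 0 < ε → ∃ (N : ℕ) (b : TF E) (t : ℝ), b.Fn ∧ ∀ n, N ≤ n →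
      ∫ z in Q \ E, (‖gr (a n).hi z‖ - t * ‖gr b.hi z‖) ^ 2 ≤ ε ∧
        ∑' c, ((a n).osc c - t * b.osc c) ^ 2 ≤ ε) {ε : ℝ} (hε : 0 < ε) :
    ∃ (K : Set ℂ) (F : Finset (Cp E)), IsCompact K ∧ K ⊆ Q \ E ∧ ∀ n,
      ∫ z in (Q \ E) \ K, ‖gr (a n).hi z‖ ^ 2 ≤ ε ∧ ∑' c : {c // c ∉ F}, (a n).osc c ^ 2 ≤ ε := by
  classical
  obtain ⟨N, b, t, hb, h⟩ := h (ε / 4) (by positivity)
  obtain ⟨K₀, F₀, k1, k2, k3, k4⟩ := ui_one hE hb (ε := ε / 4 / (t ^ 2 + 1)) (by positivity)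
  choose K F h1 h2 h3 using fun n => ui_one hE (ha n) hε
  have e : t ^ 2 * (ε / 4 / (t ^ 2 + 1)) ≤ ε / 4 := by
    rw [← mul_div_assoc, div_le_iff₀ (by positivity)]
    nlinarith
  have i : ∀ x y : ℝ, x ^ 2 ≤ 2 * (x - t * y) ^ 2 + 2 * t ^ 2 * y ^ 2 := fun x y => by
    nlinarith [sq_nonneg (x - 2 * t * y)]
  refine ⟨K₀ ∪ ⋃ n ∈ Finset.range N, K n, F₀ ∪ (Finset.range N).biUnion F,
    k1.union ((Finset.range N).isCompact_biUnion fun n _ => h1 n),
    union_subset k2 (iUnion₂_subset fun n _ => h2 n), fun n => ?_⟩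
  rcases lt_or_ge n N with hn | hn
  · have h4 := ui_mono (ha n) (K := K n) (F := F n)
      ((subset_biUnion_of_mem (u := K) (Finset.mem_range.2 hn)).trans (subset_union_right (s := K₀)))
      ((Finset.subset_biUnion_of_mem F (Finset.mem_range.2 hn)).trans
        (Finset.subset_union_right (s₁ := F₀)))
    exact ⟨h4.1.trans (h3 n).1, h4.2.trans (h3 n).2⟩
  have h4 := ui_mono (ha n) (K := K₀) (F := F₀) (K' := K₀ ∪ ⋃ n ∈ Finset.range N, K n)
    (F' := F₀ ∪ (Finset.range N).biUnion F) subset_union_left Finset.subset_union_left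
  refine ⟨h4.1.trans ?_, h4.2.trans ?_⟩
  · have m : ∀ c : TF E, c.Fn → MemLp (fun z => ‖gr c.hi z‖) 2 (volume.restrict (Q \ E)) :=
      fun c hc => (memLp_two_iff_integrable_sq
        (EARN.measurable_gr c.hi).1.norm.aestronglyMeasurable).2 hc.1
    have h5 : IntegrableOn (fun z => (‖gr (a n).hi z‖ - t * ‖gr b.hi z‖) ^ 2) (Q \ E) :=
      ((m _ (ha n)).sub ((m b hb).const_mul t)).integrable_sq
    have h6 : IntegrableOn _ ((Q \ E) \ K₀) := h5.mono_set sdiff_subset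
    have h7 : IntegrableOn _ ((Q \ E) \ K₀) := hb.1.mono_set sdiff_subset
    have h8 := setIntegral_mono_set h5 (Eventually.of_forall fun _ => sq_nonneg _)
      (sdiff_subset (t := K₀)).eventuallyLE
    refine (integral_mono ((ha n).1.mono_set sdiff_subset)
      ((h6.const_mul 2).add (h7.const_mul (2 * t ^ 2))) fun z => i _ _).trans ?_
    simp only [Pi.add_apply]
    rw [integral_add (h6.const_mul 2) (h7.const_mul _), integral_const_mul, integral_const_mul]
    nlinarith [(h n hn).1, mul_le_mul_of_nonneg_left k3 (sq_nonneg t)]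
  · have h5 : Summable fun c => ((a n).osc c - t * b.osc c) ^ 2 :=
      .of_nonneg_of_le (fun _ => sq_nonneg _) (fun c => by
        nlinarith [sq_nonneg ((a n).osc c + t * b.osc c)])
        (((ha n).2.mul_left 2).add (hb.2.mul_left (2 * t ^ 2)))
    have h6 : Summable fun c : {c // c ∉ F₀} => ((a n).osc c - t * b.osc c) ^ 2 := h5.subtype _
    have h7 : Summable fun c : {c // c ∉ F₀} => b.osc c ^ 2 := hb.2.subtype _
    have h8 := h6.tsum_le_tsum_of_inj (g := fun c => ((a n).osc c - t * b.osc c) ^ 2) Subtype.val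
      Subtype.val_injective (fun _ _ => sq_nonneg _) (fun _ => le_rfl) h5
    have h9 : Summable fun c : {c // c ∉ F₀} => (a n).osc c ^ 2 := (ha n).2.subtype _
    refine (h9.tsum_le_tsum (fun c : {c // c ∉ F₀} => i ((a n).osc c) (b.osc c))
      ((h6.mul_left 2).add (h7.mul_left (2 * t ^ 2)))).trans ?_
    rw [(h6.mul_left 2).tsum_add (h7.mul_left _), tsum_mul_left, tsum_mul_left]
    nlinarith [(h n hn).2, mul_le_mul_of_nonneg_left k4 (sq_nonneg t)]

end Vale.Agent.P116
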