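import Vale.Agent.P116.S.Equi

/-! P116 S/Unif (TASK, owner helper20). Definitions in S/Defs. Helper names end with `_Unif`.
Pointwise limits by `tendsto_UF`. `osc_le` gives equicontinuity at each point of `Q \ E` (choose `r = R exp (-L)`); the limit inherits the estimate; `tendstoLocallyUniformlyOn_iff_forall_isCompact` or a finite cover of `K` by small balls
(`IsCompact.elim_nhds_subcover`, `Metric.tendstoUniformlyOn_iff`, `Filter.eventually_all_finset`). -/

open MeasureTheory Set Metric Filter Topology Complex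
open scoped ENNReal ComplexConjugate

set_option linter.unusedVariables false

noncomputable section

namespace Vale.Agent.P116

open Vale.Agent.P128

variable {E : Set ℂ} {a : ℕ → TF E}

theorem Good.lo (h : Good a) {z : ℂ} (hz : z ∈ Qc) : Tendsto (fun n => (a n).lo z) UF (𝓝 (uL a z)) := by
  exact tendsto_UF fun n => ⟨(h.mem n z hz).1, ((a n).le z).trans (h.mem n z hz).2⟩

theorem Good.hi (h : Good a) {z : ℂ} (hz : z ∈ Qc) : Tendsto (fun n => (a n).hi z) UF (𝓝 (uH a z)) := by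
  exact tendsto_UF fun n => ⟨(h.mem n z hz).1.trans ((a n).le z), (h.mem n z hz).2⟩

theorem Good.range (h : Good a) {z : ℂ} (hz : z ∈ Qc) : 0 ≤ uL a z ∧ uL a z ≤ uH a z ∧ uH a z ≤ 1 := by
  have := UF_ne
  exact ⟨ge_of_tendsto' (h.lo hz) fun n => (h.mem n z hz).1,
    le_of_tendsto_of_tendsto' (h.lo hz) (h.hi hz) fun n => (a n).le z,
    le_of_tendsto' (h.hi hz) fun n => (h.mem n z hz).2⟩

theorem Good.equi (hE : Dom E) (h : Good a) {z₀ : ℂ} (hz : z₀ ∈ Q \ E) {ε : ℝ} (hε : 0 < ε) :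
    ∀ᶠ z in 𝓝 z₀, ∀ n, |(a n).hi z - (a n).hi z₀| ≤ ε := by
  obtain ⟨M, hM⟩ := h.bd
  obtain ⟨R, hR, hB⟩ := nhds_basis_closedBall.mem_iff.1 (hE.op.mem_nhds hz)
  obtain ⟨L, hL⟩ : ∃ L, L = 2 * Real.pi * |M| / ε ^ 2 + 1 := ⟨_, rfl⟩
  have hL0 : 0 < L := by
    rw [hL]
    positivity
  have hL1 : ε ^ 2 * L = 2 * Real.pi * |M| + ε ^ 2 := by
    rw [hL]
    field_simp
  have hr : 0 < R / Real.exp L := by positivity
  have hrR : R / Real.exp L < R := div_lt_self hR (Real.one_lt_exp_iff.2 hL0)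
  filter_upwards [ball_mem_nhds z₀ hr] with z hz' n
  have h1 := osc_le hE (h.fn n) (h.mono n) hr hrR hB hz'
  rw [div_div_cancel₀ hR.ne', Real.log_exp] at h1
  have h2 := mul_le_mul_of_nonneg_left ((hM n).trans (le_abs_self M))
    (by positivity : 0 ≤ 2 * Real.pi)
  refine abs_le.2 (abs_le_of_sq_le_sq' (le_of_mul_le_mul_right ?_ hL0) hε.le)
  linarith [sq_nonneg ε]

theorem lim_Unif (hE : Dom E) (h : Good a) {z₀ : ℂ} (hz : z₀ ∈ Q \ E) {ε : ℝ} (hε : 0 < ε) :
    ∀ᶠ z in 𝓝 z₀, |uH a z - uH a z₀| ≤ ε := by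
  have := UF_ne
  filter_upwards [h.equi hE hz hε, hE.op.mem_nhds hz] with z h1 h2
  exact le_of_tendsto' ((h.hi (Q_sub h2.1)).sub (h.hi (Q_sub hz.1))).abs h1

theorem Good.cont (hE : Dom E) (h : Good a) : ContinuousOn (uH a) (Q \ E) := by
  intro z₀ hz
  refine (Metric.continuousAt_iff'.2 fun ε hε => ?_).continuousWithinAt
  filter_upwards [lim_Unif hE h hz (half_pos hε)] with z h1
  exact h1.trans_lt (half_lt_self hε)

theorem Good.unif (hE : Dom E) (h : Good a) {K : Set ℂ} (hK : IsCompact K) (hs : K ⊆ Q \ E) :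
    TendstoUniformlyOn (fun n => (a n).hi) (uH a) UF K := by
  refine Metric.tendstoUniformlyOn_iff.2 fun ε hε => ?_
  have hε3 : 0 < ε / 3 := by positivity
  obtain ⟨t, ht, hc⟩ := hK.elim_nhds_subcover
    (fun x => {z | (∀ n, |(a n).hi z - (a n).hi x| ≤ ε / 3) ∧ |uH a z - uH a x| ≤ ε / 3})
    fun x hx => (h.equi hE (hs hx) hε3).and (lim_Unif hE h (hs hx) hε3)
  have h1 : ∀ᶠ n in UF, ∀ x ∈ t, dist ((a n).hi x) (uH a x) < ε / 3 :=
    (eventually_all_finset t).2 fun x hx =>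
      Metric.tendsto_nhds.1 (h.hi (Q_sub (hs (ht x hx)).1)) _ hε3
  filter_upwards [h1] with n hn z hz
  obtain ⟨x, hx, h2, h3⟩ := mem_iUnion₂.1 (hc hz)
  have h4 := abs_lt.1 (hn x hx)
  have h5 := abs_le.1 (h2 n)
  have h6 := abs_le.1 h3
  rw [Real.dist_eq, abs_lt]
  constructor <;> linarith [h4.1, h4.2, h5.1, h5.2, h6.1, h6.2]

end Vale.Agent.P116
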