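import Vale.Agent.P116.S.Whisk
import Vale.Agent.P116.S.Unif
import Vale.Agent.P116.S.Ui
import Vale.Agent.P116.S.Sat

/-! P116 S/Clu (TASK, owner helper20). Definitions in S/Defs. Helper names end with `_Clu`.
`η = δ / 10`, `ε = η² / 4`; `K`, `F` from `ui`, replace `F` by `insert c F` (`ui_mono`); `U` from `Cp.sat` inside `(Q \ K) \ ⋃ c' ∈ F.erase c`. `S ∈ UF`: `|a n - uH| < η / 2` on `frontier U` (`unif`) and at `c.pt` for `hi` and `lo`. Fix `n ∈ S`, `h₀ = (a n).hi c.pt`.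
For `m ∈ S` pick `(y, t) ∈ (h₀ + 2η, h₀ + 3η) × (h₀ + 4η, h₀ + 5η)` outside `img` (`area_small`, `exists_not_mem`); points of `c` have `y ∉ [lo, hi]`, `t ∉ [lo, hi]`; other points of `U` have oscillation `≤ η` (one term of the sum).
`whisk_up`: `(a m).hi ≤ h₀ + 6η` on `U ∩ {(a n).hi < h₀ + η} \ E`; let `m → UF` (`le_of_tendsto`). The lower bound is symmetric (`whisk_dn`, `open_lo`). -/

open MeasureTheory Set Metric Filter Topology Complex
open scoped ENNReal ComplexConjugate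

set_option linter.unusedVariables false

noncomputable section

namespace Vale.Agent.P116

open Vale.Agent.P128

variable {E : Set ℂ} {a : ℕ → TF E}

theorem setup_Clu (hE : Dom E) (h : Good a) (c : Cp E) {η : ℝ} (hη : 0 < η) :
    ∃ U, IsOpen U ∧ c.1 ⊆ U ∧ IsCompact (closure U) ∧ closure U ⊆ Q ∧ Disjoint (frontier U) E ∧
      (∀ n m, volume ((a n).img (a m) (U \ c.1)) < ENNReal.ofReal (η * η)) ∧
      (∀ n, ∀ z ∈ U \ c.1, (a n).hi z - (a n).lo z ≤ η) ∧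
      ∀ᶠ n in UF, (∀ z ∈ frontier U, |uH a z - (a n).hi z| < η / 2) ∧
        |(a n).hi c.pt - uH a c.pt| < η / 2 ∧ |(a n).lo c.pt - uL a c.pt| < η / 2 := by
  classical
  obtain ⟨K, F, hK, hKQ, hu⟩ := h.ui (η * η / 4) (by positivity)
  have hu' : ∀ n, ∑' c' : {c' // c' ∉ insert c F}, (a n).osc c' ^ 2 ≤ η * η / 4 := fun n =>
    (ui_mono (h.fn n) (subset_refl K) (Finset.subset_insert c F)).2.trans (hu n).2
  have hV : IsOpen ((Q \ K) \ ⋃ c' ∈ F.erase c, c'.1) :=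
    (isOpen_Q.sdiff hK.isClosed).sdiff
      ((F.erase c).isCompact_biUnion fun c' _ => c'.cpt hE.cpt).isClosed
  have hcV : c.1 ⊆ (Q \ K) \ ⋃ c' ∈ F.erase c, c'.1 := by
    intro z hz
    refine ⟨⟨hE.sub (c.sub hz), fun hk => (hKQ hk).2 (c.sub hz)⟩, fun h1 => ?_⟩
    obtain ⟨c', h2, h3⟩ := mem_iUnion₂.1 h1
    exact Finset.ne_of_mem_erase h2 (Cp.ext_mem h3 hz)
  obtain ⟨U, u1, u2, u3, u4, u5⟩ := c.sat hE.cpt hV hcV
  have hQ : closure U ⊆ Q := fun z hz => (u3 hz).1.1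
  have hsub : U \ c.1 ⊆ (Q \ K) \ ⋃ c' ∈ insert c F, c'.1 := by
    intro z hz
    have h0 := u3 (subset_closure hz.1)
    refine ⟨h0.1, fun h1 => ?_⟩
    obtain ⟨c', h2, h3⟩ := mem_iUnion₂.1 h1
    by_cases e : c' = c
    · exact hz.2 (e ▸ h3)
    · exact h0.2 (mem_iUnion₂.2 ⟨c', Finset.mem_erase.2
        ⟨e, (Finset.mem_insert.1 h2).resolve_left e⟩, h3⟩)
  have hcQ : c.pt ∈ Qc := Q_sub (hE.sub c.pt_mem)
  refine ⟨U, u1, u2, u4, hQ, u5, fun n m => ?_, fun n z hz => ?_, ?_⟩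
  · have h1 := area_small hE (h.fn n) (h.fn m) (h.cmp n m) hK (insert c F) (hu n).1 (hu' n)
      (hu m).1 (hu' m)
    refine ((measure_mono (biUnion_subset_biUnion_left hsub)).trans h1).trans_lt ?_
    have h2 : 0 < η * η := mul_pos hη hη
    exact (ENNReal.ofReal_lt_ofReal_iff h2).2 (by linarith)
  · by_cases hz' : z ∈ E
    · have h1 : Cp.mk z hz' ∉ insert c F := fun h2 =>
        (hsub hz).2 (mem_iUnion₂.2 ⟨_, h2, Cp.mem_mk z hz'⟩)
      have h2 := ((h.fn n).2.subtype {c' | c' ∉ insert c F}).le_tsum ⟨Cp.mk z hz', h1⟩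
        fun j _ => sq_nonneg _
      have h3 : (a n).osc (Cp.mk z hz') ^ 2 ≤ η * η / 4 := h2.trans (hu' n)
      obtain ⟨h4, h5⟩ := (a n).at_pt (Cp.mem_mk z hz')
      rw [h4, h5]
      refine (abs_le_of_sq_le_sq' (a := (a n).osc (Cp.mk z hz')) ?_ hη.le).2
      nlinarith [mul_pos hη hη]
    · rw [(a n).eq z hz', sub_self]
      exact hη.le
  · have h1 := h.unif hE (u4.of_isClosed_subset isClosed_frontier frontier_subset_closure)
      fun z hz => ⟨hQ (frontier_subset_closure hz), disjoint_left.1 u5 hz⟩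
    filter_upwards [Metric.tendstoUniformlyOn_iff.1 h1 _ (half_pos hη),
      Metric.tendsto_nhds.1 (h.hi hcQ) _ (half_pos hη),
      Metric.tendsto_nhds.1 (h.lo hcQ) _ (half_pos hη)] with n h2 h3 h4
    exact ⟨h2, h3, h4⟩

theorem Good.clu_up (hE : Dom E) (h : Good a) (c : Cp E) {δ : ℝ} (hδ : 0 < δ) :
    ∃ U, IsOpen U ∧ c.1 ⊆ U ∧ ∀ z ∈ U \ E, uH a z ≤ uH a c.pt + δ := by
  obtain ⟨η, hη, rfl⟩ : ∃ η : ℝ, 0 < η ∧ δ = 10 * η := ⟨δ / 10, by positivity, by ring⟩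
  obtain ⟨U, u1, u2, u3, u4, u5, u6, u7, u8⟩ := setup_Clu hE h c hη
  have := UF_ne
  obtain ⟨n, n1, n2, -⟩ := u8.exists
  refine ⟨U ∩ {z | z ∈ Q ∧ (a n).hi z < (a n).hi c.pt + η}, u1.inter ((a n).open_hi _),
    fun z hz => ⟨u2 hz, hE.sub (c.sub hz), ?_⟩, fun z hz => ?_⟩
  · rw [((a n).at_pt hz).2]
    linarith
  have key : ∀ᶠ m in UF, (a m).hi z ≤ (a n).hi c.pt + 6 * η := by
    filter_upwards [u8] with m ⟨m1, m2, _⟩
    obtain ⟨y, hy, t, ht, hyt⟩ := exists_not_mem (S := (a n).img (a m) (U \ c.1))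
      (a := (a n).hi c.pt + 2 * η) (b := (a n).hi c.pt + 3 * η) (c := (a n).hi c.pt + 4 * η)
      (d := (a n).hi c.pt + 5 * η) (by linarith)
      ((u6 n m).trans_le (ENNReal.ofReal_le_ofReal (le_of_eq (by ring))))
    have h1 := whisk_up hE (h.mono n) (h.mono m) u1 u3 u4 u5 (y := y) (t := t) hη.le
      (fun x hx => ?_) (fun x hx hb => ?_) (fun x hx hb => ?_) (fun x hx hb => ?_) z
      ⟨hz.1.1, hz.2⟩ (by linarith [hz.1.2.2, hy.1])
    · linarith [ht.2]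
    · rcases lt_or_ge y ((a n).hi x) with h2 | h2
      · exact Or.inl h2
      · refine Or.inr ?_
        linarith [abs_lt.1 (n1 x hx), abs_lt.1 (m1 x hx), hy.2, ht.1]
    · by_cases hc : x ∈ c.1
      · have h2 : y ≤ (a n).hi x := hb.1.2
        rw [((a n).at_pt hc).2] at h2
        linarith [hy.1]
      · exact hyt (mem_iUnion₂.2 ⟨x, ⟨hx, hc⟩, hb⟩)
    · by_cases hc : x ∈ c.1
      · have h2 : y ≤ (a n).hi x := hb.2
        rw [((a n).at_pt hc).2] at h2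
        linarith [hy.1]
      · exact u7 n x ⟨hx, hc⟩
    · by_cases hc : x ∈ c.1
      · have h2 : t ≤ (a m).hi x := hb.2
        rw [((a m).at_pt hc).2] at h2
        linarith [ht.1, abs_lt.1 n2, abs_lt.1 m2]
      · exact u7 m x ⟨hx, hc⟩
  have h3 := le_of_tendsto (h.hi (Q_sub hz.1.2.1)) key
  linarith [abs_lt.1 n2]

theorem Good.clu_dn (hE : Dom E) (h : Good a) (c : Cp E) {δ : ℝ} (hδ : 0 < δ) :
    ∃ U, IsOpen U ∧ c.1 ⊆ U ∧ ∀ z ∈ U \ E, uL a c.pt - δ ≤ uH a z := by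
  obtain ⟨η, hη, rfl⟩ : ∃ η : ℝ, 0 < η ∧ δ = 10 * η := ⟨δ / 10, by positivity, by ring⟩
  obtain ⟨U, u1, u2, u3, u4, u5, u6, u7, u8⟩ := setup_Clu hE h c hη
  have := UF_ne
  obtain ⟨n, n1, -, n2⟩ := u8.exists
  refine ⟨U ∩ {z | z ∈ Q ∧ (a n).lo c.pt - η < (a n).lo z}, u1.inter ((a n).open_lo _),
    fun z hz => ⟨u2 hz, hE.sub (c.sub hz), ?_⟩, fun z hz => ?_⟩
  · rw [((a n).at_pt hz).1]
    linarith
  have key : ∀ᶠ m in UF, (a n).lo c.pt - 6 * η ≤ (a m).hi z := by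
    filter_upwards [u8] with m ⟨m1, _, m2⟩
    obtain ⟨y, hy, t, ht, hyt⟩ := exists_not_mem (S := (a n).img (a m) (U \ c.1))
      (a := (a n).lo c.pt - 3 * η) (b := (a n).lo c.pt - 2 * η) (c := (a n).lo c.pt - 5 * η)
      (d := (a n).lo c.pt - 4 * η) (by linarith)
      ((u6 n m).trans_le (ENNReal.ofReal_le_ofReal (le_of_eq (by ring))))
    have h1 := whisk_dn hE (h.mono n) (h.mono m) u1 u3 u4 u5 (y := y) (t := t) hη.le
      (fun x hx => ?_) (fun x hx hb => ?_) (fun x hx hb => ?_) (fun x hx hb => ?_) z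
      ⟨hz.1.1, hz.2⟩ (by linarith [hz.1.2.2, hy.2, (a n).le z])
    · linarith [ht.1]
    · rcases lt_or_ge ((a n).hi x) y with h2 | h2
      · exact Or.inl h2
      · refine Or.inr ?_
        linarith [abs_lt.1 (n1 x hx), abs_lt.1 (m1 x hx), hy.1, ht.2]
    · by_cases hc : x ∈ c.1
      · have h2 : (a n).lo x ≤ y := hb.1.1
        rw [((a n).at_pt hc).1] at h2
        linarith [hy.2]
      · exact hyt (mem_iUnion₂.2 ⟨x, ⟨hx, hc⟩, hb⟩)
    · by_cases hc : x ∈ c.1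
      · have h2 : (a n).lo x ≤ y := hb.1
        rw [((a n).at_pt hc).1] at h2
        linarith [hy.2]
      · exact u7 n x ⟨hx, hc⟩
    · by_cases hc : x ∈ c.1
      · have h2 : (a m).lo x ≤ t := hb.1
        rw [((a m).at_pt hc).1] at h2
        linarith [ht.2, abs_lt.1 n2, abs_lt.1 m2]
      · exact u7 m x ⟨hx, hc⟩
  have h3 := ge_of_tendsto (h.hi (Q_sub hz.1.2.1)) key
  linarith [abs_lt.1 n2]

end Vale.Agent.P116
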