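import Vale.Agent.P116.S.Pert
import Vale.Agent.P116.S.Ui

/-! P116 S/Good (TASK, owner helper20). Definitions in S/Defs. Helper names end with `_Good`.
`ui`: `ui_gen` with `Seq.near` (`b = w N`, `t = μ`; for `w`: `b = s N`, `t = μ⁻¹`, apply `near` with `ε μ²`). `har`: for the perturbed `a'` of `s n`: `1 ≤ a'.en * (w m).en` for all `m` (`area_ineq`), let `m → ∞`: `μ ≤ a'.en`;
`har_of`; `√(en (s n) - μ) → 0`. `bd`: a convergent sequence is bounded (`Filter.Tendsto.bddAbove_range`). -/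

open MeasureTheory Set Metric Filter Topology Complex
open scoped ENNReal ComplexConjugate

set_option linter.unusedVariables false

noncomputable section

namespace Vale.Agent.P116

open Vale.Agent.P128

variable {E : Set ℂ} {μ : ℝ} {s w : ℕ → TF E}

theorem har_Good {a : ℕ → TF E} {m : ℝ} (ht : Tendsto (fun n => (a n).en) atTop (𝓝 m))
    (h : ∀ n φ, Tst (Q \ E) φ → ∀ t : ℝ, m ≤ (a n).en +
      2 * t * (∫ z in Q \ E, inner ℝ (gr (a n).hi z) (gr φ z)) + t ^ 2 * ∫ z, ‖gr φ z‖ ^ 2)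
    (ε : ℝ) (hε : 0 < ε) : ∀ᶠ n in atTop, ∀ φ, Tst (Q \ E) φ →
      |∫ z in Q \ E, inner ℝ (gr (a n).hi z) (gr φ z)| ≤ ε * √(∫ z, ‖gr φ z‖ ^ 2) := by
  have h1 := (ht.sub_const m).sqrt
  rw [sub_self, Real.sqrt_zero] at h1
  filter_upwards [h1.eventually_le_const hε] with n hn φ hφ
  exact (har_of (integral_nonneg fun z => sq_nonneg _) (h n φ hφ)).trans
    (mul_le_mul_of_nonneg_right hn (Real.sqrt_nonneg _))

theorem bd_Good {x : ℕ → ℝ} {m : ℝ} (ht : Tendsto x atTop (𝓝 m)) : ∃ M, ∀ n, x n ≤ M := by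
  obtain ⟨M, hM⟩ := ht.bddAbove_range
  exact ⟨M, fun n => hM ⟨n, rfl⟩⟩

theorem sq_Good (hμ : 0 < μ) (x y : ℝ) : (y - μ⁻¹ * x) ^ 2 = μ⁻¹ ^ 2 * (x - μ * y) ^ 2 := by
  field_simp
  ring

theorem Seq.good_s (hE : Dom E) (h : Seq E μ s w) : Good s := by
  refine ⟨h.ms, h.fs, bd_Good h.es, h.mos, h.css, fun ε hε => ui_gen hE h.fs (fun ε hε => ?_) hε,
    har_Good h.es fun n φ hφ t => ?_⟩
  · obtain ⟨N, hN⟩ := h.near hE hε
    exact ⟨N, w N, μ, h.fw N, fun n hn => ⟨(hN n hn N le_rfl).1, (hN n hn N le_rfl).2.1⟩⟩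
  · obtain ⟨a', h1, h2, -, h3, -, h4⟩ := exists_pert hE (h.fs n) hφ t
    rw [← h4]
    have h5 : 1 ≤ a'.en * μ⁻¹ := ge_of_tendsto' (h.ew.const_mul a'.en) fun m =>
      area_ineq hE h1 (h.fw m) (h3 _ (h.csw n m)) (h2 (h.h n)) (h.v m)
    rwa [← div_eq_mul_inv, one_le_div h.pos] at h5

theorem Seq.good_w (hE : Dom E) (h : Seq E μ s w) : Good w := by
  have hμ := h.pos
  refine ⟨h.mw, h.fw, bd_Good h.ew, h.mow, h.cww, fun ε hε => ui_gen hE h.fw (fun ε hε => ?_) hε,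
    har_Good h.ew fun n φ hφ t => ?_⟩
  · obtain ⟨N, hN⟩ := h.near hE (ε := ε * μ ^ 2) (by positivity)
    have e : μ⁻¹ ^ 2 * (ε * μ ^ 2) = ε := by field_simp
    refine ⟨N, s N, μ⁻¹, h.fs N, fun n hn => ⟨?_, ?_⟩⟩
    · simp only [sq_Good hμ]
      rw [integral_const_mul, ← e]
      exact mul_le_mul_of_nonneg_left (hN N le_rfl n hn).1 (by positivity)
    · simp only [sq_Good hμ]
      rw [tsum_mul_left, ← e]
      exact mul_le_mul_of_nonneg_left (hN N le_rfl n hn).2.1 (by positivity)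
  · obtain ⟨a', h1, -, h2, -, h3, h4⟩ := exists_pert hE (h.fw n) hφ t
    rw [← h4]
    have h5 : 1 ≤ μ * a'.en := ge_of_tendsto' (h.es.mul_const a'.en) fun m =>
      area_ineq hE (h.fs m) h1 (h3 _ (h.csw m n)) (h.h m) (h2 (h.v n))
    rwa [inv_le_iff_one_le_mul₀' hμ]

end Vale.Agent.P116
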