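import Vale.Agent.P116.S.HolB
import Vale.Agent.P116.S.Good

/-! P116 S/Conf (TASK, owner helper20). Definitions in S/Defs. Helper names end with `_Conf`.
On a closed ball `K ⊆ Q \ E`: `l2_quad` with `q x y = (‖x‖ - μ ‖y‖)²` and `q x y = ‖x‖ ‖y‖ - |(x * conj y).im|`, `Seq.near` with `m = n`; the limits are integrals of nonnegative continuous functions and vanish, so these vanish on the open ball
(`setIntegral_eq_zero_iff_of_nonneg_ae`, `Measure.eqOn_open_of_ae_eq`). `alg_Conf`: then `(x - i μ y) (x + i μ y) = 0`. `AnalyticOnNhd.eq_zero_or_eq_zero_of_mul_eq_zero`. -/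

open MeasureTheory Set Metric Filter Topology Complex
open scoped ENNReal ComplexConjugate

set_option linter.unusedVariables false

noncomputable section

namespace Vale.Agent.P116

open Vale.Agent.P128

variable {E : Set ℂ} {μ : ℝ} {s w : ℕ → TF E}

theorem alg_Conf {x y : ℂ} {μ : ℝ} (hμ : 0 < μ) (h1 : ‖x‖ = μ * ‖y‖)
    (h2 : ‖x‖ * ‖y‖ = |(x * conj y).im|) : (x - I * μ * y) * (x + I * μ * y) = 0 := by
  by_cases hy : y = 0
  · subst hy
    have : x = 0 := by simpa using h1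
    simp [this]
  · have hc : conj y ≠ 0 := by simpa using hy
    obtain ⟨p, hp⟩ : ∃ p, p = x * conj y := ⟨_, rfl⟩
    rw [← hp] at h2
    have hn : ‖p‖ = ‖x‖ * ‖y‖ := by rw [hp, norm_mul, Complex.norm_conj]
    have hre : p.re = 0 := by
      have e1 : ‖p‖ ^ 2 = p.re ^ 2 + p.im ^ 2 := by
        rw [Complex.sq_norm, Complex.normSq_apply]; ring
      rw [hn, h2, sq_abs] at e1
      exact (pow_eq_zero_iff two_ne_zero).mp (by linarith)
    have him : p.im ^ 2 = (μ * ‖y‖ ^ 2) ^ 2 := by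
      rw [← sq_abs p.im, ← h2, h1]; ring
    have e : p = I * p.im := by apply Complex.ext <;> simp [hre]
    have e2 : y * conj y = ((‖y‖ ^ 2 : ℝ) : ℂ) := by
      rw [Complex.mul_conj, Complex.normSq_eq_norm_sq]
    have e3 : (p.im : ℂ) ^ 2 = (μ * ((‖y‖ ^ 2 : ℝ) : ℂ)) ^ 2 := by exact_mod_cast him
    have e4 : (x - I * μ * y) * (x + I * μ * y) * (conj y) ^ 2 = 0 := by
      have e5 : (x - I * μ * y) * (x + I * μ * y) * (conj y) ^ 2 =
          p ^ 2 - I ^ 2 * μ ^ 2 * (y * conj y) ^ 2 := by rw [hp]; ring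
      have e6 : p ^ 2 = I ^ 2 * (p.im : ℂ) ^ 2 := by rw [← mul_pow, ← e]
      rw [e5, e2, e6, e3]; ring
    exact (mul_eq_zero.1 e4).resolve_right (pow_ne_zero _ hc)

theorem van_Conf (hE : Dom E) (h : Seq E μ s w) {G₁ G₂ : ℂ → ℂ} (h1 : GLim s G₁) (h2 : GLim w G₂)
    {q : ℂ → ℂ → ℝ} {C : ℝ} (hq : Continuous fun p : ℂ × ℂ => q p.1 p.2) (h0 : q 0 0 = 0)
    (hC : ∀ x y x' y', |q x y - q x' y'| ≤
      C * (‖x - x'‖ + ‖y - y'‖) * (‖x‖ + ‖y‖ + ‖x'‖ + ‖y'‖))
    (hn : ∀ x y, 0 ≤ q x y)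
    (hi : ∀ n, IntegrableOn (fun z => q (conj (gr (s n).hi z)) (conj (gr (w n).hi z))) (Q \ E))
    (hs : ∀ ε : ℝ, 0 < ε → ∃ N, ∀ n, N ≤ n →
      ∫ z in Q \ E, q (conj (gr (s n).hi z)) (conj (gr (w n).hi z)) ≤ ε) :
    ∀ z ∈ Q \ E, q (G₁ z) (G₂ z) = 0 := by
  intro z hz
  obtain ⟨r, hr, hB⟩ := nhds_basis_closedBall.mem_iff.1 (hE.op.mem_nhds hz)
  have hK : IsCompact (closedBall z r) := isCompact_closedBall z r
  have c1 : ContinuousOn G₁ (closedBall z r) := h1.1.continuousOn.mono hB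
  have c2 : ContinuousOn G₂ (closedBall z r) := h2.1.continuousOn.mono hB
  have hT := l2_quad (ν := volume.restrict (closedBall z r))
    (g := fun n z => conj (gr (s n).hi z)) (g' := fun n z => conj (gr (w n).hi z))
    (fun n => TF.Fn.memLp (h.fs n) hB) (fun n => TF.Fn.memLp (h.fw n) hB)
    (memLp_cont hK c1) (memLp_cont hK c2) (h1.2 _ hK hB) (h2.2 _ hK hB) hq h0 hC
  have hc : ContinuousOn (fun z => q (G₁ z) (G₂ z)) (closedBall z r) :=
    hq.comp_continuousOn (c1.prodMk c2)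
  have hle : ∫ y in closedBall z r, q (G₁ y) (G₂ y) ≤ 0 := by
    refine le_of_forall_pos_le_add fun ε hε => ?_
    rw [zero_add]
    obtain ⟨N, hN⟩ := hs ε hε
    have := UF_ne
    refine le_of_tendsto hT (UF_le (eventually_atTop.2 ⟨N, fun n hn' => ?_⟩))
    refine le_trans ?_ (hN n hn')
    exact setIntegral_mono_set (hi n) (Eventually.of_forall fun y => hn _ _) hB.eventuallyLE
  have hz0 : ∫ y in closedBall z r, q (G₁ y) (G₂ y) = 0 :=
    le_antisymm hle (integral_nonneg fun y => hn _ _)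
  have hae := (setIntegral_eq_zero_iff_of_nonneg_ae (Eventually.of_forall fun y => hn _ _)
    (hc.integrableOn_compact hK)).1 hz0
  have hae' : (fun y => q (G₁ y) (G₂ y)) =ᵐ[volume.restrict (ball z r)] fun _ => (0 : ℝ) :=
    ae_restrict_of_ae_restrict_of_subset ball_subset_closedBall hae
  exact Measure.eqOn_open_of_ae_eq hae' isOpen_ball (hc.mono ball_subset_closedBall)
    continuousOn_const (mem_ball_self hr)

theorem q1_Conf {μ : ℝ} (hμ : 0 < μ) (x y x' y' : ℂ) :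
    |(‖x‖ - μ * ‖y‖) ^ 2 - (‖x'‖ - μ * ‖y'‖) ^ 2| ≤
      (1 + μ) ^ 2 * (‖x - x'‖ + ‖y - y'‖) * (‖x‖ + ‖y‖ + ‖x'‖ + ‖y'‖) := by
  have a1 := abs_le.1 (abs_norm_sub_norm_le x x')
  have a2 := abs_le.1 (abs_norm_sub_norm_le y y')
  have n1 := norm_nonneg x
  have n2 := norm_nonneg y
  have n3 := norm_nonneg x'
  have n4 := norm_nonneg y'
  have n5 := norm_nonneg (x - x')
  have n6 := norm_nonneg (y - y')
  generalize ‖x - x'‖ = d at *
  generalize ‖y - y'‖ = e at *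
  generalize ‖x‖ = a at *
  generalize ‖y‖ = b at *
  generalize ‖x'‖ = a' at *
  generalize ‖y'‖ = b' at *
  have e1 : (a - μ * b) ^ 2 - (a' - μ * b') ^ 2 =
      ((a - μ * b) - (a' - μ * b')) * ((a - μ * b) + (a' - μ * b')) := by ring
  have b1 : |(a - μ * b) - (a' - μ * b')| ≤ (1 + μ) * (d + e) := by
    have t1 := mul_le_mul_of_nonneg_left a2.1 hμ.le
    have t2 := mul_le_mul_of_nonneg_left a2.2 hμ.le
    have t3 := mul_nonneg hμ.le n5
    rw [abs_le]
    constructor <;> nlinarith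
  have b2 : |(a - μ * b) + (a' - μ * b')| ≤ (1 + μ) * (a + b + a' + b') := by
    have t1 := mul_nonneg hμ.le n1
    have t2 := mul_nonneg hμ.le n2
    have t3 := mul_nonneg hμ.le n3
    have t4 := mul_nonneg hμ.le n4
    rw [abs_le]
    constructor <;> nlinarith
  rw [e1, abs_mul]
  refine (mul_le_mul b1 b2 (abs_nonneg _) (by positivity)).trans (le_of_eq ?_)
  ring

theorem q2_Conf (x y x' y' : ℂ) :
    |(‖x‖ * ‖y‖ - |(x * conj y).im|) - (‖x'‖ * ‖y'‖ - |(x' * conj y').im|)| ≤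
      2 * (‖x - x'‖ + ‖y - y'‖) * (‖x‖ + ‖y‖ + ‖x'‖ + ‖y'‖) := by
  have a1 := abs_norm_sub_norm_le x x'
  have a2 := abs_norm_sub_norm_le y y'
  have b1 : |‖x‖ * ‖y‖ - ‖x'‖ * ‖y'‖| ≤ ‖x - x'‖ * ‖y‖ + ‖x'‖ * ‖y - y'‖ := by
    have e : ‖x‖ * ‖y‖ - ‖x'‖ * ‖y'‖ = (‖x‖ - ‖x'‖) * ‖y‖ + ‖x'‖ * (‖y‖ - ‖y'‖) := by ring
    rw [e]
    refine (abs_add_le _ _).trans (add_le_add ?_ ?_)
    · rw [abs_mul, abs_norm]
      exact mul_le_mul_of_nonneg_right a1 (norm_nonneg _)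
    · rw [abs_mul, abs_norm]
      exact mul_le_mul_of_nonneg_left a2 (norm_nonneg _)
  have b2 : abs (|(x * conj y).im| - |(x' * conj y').im|) ≤ ‖x - x'‖ * ‖y‖ + ‖x'‖ * ‖y - y'‖ := by
    refine (abs_abs_sub_abs_le_abs_sub _ _).trans ?_
    rw [← Complex.sub_im]
    refine (Complex.abs_im_le_norm _).trans ?_
    have e : x * conj y - x' * conj y' = (x - x') * conj y + x' * conj (y - y') := by
      rw [map_sub]; ring
    rw [e]
    refine (norm_add_le _ _).trans (le_of_eq ?_)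
    rw [norm_mul, norm_mul, Complex.norm_conj, Complex.norm_conj]
  have c1 := abs_le.1 b1
  have c2 := abs_le.1 b2
  have n1 := norm_nonneg x
  have n2 := norm_nonneg y
  have n3 := norm_nonneg x'
  have n4 := norm_nonneg y'
  have n5 := norm_nonneg (x - x')
  have n6 := norm_nonneg (y - y')
  have t : 2 * (‖x - x'‖ * ‖y‖ + ‖x'‖ * ‖y - y'‖) ≤
      2 * (‖x - x'‖ + ‖y - y'‖) * (‖x‖ + ‖y‖ + ‖x'‖ + ‖y'‖) := by
    have t1 := mul_nonneg n5 n1
    have t2 := mul_nonneg n5 n3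
    have t3 := mul_nonneg n5 n4
    have t4 := mul_nonneg n6 n1
    have t5 := mul_nonneg n6 n2
    have t6 := mul_nonneg n6 n4
    nlinarith
  rw [abs_le]
  constructor <;> linarith

theorem Seq.conf (hE : Dom E) (h : Seq E μ s w) {G₁ G₂ : ℂ → ℂ} (h1 : GLim s G₁) (h2 : GLim w G₂) :
    ∃ ν : ℝ, |ν| = μ ∧ ∀ z ∈ Q \ E, G₁ z = I * ν * G₂ z := by
  have hμ := h.pos
  have A : ∀ z ∈ Q \ E, (‖G₁ z‖ - μ * ‖G₂ z‖) ^ 2 = 0 := by
    refine van_Conf hE h h1 h2 (q := fun x y => (‖x‖ - μ * ‖y‖) ^ 2) (C := (1 + μ) ^ 2)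
      (by fun_prop) (by simp) (q1_Conf hμ) (fun x y => sq_nonneg _) (fun n => ?_) (fun ε hε => ?_)
    · have i1 := (h.fs n).1
      have i2 := (h.fw n).1
      have i3 := (jac_int hE (h.fs n) (h.fw n)).1
      refine ((i1.sub (i3.const_mul (2 * μ))).add (i2.const_mul (μ ^ 2))).congr
        (Eventually.of_forall fun z => ?_)
      simp only [Pi.add_apply, Pi.sub_apply, Complex.norm_conj]
      ring
    · obtain ⟨N, hN⟩ := h.near hE hε
      refine ⟨N, fun n hn => ?_⟩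
      simpa only [Complex.norm_conj] using (hN n hn n hn).1
  have B : ∀ z ∈ Q \ E, ‖G₁ z‖ * ‖G₂ z‖ - |(G₁ z * conj (G₂ z)).im| = 0 := by
    refine van_Conf hE h h1 h2 (q := fun x y => ‖x‖ * ‖y‖ - |(x * conj y).im|) (C := 2)
      (by fun_prop) (by simp) q2_Conf (fun x y => ?_) (fun n => ?_) (fun ε hε => ?_)
    · have := Complex.abs_im_le_norm (x * conj y)
      rw [norm_mul, Complex.norm_conj] at this
      linarith
    · have i3 := (jac_int hE (h.fs n) (h.fw n)).1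
      have i4 := (jac_int hE (h.fs n) (h.fw n)).2.1
      refine (i3.sub i4).congr (Eventually.of_forall fun z => ?_)
      simp only [Pi.sub_apply, Complex.norm_conj, Complex.conj_conj, jac]
    · obtain ⟨N, hN⟩ := h.near hE hε
      refine ⟨N, fun n hn => ?_⟩
      simpa only [Complex.norm_conj, Complex.conj_conj, jac] using (hN n hn n hn).2.2
  have P : ∀ z ∈ Q \ E, ((fun z => G₁ z - I * μ * G₂ z) * fun z => G₁ z + I * μ * G₂ z) z = 0 :=
    fun z hz => alg_Conf hμ (sub_eq_zero.1 ((pow_eq_zero_iff two_ne_zero).1 (A z hz)))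
      (sub_eq_zero.1 (B z hz))
  have d1 : DifferentiableOn ℂ (fun z => G₁ z - I * μ * G₂ z) (Q \ E) :=
    h1.1.sub (h2.1.const_mul _)
  have d2 : DifferentiableOn ℂ (fun z => G₁ z + I * μ * G₂ z) (Q \ E) :=
    h1.1.add (h2.1.const_mul _)
  rcases AnalyticOnNhd.eq_zero_or_eq_zero_of_mul_eq_zero (d1.analyticOnNhd hE.op)
    (d2.analyticOnNhd hE.op) P hE.con with H | H
  · exact ⟨μ, abs_of_pos hμ, fun z hz => sub_eq_zero.1 (H z hz)⟩
  · refine ⟨-μ, by rw [abs_neg, abs_of_pos hμ], fun z hz => ?_⟩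
    have := H z hz
    push_cast
    linear_combination this

end Vale.Agent.P116
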