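import Vale.Agent.P128.EARN.Weyl

/-! P116 S/Defs (owner helper20, no task): functions with interval values at the components of `E`,
energy, monotonicity, compatibility; input `Seq` and output `Out` of step (5). -/

open MeasureTheory Set Metric Filter Topology Complex
open scoped ENNReal ComplexConjugate

noncomputable section

namespace Vale.Agent.P116

open Vale.Agent.P128

/-- The open unit square. -/
def Q : Set ℂ := Ioo 0 1 ×ℂ Ioo 0 1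

/-- The closed unit square. -/
def Qc : Set ℂ := Icc 0 1 ×ℂ Icc 0 1

/-- The components of `E`. -/
def Cp (E : Set ℂ) : Type := {c : Set ℂ // ∃ z ∈ E, c = connectedComponentIn E z}

variable {E : Set ℂ}

/-- A point of a component. -/
def Cp.pt (c : Cp E) : ℂ := c.2.choose

/-- The component of a point. -/
def Cp.mk (z : ℂ) (hz : z ∈ E) : Cp E := ⟨connectedComponentIn E z, z, hz, rfl⟩

/-- The standing hypotheses on `E`. -/
structure Dom (E : Set ℂ) : Prop where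
  cpt : IsCompact E
  sub : E ⊆ Q
  con : IsPreconnected (Q \ E)

/-- A function on the square whose value at a component of `E` is the interval `[lo, hi]`. -/
structure TF (E : Set ℂ) where
  lo : ℂ → ℝ
  hi : ℂ → ℝ
  le : ∀ z, lo z ≤ hi z
  eq : ∀ z, z ∉ E → lo z = hi z
  lsc : LowerSemicontinuousOn lo Qc
  usc : UpperSemicontinuousOn hi Qc
  cst : ∀ z ∈ E, ∀ z' ∈ connectedComponentIn E z, lo z' = lo z ∧ hi z' = hi z
  lip : LocallyLipschitzOn (Q \ E) hi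

namespace TF

/-- The oscillation at a component. -/
def osc (a : TF E) (c : Cp E) : ℝ := a.hi c.pt - a.lo c.pt

/-- Finite energy. -/
def Fn (a : TF E) : Prop :=
  IntegrableOn (fun z => ‖gr a.hi z‖ ^ 2) (Q \ E) ∧ Summable fun c => a.osc c ^ 2

/-- The energy. -/
def en (a : TF E) : ℝ := (∫ z in Q \ E, ‖gr a.hi z‖ ^ 2) + ∑' c, a.osc c ^ 2

/-- Boundary values `0` on the left and `1` on the right. -/
def H (a : TF E) : Prop := ∀ z ∈ Qc, (z.re = 0 → a.hi z = 0) ∧ (z.re = 1 → a.hi z = 1)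

/-- Boundary values `0` at the bottom and `1` at the top. -/
def V (a : TF E) : Prop := ∀ z ∈ Qc, (z.im = 0 → a.hi z = 0) ∧ (z.im = 1 → a.hi z = 1)

/-- The weak maximum and minimum principle. -/
def Mono (a : TF E) : Prop := ∀ W : Set ℂ, IsOpen W → closure W ⊆ Q → ∀ t : ℝ,
  ((∀ z ∈ frontier W, a.hi z ≤ t) → ∀ z ∈ W, a.hi z ≤ t) ∧
    ((∀ z ∈ frontier W, t ≤ a.lo z) → ∀ z ∈ W, t ≤ a.lo z)

/-- The map `a + i b`. -/
def pr (a b : TF E) (z : ℂ) : ℂ := ⟨a.hi z, b.hi z⟩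

/-- The points of `E` that are atoms of neither function have a null image. -/
def Cmp (a b : TF E) : Prop :=
  volume (pr a b '' {z | z ∈ E ∧ a.lo z = a.hi z ∧ b.lo z = b.hi z}) = 0

/-- The box at a point. -/
def box (a b : TF E) (z : ℂ) : Set ℂ := Icc (a.lo z) (a.hi z) ×ℂ Icc (b.lo z) (b.hi z)

/-- The image of `U`, with the boxes. -/
def img (a b : TF E) (U : Set ℂ) : Set ℂ := ⋃ z ∈ U, box a b z

/-- The negative. -/
def neg (a : TF E) : TF E where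
  lo z := -a.hi z
  hi z := -a.lo z
  le z := neg_le_neg (a.le z)
  eq z hz := by rw [a.eq z hz]
  lsc := a.usc.neg
  usc := a.lsc.neg
  cst z hz z' hz' := by rw [(a.cst z hz z' hz').1, (a.cst z hz z' hz').2]; exact ⟨rfl, rfl⟩
  lip := by
    intro z hz
    obtain ⟨K, t, ht, h⟩ := a.lip hz
    refine ⟨K, t ∩ (Q \ E), inter_mem ht self_mem_nhdsWithin, fun x hx y hy => ?_⟩
    simp only [a.eq x hx.2.2, a.eq y hy.2.2, edist_neg_neg]
    exact h hx.1 hy.1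

end TF

/-- The Jacobian determinant of `(u, v)`. -/
def jac (u v : ℂ → ℝ) (z : ℂ) : ℝ := (conj (gr u z) * gr v z).im

/-- Lipschitz test functions. -/
def Tst (O : Set ℂ) (φ : ℂ → ℝ) : Prop :=
  (∃ K, LipschitzWith K φ) ∧ HasCompactSupport φ ∧ tsupport φ ⊆ O

/-- The input of step (5). -/
structure Seq (E : Set ℂ) (μ : ℝ) (s w : ℕ → TF E) : Prop where
  pos : 0 < μ
  h : ∀ n, (s n).H
  v : ∀ n, (w n).V
  ms : ∀ n, ∀ z ∈ Qc, 0 ≤ (s n).lo z ∧ (s n).hi z ≤ 1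
  mw : ∀ n, ∀ z ∈ Qc, 0 ≤ (w n).lo z ∧ (w n).hi z ≤ 1
  fs : ∀ n, (s n).Fn
  fw : ∀ n, (w n).Fn
  mos : ∀ n, (s n).Mono
  mow : ∀ n, (w n).Mono
  css : ∀ n m, (s n).Cmp (s m)
  csw : ∀ n m, (s n).Cmp (w m)
  cww : ∀ n m, (w n).Cmp (w m)
  es : Tendsto (fun n => (s n).en) atTop (𝓝 μ)
  ew : Tendsto (fun n => (w n).en) atTop (𝓝 μ⁻¹)

/-- A fixed ultrafilter finer than `atTop`. -/
def UF : Filter ℕ := ((Ultrafilter.of atTop : Ultrafilter ℕ) : Filter ℕ)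

/-- The limit of the lower values. -/
def uL (a : ℕ → TF E) (z : ℂ) : ℝ := limUnder UF fun n => (a n).lo z

/-- The limit of the upper values. -/
def uH (a : ℕ → TF E) (z : ℂ) : ℝ := limUnder UF fun n => (a n).hi z

/-- The properties shared by the two sequences. -/
structure Good (a : ℕ → TF E) : Prop where
  mem : ∀ n, ∀ z ∈ Qc, 0 ≤ (a n).lo z ∧ (a n).hi z ≤ 1
  fn : ∀ n, (a n).Fn
  bd : ∃ M, ∀ n, (a n).en ≤ M
  mono : ∀ n, (a n).Mono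
  cmp : ∀ n m, (a n).Cmp (a m)
  ui : ∀ ε : ℝ, 0 < ε → ∃ (K : Set ℂ) (F : Finset (Cp E)), IsCompact K ∧ K ⊆ Q \ E ∧ ∀ n,
    ∫ z in (Q \ E) \ K, ‖gr (a n).hi z‖ ^ 2 ≤ ε ∧ ∑' c : {c // c ∉ F}, (a n).osc c ^ 2 ≤ ε
  har : ∀ ε : ℝ, 0 < ε → ∀ᶠ n in atTop, ∀ φ, Tst (Q \ E) φ →
    |∫ z in Q \ E, inner ℝ (gr (a n).hi z) (gr φ z)| ≤ ε * √(∫ z, ‖gr φ z‖ ^ 2)

/-- `G` is the limit of the conjugate gradients. -/
def GLim (a : ℕ → TF E) (G : ℂ → ℂ) : Prop := DifferentiableOn ℂ G (Q \ E) ∧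
  ∀ K, IsCompact K → K ⊆ Q \ E →
    Tendsto (fun n => ∫ z in K, ‖conj (gr (a n).hi z) - G z‖ ^ 2) UF (𝓝 0)

/-- A closed square with sides parallel to the axes, or a point. -/
def sqr (ζ : ℂ) (σ : ℝ) : Set ℂ := Icc ζ.re (ζ.re + σ) ×ℂ Icc ζ.im (ζ.im + σ)

/-- The cluster set of `f` at each component `c` lies in `B c`. -/
def Clu (f : ℂ → ℂ) (B : Cp E → Set ℂ) : Prop :=
  ∀ (c : Cp E) (V : Set ℂ), IsOpen V → B c ⊆ V → ∃ U, IsOpen U ∧ c.1 ⊆ U ∧ f '' (U \ E) ⊆ V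

/-- The analytic facts on the limit map. -/
structure Pre (E : Set ℂ) (f : ℂ → ℂ) (ζ : Cp E → ℂ) (σ : Cp E → ℝ) (R : Set ℂ) : Prop where
  op : IsOpen R
  bdd : Bornology.IsBounded R
  fin : volume R ≠ ∞
  cvx : Convex ℝ R
  ext : IsPreconnected Rᶜ
  hol : DifferentiableOn ℂ f (Q \ E)
  nc : ∃ z ∈ Q \ E, ∃ z' ∈ Q \ E, f z ≠ f z'
  mem : f '' (Q \ E) ⊆ closure R
  nn : ∀ c, 0 ≤ σ c
  en : (∫⁻ z in Q \ E, ‖deriv f z‖ₑ ^ 2) + ∑' c, ENNReal.ofReal (σ c) ^ 2 ≤ volume R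
  fill : volume (R \ (f '' (Q \ E) ∪ ⋃ c ∈ {c | 0 < σ c}, sqr (ζ c) (σ c))) = 0
  clu : Clu f fun c => sqr (ζ c) (σ c)
  edge : ∀ K, IsCompact K → K ⊆ Q → ∀ ε : ℝ, 0 < ε → ∃ z ∈ (Q \ E) \ K, ∃ y ∈ Rᶜ, dist (f z) y < ε

/-- The output of step (5): near `E` the domain is a square domain. -/
structure Out (E : Set ℂ) (f : ℂ → ℂ) (ζ : Cp E → ℂ) (σ : Cp E → ℝ) : Prop where
  hol : DifferentiableOn ℂ f (Q \ E)
  inj : InjOn f (Q \ E)
  nn : ∀ c, 0 ≤ σ c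
  sum : Summable fun c => σ c ^ 2
  dir : ∫⁻ z in Q \ E, ‖deriv f z‖ₑ ^ 2 ≠ ∞
  clu : Clu f fun c => sqr (ζ c) (σ c)
  dis : Pairwise fun c c' => Disjoint (sqr (ζ c) (σ c)) (sqr (ζ c') (σ c'))
  off : ∀ c, Disjoint (f '' (Q \ E)) (sqr (ζ c) (σ c))
  cpt : IsCompact (⋃ c, sqr (ζ c) (σ c))
  op : IsOpen (f '' (Q \ E) ∪ ⋃ c, sqr (ζ c) (σ c))
  cmp : ∀ c, ∀ y ∈ sqr (ζ c) (σ c), connectedComponentIn (⋃ c, sqr (ζ c) (σ c)) y = sqr (ζ c) (σ c)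
  null : volume (ζ '' {c | σ c = 0}) = 0

end Vale.Agent.P116
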