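import Vale.Agent.P116.S.Unif

/-! P116 S/Edge (TASK, owner helper20). Definitions in S/Defs. Helper names end with `_Edge`.
Take `δ` from `exists_inner` for `K ∪ E`, `0 < r < δ` small, `A = Ioc 0 r ×ℂ Icc (1/4) (3/4) ⊆ Q \ (K ∪ E)`, `Σ` the compact segment `re = r`. If `uH ≥ ε` on `Σ` then for some `n`, `a n ≥ ε / 2` on `Σ` (`unif`); by the intermediate value theorem on horizontal segments (`TF.cont`, value `0` at `re = 0`)
the image of `A` under `(a n, im)` contains `Ioo 0 (ε / 2) ×ℂ Ioo (1/4) (3/4)`; `vol_pair_cs` (`gr im = I`): `ε / 4 ≤ √M √(r / 2)`, false for small `r`. The right side is symmetric. -/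

open MeasureTheory Set Metric Filter Topology Complex
open scoped ENNReal ComplexConjugate

set_option linter.unusedVariables false

noncomputable section

namespace Vale.Agent.P116

open Vale.Agent.P128

variable {E : Set ℂ} {a : ℕ → TF E}

theorem gr_im_Edge (z : ℂ) : ‖gr (fun z : ℂ => z.im) z‖ ^ 2 = 1 := by
  have h : fderiv ℝ (fun z : ℂ => z.im) z = Complex.imCLM := Complex.imCLM.fderiv
  simp [gr, h]

theorem strip_Edge (hE : Dom E) (b : TF E) (hb : b.Fn) {p q c d : ℝ} (hpq : p < q) (h0 : 0 ≤ p)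
    (h1 : q ≤ 1) (hs : ∀ z ∈ E, z.re < p ∨ q < z.re) (hcd : c ≤ d)
    (hp : ∀ t ∈ Icc (1 / 4 : ℝ) (3 / 4), b.hi ⟨p, t⟩ ≤ c)
    (hq : ∀ t ∈ Icc (1 / 4 : ℝ) (3 / 4), d ≤ b.hi ⟨q, t⟩) :
    ((d - c) / 2) ^ 2 ≤ b.en * ((q - p) / 2) := by
  set A : Set ℂ := Ioo p q ×ℂ Ioo (1 / 4 : ℝ) (3 / 4) with hA
  have hAo : IsOpen A := isOpen_Ioo.reProdIm isOpen_Ioo
  have hAQ : A ⊆ Q \ E := by
    intro z hz
    obtain ⟨⟨z1, z2⟩, z3, z4⟩ := hz
    refine ⟨⟨⟨by linarith, by linarith⟩, by linarith, by linarith⟩, fun hz => ?_⟩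
    rcases hs z hz with h | h <;> linarith
  have hvA : volume A = ENNReal.ofReal ((q - p) / 2) := by
    rw [hA, vol_Ioo, ← ENNReal.ofReal_mul (by linarith)]
    congr 1
    ring
  have hsub : Ioo c d ×ℂ Ioo (1 / 4 : ℝ) (3 / 4) ⊆ (fun z => (⟨b.hi z, z.im⟩ : ℂ)) '' A := by
    intro y hy
    obtain ⟨⟨y1, y2⟩, y3, y4⟩ := hy
    have hc : ContinuousOn (fun s : ℝ => b.hi ⟨s, y.im⟩) (Icc p q) := by
      have hg : Continuous fun s : ℝ => (⟨s, y.im⟩ : ℂ) := by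
        have : (fun s : ℝ => (⟨s, y.im⟩ : ℂ)) = fun s : ℝ => (s : ℂ) + (y.im : ℂ) * I := by
          funext s
          apply Complex.ext <;> simp
        rw [this]
        fun_prop
      refine b.cont.comp hg.continuousOn ?_
      intro s hs'
      refine ⟨⟨⟨?_, ?_⟩, ?_, ?_⟩, fun hz => ?_⟩
      · show 0 ≤ s
        linarith [hs'.1]
      · show s ≤ 1
        linarith [hs'.2]
      · show 0 ≤ y.im
        linarith
      · show y.im ≤ 1
        linarith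
      · rcases hs _ hz with h | h
        · exact absurd hs'.1 (not_le.2 h)
        · exact absurd hs'.2 (not_le.2 h)
    have hi := intermediate_value_Ioo hpq.le hc
    have hm : y.re ∈ Ioo (b.hi ⟨p, y.im⟩) (b.hi ⟨q, y.im⟩) :=
      ⟨lt_of_le_of_lt (hp _ ⟨y3.le, y4.le⟩) y1, lt_of_lt_of_le y2 (hq _ ⟨y3.le, y4.le⟩)⟩
    obtain ⟨s, hs1, hs2⟩ := hi hm
    refine ⟨⟨s, y.im⟩, ⟨hs1, y3, y4⟩, ?_⟩
    apply Complex.ext
    · exact hs2
    · rfl
  have hlip : LocallyLipschitzOn (Q \ E) (fun z : ℂ => z.im) :=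
    (Complex.imCLM.lipschitz.locallyLipschitz).locallyLipschitzOn
  have hone : (fun z : ℂ => ‖gr (fun z : ℂ => z.im) z‖ ^ 2) = fun _ => (1 : ℝ) := funext gr_im_Edge
  have iv : IntegrableOn (fun z : ℂ => ‖gr (fun z : ℂ => z.im) z‖ ^ 2) A := by
    rw [hone]
    exact integrableOn_const (by rw [hvA]; exact ENNReal.ofReal_ne_top)
  have key := vol_pair_cs hE.op b.lip hlip hAo.measurableSet hAQ (hb.1.mono_set hAQ) iv
  have k2 := (measure_mono hsub).trans key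
  have hint : ∫ z in A, ‖gr (fun z : ℂ => z.im) z‖ ^ 2 = (q - p) / 2 := by
    rw [hone, setIntegral_const, Measure.real, hvA, ENNReal.toReal_ofReal (by linarith)]
    simp
  rw [vol_Ioo, ← ENNReal.ofReal_mul (by linarith), hint,
    ENNReal.ofReal_le_ofReal_iff (by positivity)] at k2
  have hen := hb.dir_le hAQ
  have hnn : 0 ≤ ∫ z in A, ‖gr b.hi z‖ ^ 2 := integral_nonneg fun z => by positivity
  have hqp : 0 ≤ (q - p) / 2 := by linarith
  rw [← Real.sqrt_mul hnn] at k2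
  have k3 : (d - c) / 2 ≤ √((∫ z in A, ‖gr b.hi z‖ ^ 2) * ((q - p) / 2)) := by linarith
  have k4 := (Real.le_sqrt (by linarith) (mul_nonneg hnn hqp)).1 k3
  exact k4.trans (mul_le_mul_of_nonneg_right hen hqp)

theorem small_Edge (M : ℝ) {δ ε : ℝ} (hδ : 0 < δ) (hε : 0 < ε) :
    ∃ r : ℝ, 0 < r ∧ r < δ ∧ r < 1 ∧ ∀ m ≤ M, m * (r / 2) < (ε / 2 / 2) ^ 2 := by
  have hM : 0 < |M| + 1 := by positivity
  refine ⟨min (min (δ / 2) (1 / 2)) (ε ^ 2 / (16 * (|M| + 1))), by positivity, ?_, ?_, ?_⟩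
  · exact lt_of_le_of_lt ((min_le_left _ _).trans (min_le_left _ _)) (by linarith)
  · exact lt_of_le_of_lt ((min_le_left _ _).trans (min_le_right _ _)) (by norm_num)
  · intro m hm
    set r := min (min (δ / 2) (1 / 2)) (ε ^ 2 / (16 * (|M| + 1))) with hr
    have r0 : 0 < r := by positivity
    have r1 : r ≤ ε ^ 2 / (16 * (|M| + 1)) := min_le_right _ _
    rw [le_div_iff₀ (by positivity)] at r1
    have : m ≤ |M| := hm.trans (le_abs_self M)
    have h2 : m * r ≤ |M| * r := mul_le_mul_of_nonneg_right this r0.le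
    have h3 : 0 ≤ |M| * r := by positivity
    nlinarith

theorem seg_Edge (hE : Dom E) (h : Good a) {K : Set ℂ} {r : ℝ} (r0 : 0 < r) (r1 : r < 1)
    (hr : ∀ z ∈ K ∪ E, z.re ≠ r) {ε : ℝ} (hε : 0 < ε) :
    (∀ t ∈ Icc (1 / 4 : ℝ) (3 / 4), (⟨r, t⟩ : ℂ) ∈ (Q \ E) \ K) ∧
      ∃ n, ∀ t ∈ Icc (1 / 4 : ℝ) (3 / 4), |uH a ⟨r, t⟩ - (a n).hi ⟨r, t⟩| < ε := by
  have hS : ∀ z ∈ Icc r r ×ℂ Icc (1 / 4 : ℝ) (3 / 4), z ∈ (Q \ E) \ K := by
    intro z hz
    obtain ⟨⟨z1, z2⟩, z3, z4⟩ := hz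
    have hz : z.re = r := le_antisymm z2 z1
    exact ⟨⟨⟨⟨by linarith, by linarith⟩, by linarith, by linarith⟩,
      fun h' => hr z (Or.inr h') hz⟩, fun h' => hr z (Or.inl h') hz⟩
  refine ⟨fun t ht => hS _ ⟨⟨le_rfl, le_rfl⟩, ht⟩, ?_⟩
  have hu := Metric.tendstoUniformlyOn_iff.1
    (h.unif hE (cpt_rect r r (1 / 4) (3 / 4)) fun z hz => (hS z hz).1) ε hε
  haveI := UF_ne
  obtain ⟨n, hn⟩ := hu.exists
  exact ⟨n, fun t ht => by simpa [Real.dist_eq] using hn ⟨r, t⟩ ⟨⟨le_rfl, le_rfl⟩, ht⟩⟩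

theorem Good.edge_l (hE : Dom E) (h : Good a) (hH : ∀ n, (a n).H) {K : Set ℂ} (hK : IsCompact K)
    (hQ : K ⊆ Q) {ε : ℝ} (hε : 0 < ε) : ∃ z ∈ (Q \ E) \ K, uH a z < ε := by
  by_contra hc
  push Not at hc
  obtain ⟨M, hM⟩ := h.bd
  obtain ⟨δ, hδ, hin⟩ := exists_inner (hK.union hE.cpt) (union_subset hQ hE.sub)
  obtain ⟨r, r0, rδ, r1, hr⟩ := small_Edge M hδ hε
  have hre : ∀ z ∈ K ∪ E, r < z.re := fun z hz => lt_of_lt_of_le rδ (hin hz).1.1
  obtain ⟨hS, n, hn⟩ := seg_Edge hE h r0 r1 (fun z hz => (hre z hz).ne') (half_pos hε)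
  have key := strip_Edge hE (a n) (h.fn n) (p := 0) (q := r) (c := 0) (d := ε / 2) r0 le_rfl r1.le
    (fun z hz => Or.inr (hre z (Or.inr hz))) (half_pos hε).le
    (fun t ht => ((hH n ⟨0, t⟩ ⟨⟨le_rfl, zero_le_one⟩,
      (by show 0 ≤ t; linarith [ht.1]), (by show t ≤ 1; linarith [ht.2])⟩).1 rfl).le)
    (fun t ht => by
      have h1 := hc _ (hS t ht)
      have h2 := (abs_lt.1 (hn t ht)).2
      linarith)
  have := hr _ (hM n)
  simp only [sub_zero] at key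
  linarith

theorem Good.edge_r (hE : Dom E) (h : Good a) (hH : ∀ n, (a n).H) {K : Set ℂ} (hK : IsCompact K)
    (hQ : K ⊆ Q) {ε : ℝ} (hε : 0 < ε) : ∃ z ∈ (Q \ E) \ K, 1 - ε < uH a z := by
  by_contra hc
  push Not at hc
  obtain ⟨M, hM⟩ := h.bd
  obtain ⟨δ, hδ, hin⟩ := exists_inner (hK.union hE.cpt) (union_subset hQ hE.sub)
  obtain ⟨r, r0, rδ, r1, hr⟩ := small_Edge M hδ hε
  have hre : ∀ z ∈ K ∪ E, z.re < 1 - r := fun z hz =>
    lt_of_le_of_lt (hin hz).1.2 (by linarith)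
  obtain ⟨hS, n, hn⟩ := seg_Edge hE h (r := 1 - r) (by linarith) (by linarith)
    (fun z hz => (hre z hz).ne) (half_pos hε)
  have key := strip_Edge hE (a n) (h.fn n) (p := 1 - r) (q := 1) (c := 1 - ε / 2) (d := 1)
    (by linarith) (by linarith) le_rfl
    (fun z hz => Or.inl (hre z (Or.inr hz))) (by linarith)
    (fun t ht => by
      have h1 := hc _ (hS t ht)
      have h2 := (abs_lt.1 (hn t ht)).1
      linarith)
    (fun t ht => ((hH n ⟨1, t⟩ ⟨⟨zero_le_one, le_rfl⟩,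
      (by show 0 ≤ t; linarith [ht.1]), (by show t ≤ 1; linarith [ht.2])⟩).2 rfl).ge)
  have := hr _ (hM n)
  simp only [sub_sub_cancel] at key
  linarith

end Vale.Agent.P116
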