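import Vale.Agent.P116.S.HolB
import Vale.Agent.P116.S.Good

/-! P116 S/En (TASK, owner helper20). Definitions in S/Defs. Helper names end with `_En`.
For compact `K ⊆ Q \ E` and a finset `F`: `∫_K ‖G‖² + ∑_F σ² = lim (∫_K ‖gr s_n‖² + ∑_F osc²) ≤ lim en = μ` (`l2_quad` with `q x y = ‖x‖²`, `Summable.sum_le_tsum`). `ENNReal.tsum_eq_iSup_sum`; the lower integral over the open set is the
supremum over compact subsets (inner regularity of `volume.withDensity`, or an exhaustion `K n = {infDist z (Q \ E)ᶜ ≥ 1 / (n + 1)} ∩ Qc` and `setLIntegral_iUnion_of_directed`). `side`: one term of the sum in `Seq.near`. -/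

open MeasureTheory Set Metric Filter Topology Complex
open scoped ENNReal ComplexConjugate

set_option linter.unusedVariables false

noncomputable section

namespace Vale.Agent.P116

open Vale.Agent.P128

variable {E : Set ℂ} {μ : ℝ} {s w : ℕ → TF E}

theorem osc_En {a : ℕ → TF E} (hE : Dom E) (h : Good a) (c : Cp E) :
    Tendsto (fun n => (a n).osc c) UF (𝓝 (uH a c.pt - uL a c.pt)) :=
  (h.hi (Q_sub (hE.sub c.pt_mem))).sub (h.lo (Q_sub (hE.sub c.pt_mem)))

theorem key_En (hE : Dom E) (h : Seq E μ s w) {G : ℂ → ℂ} (hG : GLim s G) {K : Set ℂ}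
    (hK : IsCompact K) (hs : K ⊆ Q \ E) (F : Finset (Cp E)) :
    (∫ z in K, ‖G z‖ ^ 2) + ∑ c ∈ F, (uH s c.pt - uL s c.pt) ^ 2 ≤ μ := by
  have := UF_ne
  have h1 := fun n => (h.fs n).memLp hs
  have h2 := memLp_cont hK (hG.1.continuousOn.mono hs)
  have t1 := l2_quad h1 h1 h2 h2 (hG.2 K hK hs) (hG.2 K hK hs) (q := fun x _ => ‖x‖ ^ 2) (C := 1)
    (by fun_prop) (by simp) fun x y x' y' => by
      rw [sq_sub_sq, abs_mul, one_mul, mul_comm, abs_of_nonneg (by positivity : 0 ≤ ‖x‖ + ‖x'‖)]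
      refine mul_le_mul ((abs_norm_sub_norm_le x x').trans ?_) ?_ (by positivity) (by positivity)
      · linarith [norm_nonneg (y - y')]
      · linarith [norm_nonneg y, norm_nonneg y']
  have t2 := tendsto_finsetSum F fun c _ => (osc_En hE (h.good_s hE) c).pow 2
  refine le_of_tendsto_of_tendsto' (t1.add t2) (h.es.mono_left UF_le) fun n => add_le_add ?_
    ((h.fs n).2.sum_le_tsum F fun _ _ => sq_nonneg _)
  simp only [Complex.norm_conj]
  exact setIntegral_mono_set (h.fs n).1 (Eventually.of_forall fun _ => sq_nonneg _) hs.eventuallyLE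

theorem fin_En (hE : Dom E) (h : Seq E μ s w) {G : ℂ → ℂ} (hG : GLim s G) {K : Set ℂ}
    (hK : IsCompact K) (hs : K ⊆ Q \ E) (F : Finset (Cp E)) :
    (∫⁻ z in K, ‖G z‖ₑ ^ 2) + ∑ c ∈ F, ENNReal.ofReal (uH s c.pt - uL s c.pt) ^ 2 ≤
      ENNReal.ofReal μ := by
  refine le_trans (le_of_eq ?_) (ENNReal.ofReal_le_ofReal (key_En hE h hG hK hs F))
  have h1 : IntegrableOn (fun z => ‖G z‖ ^ 2) K :=
    ((hG.1.continuousOn.mono hs).norm.pow 2).integrableOn_compact hK
  rw [ENNReal.ofReal_add (integral_nonneg fun _ => sq_nonneg _)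
      (Finset.sum_nonneg fun _ _ => sq_nonneg _),
    ofReal_integral_eq_lintegral_ofReal h1 (Eventually.of_forall fun _ => sq_nonneg _),
    ENNReal.ofReal_sum_of_nonneg fun _ _ => sq_nonneg _]
  congr 1
  · exact lintegral_congr fun z => by rw [ENNReal.ofReal_pow (norm_nonneg _), ofReal_norm]
  · exact Finset.sum_congr rfl fun c _ => (ENNReal.ofReal_pow
      (sub_nonneg.2 ((h.good_s hE).range (Q_sub (hE.sub c.pt_mem))).2.1) 2).symm

theorem Seq.en_le (hE : Dom E) (h : Seq E μ s w) {G : ℂ → ℂ} (hG : GLim s G) :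
    (∫⁻ z in Q \ E, ‖G z‖ₑ ^ 2) + ∑' c : Cp E, ENNReal.ofReal (uH s c.pt - uL s c.pt) ^ 2 ≤
      ENNReal.ofReal μ := by
  rw [ENNReal.tsum_eq_iSup_sum, ENNReal.add_iSup]
  refine iSup_le fun F => ?_
  have h1 := fin_En hE h hG isCompact_empty (empty_subset _) F
  rw [Measure.restrict_empty, lintegral_zero_measure, zero_add] at h1
  refine add_le_of_le_tsub_right_of_le h1 ?_
  rw [← withDensity_apply _ hE.op.measurableSet,
    ((Measure.InnerRegularWRT.isCompact_isClosed _).trans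
      (Measure.InnerRegularWRT.of_pseudoMetrizableSpace _)).measure_eq_iSup hE.op]
  refine iSup_le fun K => iSup_le fun hs => iSup_le fun hK => ?_
  rw [withDensity_apply _ hK.measurableSet]
  exact ENNReal.le_sub_of_add_le_right (ne_top_of_le_ne_top ENNReal.ofReal_ne_top h1)
    (fin_En hE h hG hK hs F)

theorem Seq.side (hE : Dom E) (h : Seq E μ s w) (c : Cp E) :
    uH s c.pt - uL s c.pt = μ * (uH w c.pt - uL w c.pt) := by
  have t1 := ((osc_En hE (h.good_s hE) c).sub ((osc_En hE (h.good_w hE) c).const_mul μ)).pow 2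
  have := UF_ne
  refine sub_eq_zero.1 (pow_eq_zero_iff two_ne_zero |>.1 (le_antisymm
    (le_of_forall_pos_le_add fun ε hε => ?_) (sq_nonneg _)))
  obtain ⟨N, hN⟩ := h.near hE hε
  rw [zero_add]
  refine le_of_tendsto t1 (((eventually_ge_atTop N).filter_mono UF_le).mono fun n hn => ?_)
  refine le_trans (Summable.le_tsum (f := fun c => ((s n).osc c - μ * (w n).osc c) ^ 2) ?_ c
    fun _ _ => sq_nonneg _) (hN n hn n hn).2.1
  refine .of_nonneg_of_le (fun _ => sq_nonneg _) (fun c => ?_)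
    (((h.fs n).2.mul_left 2).add ((h.fw n).2.mul_left (2 * μ ^ 2)))
  nlinarith [sq_nonneg ((s n).osc c + μ * (w n).osc c)]

end Vale.Agent.P116
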