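import Vale.Agent.P116.S.Lip
import Vale.Agent.P116.S.Rect

/-! P116 S/Equi (TASK, owner helper20). Definitions in S/Defs. Helper names end with `_Equi`.
Let `b z = log ‖z - z₀‖`, `A = {r ≤ ‖z - z₀‖ ≤ R}`. For `t ∈ [r, R]` monotonicity on `ball z₀ t` (`frontier_ball`) and compactness of the circle give points of the circle where `a ≥ max (a z) (a z₀)` and `a ≤ min ..`;
the circle is preconnected (`isPreconnected_sphere`), so the image of `A` under `(a, b)` contains the rectangle `[min, max] × [log r, log R]`. `vol_pair_cs` with `O = (Q \ E) \ {z₀}`; `‖gr b z‖ = 1 / ‖z - z₀‖`;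
`∫_A ‖z - z₀‖⁻² = 2 π log (R / r)` (`integral_comp_polarCoord_symm` or `integral_fun_norm_addHaar`). -/

open MeasureTheory Set Metric Filter Topology Complex
open scoped ENNReal ComplexConjugate

set_option linter.unusedVariables false

noncomputable section

namespace Vale.Agent.P116

open Vale.Agent.P128

variable {E : Set ℂ}

theorem diff_Equi {z₀ z : ℂ} (h : z ≠ z₀) : ContDiffAt ℝ 1 (fun z => ‖z - z₀‖) z :=
  (contDiffAt_id.sub contDiffAt_const).norm ℝ (sub_ne_zero.2 h)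

theorem gr_Equi {z₀ z : ℂ} (h : z ≠ z₀) :
    ‖gr (fun z => Real.log ‖z - z₀‖) z‖ ≤ ‖z - z₀‖⁻¹ := by
  have h0 : ‖z - z₀‖ ≠ 0 := norm_ne_zero_iff.2 (sub_ne_zero.2 h)
  have h1 := (((diff_Equi h).differentiableAt one_ne_zero).hasFDerivAt.log h0).fderiv
  have h2 : LipschitzWith 1 fun z : ℂ => ‖z - z₀‖ := by
    simpa only [dist_eq_norm] using LipschitzWith.dist_left z₀
  have h3 := norm_fderiv_le_of_lipschitz ℝ (x₀ := z) h2
  rw [(norm_dz _ z).2.1, h1, norm_smul, norm_inv, norm_norm]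
  exact mul_le_of_le_one_right (by positivity) h3

theorem mem_Equi {z₀ z : ℂ} {r R : ℝ} :
    z ∈ closedBall z₀ R \ ball z₀ r ↔ ‖z - z₀‖ ∈ Icc r R := by
  rw [Set.mem_sdiff, mem_closedBall, mem_ball, dist_eq_norm, not_lt, and_comm]
  rfl

theorem int_Equi (z₀ : ℂ) {r R : ℝ} (hr : 0 < r) (hR : r < R) :
    ∫ z in closedBall z₀ R \ ball z₀ r, ‖z - z₀‖⁻¹ ^ 2 = 2 * Real.pi * Real.log (R / r) := by
  have h1 : ∫ z in closedBall z₀ R \ ball z₀ r, ‖z - z₀‖⁻¹ ^ 2 =
      ∫ z : ℂ, (Icc r R).indicator (fun t => t⁻¹ ^ 2) ‖z - z₀‖ := by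
    rw [← integral_indicator (measurableSet_closedBall.diff measurableSet_ball)]
    refine integral_congr_ae (Eventually.of_forall fun z => ?_)
    by_cases hz : z ∈ closedBall z₀ R \ ball z₀ r
    · simp only [indicator_of_mem hz, indicator_of_mem (mem_Equi.1 hz)]
    · simp only [indicator_of_notMem hz, indicator_of_notMem (mt mem_Equi.2 hz)]
  have h2 : ∫ y in Ioi (0 : ℝ), y ^ (Module.finrank ℝ ℂ - 1) •
      (Icc r R).indicator (fun t => t⁻¹ ^ 2) y = Real.log (R / r) := by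
    have h3 : Ioi 0 ∩ Icc r R = Icc r R := inter_eq_right.2 fun y hy => hr.trans_le hy.1
    rw [← integral_inv_of_pos hr (hr.trans hR), intervalIntegral.integral_of_le hR.le,
      ← integral_Icc_eq_integral_Ioc, ← h3, ← setIntegral_indicator measurableSet_Icc, h3]
    refine setIntegral_congr_fun measurableSet_Ioi fun y hy => ?_
    by_cases hz : y ∈ Icc r R
    · have : y ≠ 0 := ne_of_gt hy
      simp only [indicator_of_mem hz, finrank_real_complex, smul_eq_mul]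
      field_simp
      exact pow_one y
    · simp only [indicator_of_notMem hz, smul_zero]
  have h4 : volume.real (ball (0 : ℂ) 1) = Real.pi := by simp [Measure.real]
  rw [h1, integral_sub_right_eq_self (fun z : ℂ => (Icc r R).indicator (fun t => t⁻¹ ^ 2) ‖z‖) z₀,
    integral_fun_norm_addHaar, h2, h4, finrank_real_complex, nsmul_eq_mul, smul_eq_mul, mul_assoc]
  rfl

theorem log_Equi (z₀ : ℂ) {r R : ℝ} (hr : 0 < r) (hR : r < R) :
    LocallyLipschitzOn {z₀}ᶜ (fun z => Real.log ‖z - z₀‖) ∧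
      IntegrableOn (fun z => ‖gr (fun z => Real.log ‖z - z₀‖) z‖ ^ 2) (closedBall z₀ R \ ball z₀ r) ∧
      ∫ z in closedBall z₀ R \ ball z₀ r, ‖gr (fun z => Real.log ‖z - z₀‖) z‖ ^ 2 ≤
        2 * Real.pi * Real.log (R / r) := by
  have hA : MeasurableSet (closedBall z₀ R \ ball z₀ r) :=
    measurableSet_closedBall.diff measurableSet_ball
  have hf : volume (closedBall z₀ R \ ball z₀ r) ≠ ∞ :=
    ((measure_mono sdiff_subset).trans_lt measure_closedBall_lt_top).ne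
  have h1 : ∀ z ∈ closedBall z₀ R \ ball z₀ r,
      ‖gr (fun z => Real.log ‖z - z₀‖) z‖ ^ 2 ≤ ‖z - z₀‖⁻¹ ^ 2 := fun z hz =>
    pow_le_pow_left₀ (norm_nonneg _)
      (gr_Equi (sub_ne_zero.1 (norm_pos_iff.1 (hr.trans_le (mem_Equi.1 hz).1)))) 2
  have h2 : ∀ z ∈ closedBall z₀ R \ ball z₀ r, ‖z - z₀‖⁻¹ ^ 2 ≤ r⁻¹ ^ 2 := fun z hz =>
    pow_le_pow_left₀ (by positivity) (inv_anti₀ hr (mem_Equi.1 hz).1) 2
  have h3 : IntegrableOn (fun z => ‖gr (fun z => Real.log ‖z - z₀‖) z‖ ^ 2)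
      (closedBall z₀ R \ ball z₀ r) :=
    Measure.integrableOn_of_bounded hf
      ((EARN.measurable_gr _).1.norm.pow_const 2).aestronglyMeasurable (M := r⁻¹ ^ 2)
      (ae_restrict_of_forall_mem hA fun z hz => by
        rw [Real.norm_of_nonneg (sq_nonneg _)]
        exact (h1 z hz).trans (h2 z hz))
  have h4 : IntegrableOn (fun z => ‖z - z₀‖⁻¹ ^ 2) (closedBall z₀ R \ ball z₀ r) :=
    Measure.integrableOn_of_bounded hf
      ((measurable_id.sub_const z₀).norm.inv.pow_const 2).aestronglyMeasurable (M := r⁻¹ ^ 2)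
      (ae_restrict_of_forall_mem hA fun z hz => by
        rw [Real.norm_of_nonneg (sq_nonneg _)]
        exact h2 z hz)
  refine ⟨fun z hz => ?_, h3, (setIntegral_mono_on h3 h4 hA h1).trans_eq (int_Equi z₀ hr hR)⟩
  obtain ⟨K, t, ht, h⟩ := ((diff_Equi hz).log
    (norm_ne_zero_iff.2 (sub_ne_zero.2 hz))).exists_lipschitzOnWith
  exact ⟨K, t, mem_nhdsWithin_of_mem_nhds ht, h⟩

theorem rect_Equi {a : TF E} (hm : a.Mono) {z₀ z : ℂ} {r R : ℝ} (hr : 0 < r)
    (hR : r < R) (hB : closedBall z₀ R ⊆ Q \ E) (hz : z ∈ ball z₀ r) :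
    Icc (min (a.hi z) (a.hi z₀)) (max (a.hi z) (a.hi z₀)) ×ℂ Icc (Real.log r) (Real.log R) ⊆
      (fun y => (⟨a.hi y, Real.log ‖y - z₀‖⟩ : ℂ)) '' (closedBall z₀ R \ ball z₀ r) := by
  rintro w ⟨h1, h2⟩
  have t0 := Real.exp_pos w.im
  have t1 : r ≤ Real.exp w.im := (Real.log_le_iff_le_exp hr).1 h2.1
  have t2 : Real.exp w.im ≤ R := (Real.le_log_iff_exp_le (hr.trans hR)).1 h2.2
  have hc : closedBall z₀ (Real.exp w.im) ⊆ Q \ E := (closedBall_subset_closedBall t2).trans hB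
  have hs : ContinuousOn a.hi (sphere z₀ (Real.exp w.im)) :=
    a.lip.continuousOn.mono (sphere_subset_closedBall.trans hc)
  have hn : (sphere z₀ (Real.exp w.im)).Nonempty := NormedSpace.sphere_nonempty.2 t0.le
  obtain ⟨p, hp, hp'⟩ := (isCompact_sphere z₀ _).exists_isMaxOn hn hs
  obtain ⟨q, hq, hq'⟩ := (isCompact_sphere z₀ _).exists_isMinOn hn hs
  have hM := hm (ball z₀ (Real.exp w.im)) isOpen_ball
    (closure_ball_subset_closedBall.trans (hc.trans sdiff_subset))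
  rw [frontier_ball _ t0.ne'] at hM
  have a1 := (hM (a.hi p)).1 fun y hy => hp' hy
  have a2 := (hM (a.hi q)).2 fun y hy => by
    rw [a.eq y (hc (sphere_subset_closedBall hy)).2]
    exact hq' hy
  have b1 := ball_subset_ball t1 hz
  have b2 : z₀ ∈ ball z₀ (Real.exp w.im) := mem_ball_self t0
  obtain ⟨y, hy, e⟩ := (isPreconnected_sphere (by simp) z₀ _).intermediate_value hq hp hs
    (⟨(le_min ((a2 z b1).trans (a.le z)) ((a2 z₀ b2).trans (a.le z₀))).trans h1.1,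
      h1.2.trans (max_le (a1 z b1) (a1 z₀ b2))⟩ : w.re ∈ Icc (a.hi q) (a.hi p))
  rw [mem_sphere, dist_eq_norm] at hy
  refine ⟨y, mem_Equi.2 (hy ▸ ⟨t1, t2⟩), Complex.ext e ?_⟩
  simp only [hy, Real.log_exp]

theorem osc_le (hE : Dom E) {a : TF E} (ha : a.Fn) (hm : a.Mono) {z₀ z : ℂ} {r R : ℝ} (hr : 0 < r)
    (hR : r < R) (hB : closedBall z₀ R ⊆ Q \ E) (hz : z ∈ ball z₀ r) :
    (a.hi z - a.hi z₀) ^ 2 * Real.log (R / r) ≤ 2 * Real.pi * a.en := by
  obtain ⟨h1, h2, h3⟩ := log_Equi z₀ hr hR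
  have hA : closedBall z₀ R \ ball z₀ r ⊆ Q \ E := sdiff_subset.trans hB
  have h4 := (measure_mono (rect_Equi hm hr hR hB hz)).trans (vol_pair_cs
    (O := (Q \ E) ∩ {z₀}ᶜ) (hE.op.inter isOpen_compl_singleton) (a.lip.mono inter_subset_left)
    (h1.mono inter_subset_right) (measurableSet_closedBall.diff measurableSet_ball)
    (fun y hy => ⟨hA hy, fun e => hy.2 (e ▸ mem_ball_self hr)⟩) (ha.1.mono_set hA) h2)
  have h5 := ha.dir_le hA
  have hL : 0 < Real.log (R / r) := Real.log_pos ((one_lt_div hr).2 hR)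
  rw [vol_Icc, ← ENNReal.ofReal_mul (sub_nonneg.2 min_le_max),
    ENNReal.ofReal_le_ofReal_iff (by positivity), ← Real.log_div (hr.trans hR).ne' hr.ne',
    max_sub_min_eq_abs'] at h4
  have i1 : 0 ≤ ∫ z in closedBall z₀ R \ ball z₀ r, ‖gr a.hi z‖ ^ 2 :=
    integral_nonneg fun _ => sq_nonneg _
  have i2 : 0 ≤ ∫ z in closedBall z₀ R \ ball z₀ r, ‖gr (fun z => Real.log ‖z - z₀‖) z‖ ^ 2 :=
    integral_nonneg fun _ => sq_nonneg _
  have h6 := pow_le_pow_left₀ (by positivity) h4 2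
  rw [mul_pow, mul_pow, sq_abs, Real.sq_sqrt i1, Real.sq_sqrt i2] at h6
  have h7 := h6.trans (mul_le_mul h5 h3 i2 (i1.trans h5))
  refine le_of_mul_le_mul_right ?_ hL
  linarith

end Vale.Agent.P116
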