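import Vale.Agent.P116.S.Unif
import Vale.Agent.P116.S.Good

/-! P116 S/Fill (TASK, owner helper20). Definitions in S/Defs. Helper names end with `_Fill`.
Fix `ε`; common `K`, `F` for both sequences (`ui`, `ui_mono`). `Q ⊆ img (s n) (w n) Q ⊆ pr '' K ∪ ⋃_F box ∪ small` (`cover`, `area_small`, `TF.at_pt`). `L = g '' K ∪ ⋃_F Box` is compact; for `δ > 0` and `n` in a set of `UF` the first two parts lie in `cthickening δ L`
(`unif`, `Good.lo`, `Good.hi`; clamp a point of the box into the limit box). So `volume (Q \ cthickening δ L) ≤ 2 ε`; `Q \ L` is the increasing union over `δ = 1 / (k + 1)` (`measure_iUnion_eq_iSup`, `closure_eq_iInter_cthickening`). Degenerate boxes are null (`vol_Icc`). -/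

open MeasureTheory Set Metric Filter Topology Complex
open scoped ENNReal ComplexConjugate

set_option linter.unusedVariables false

noncomputable section

namespace Vale.Agent.P116

open Vale.Agent.P128

variable {E : Set ℂ} {μ : ℝ} {s w : ℕ → TF E}

theorem clamp_Fill {a b a' b' x δ : ℝ} (hab : a ≤ b) (ha : |a' - a| ≤ δ) (hb : |b' - b| ≤ δ)
    (hx : x ∈ Icc a' b') : ∃ y ∈ Icc a b, |x - y| ≤ δ := by
  have hδ : 0 ≤ δ := (abs_nonneg _).trans ha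
  obtain ⟨h1, h2⟩ := abs_le.1 ha
  obtain ⟨h3, h4⟩ := abs_le.1 hb
  obtain ⟨h5, h6⟩ := hx
  rcases le_total x a with h | h
  · exact ⟨a, ⟨le_rfl, hab⟩, abs_le.2 ⟨by linarith, by linarith⟩⟩
  rcases le_total x b with h' | h'
  · exact ⟨x, ⟨h, h'⟩, by simpa using hδ⟩
  · exact ⟨b, ⟨hab, le_rfl⟩, abs_le.2 ⟨by linarith, by linarith⟩⟩

theorem near_Fill {x y : ℂ} {δ : ℝ} (h1 : |x.re - y.re| ≤ δ) (h2 : |x.im - y.im| ≤ δ) :
    dist x y ≤ 2 * δ := by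
  rw [dist_eq_norm]
  have := Complex.norm_le_abs_re_add_abs_im (x - y)
  simp only [sub_re, sub_im] at this
  linarith

theorem meas_Fill {A L : Set ℂ} (hL : IsClosed L) {e : ℝ≥0∞}
    (h : ∀ δ : ℝ, 0 < δ → volume (A \ cthickening δ L) ≤ e) : volume (A \ L) ≤ e := by
  have hm : Monotone fun k : ℕ => A \ cthickening (1 / ((k : ℝ) + 1)) L := by
    intro i j hij
    exact sdiff_subset_sdiff_right (cthickening_mono (Nat.one_div_le_one_div hij) L)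
  have hs : A \ L ⊆ ⋃ k : ℕ, A \ cthickening (1 / ((k : ℝ) + 1)) L := by
    intro y hy
    by_contra hn
    apply hy.2
    rw [← hL.closure_eq, closure_eq_iInter_cthickening]
    simp only [mem_iInter]
    intro δ hδ
    obtain ⟨k, hk⟩ := exists_nat_one_div_lt hδ
    by_contra hc
    exact hn (mem_iUnion.2 ⟨k, hy.1, fun h' => hc (cthickening_mono hk.le L h')⟩)
  refine (measure_mono hs).trans ?_
  rw [hm.measure_iUnion]
  exact iSup_le fun k => h _ (by positivity)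

theorem ev_Fill {x : ℕ → ℝ} {l δ : ℝ} (h : Tendsto x UF (𝓝 l)) (hδ : 0 < δ) :
    ∀ᶠ n in UF, |x n - l| ≤ δ := by
  filter_upwards [Metric.tendsto_nhds.1 h δ hδ] with n hn
  rw [Real.dist_eq] at hn
  exact hn.le

theorem evK_Fill {a : ℕ → TF E} (hE : Dom E) (h : Good a) {K : Set ℂ} (hK : IsCompact K)
    (hs : K ⊆ Q \ E) {δ : ℝ} (hδ : 0 < δ) : ∀ᶠ n in UF, ∀ z ∈ K, |(a n).hi z - uH a z| ≤ δ := by
  filter_upwards [Metric.tendstoUniformlyOn_iff.1 (h.unif hE hK hs) δ hδ] with n hn z hz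
  have := hn z hz
  rw [dist_comm, Real.dist_eq] at this
  exact this.le

theorem evF_Fill {a : ℕ → TF E} (hE : Dom E) (h : Good a) (F : Finset (Cp E)) {δ : ℝ}
    (hδ : 0 < δ) : ∀ᶠ n in UF, ∀ c ∈ F,
      |(a n).lo c.pt - uL a c.pt| ≤ δ ∧ |(a n).hi c.pt - uH a c.pt| ≤ δ := by
  rw [Filter.eventually_all_finset]
  intro c _
  have hc : c.pt ∈ Qc := Q_sub (hE.sub c.pt_mem)
  exact (ev_Fill (h.lo hc) hδ).and (ev_Fill (h.hi hc) hδ)

theorem cont_Fill (hE : Dom E) (hs : Good s) (hw : Good w) :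
    ContinuousOn (fun z => (⟨uH s z, uH w z⟩ : ℂ)) (Q \ E) := by
  have e : (fun z => (⟨uH s z, uH w z⟩ : ℂ)) = fun z => (uH s z : ℂ) + (uH w z : ℂ) * I :=
    funext fun z => Complex.mk_eq_add_mul_I _ _
  rw [e]
  exact (continuous_ofReal.comp_continuousOn (hs.cont hE)).add
    ((continuous_ofReal.comp_continuousOn (hw.cont hE)).mul continuousOn_const)

theorem step_Fill (hE : Dom E) (h : Seq E μ s w) {ε : ℝ} (hε : 0 < ε) :
    ∃ (K : Set ℂ) (F : Finset (Cp E)), K ⊆ Q \ E ∧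
      volume (Q \ ((fun z => (⟨uH s z, uH w z⟩ : ℂ)) '' K ∪
        ⋃ c ∈ F, Icc (uL s c.pt) (uH s c.pt) ×ℂ Icc (uL w c.pt) (uH w c.pt))) ≤
          ENNReal.ofReal (ε + ε) := by
  classical
  have hs := h.good_s hE
  have hw := h.good_w hE
  obtain ⟨K1, F1, hK1, hs1, h1⟩ := hs.ui ε hε
  obtain ⟨K2, F2, hK2, hs2, h2⟩ := hw.ui ε hε
  have hK : IsCompact (K1 ∪ K2) := hK1.union hK2
  have hKs : K1 ∪ K2 ⊆ Q \ E := union_subset hs1 hs2
  refine ⟨K1 ∪ K2, F1 ∪ F2, hKs, meas_Fill ?_ fun δ hδ => ?_⟩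
  · exact ((hK.image_of_continuousOn ((cont_Fill hE hs hw).mono hKs)).union
      ((F1 ∪ F2).isCompact_biUnion fun c _ => cpt_rect _ _ _ _)).isClosed
  have hδ2 : 0 < δ / 2 := half_pos hδ
  have := UF_ne
  obtain ⟨n, ⟨a1, a2⟩, a3, a4⟩ := (((evK_Fill hE hs hK hKs hδ2).and (evK_Fill hE hw hK hKs hδ2)).and
    ((evF_Fill hE hs (F1 ∪ F2) hδ2).and (evF_Fill hE hw (F1 ∪ F2) hδ2))).exists
  have m1 := ui_mono (K' := K1 ∪ K2) (F' := F1 ∪ F2) (h.fs n) subset_union_left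
    Finset.subset_union_left
  have m2 := ui_mono (K' := K1 ∪ K2) (F' := F1 ∪ F2) (h.fw n) subset_union_right
    Finset.subset_union_right
  refine le_trans (measure_mono fun y hy => ?_) (area_small hE (h.fs n) (h.fw n) (h.csw n n) hK
    (F1 ∪ F2) (m1.1.trans (h1 n).1) (m1.2.trans (h1 n).2) (m2.1.trans (h2 n).1)
    (m2.2.trans (h2 n).2))
  obtain ⟨z, hz, hyz⟩ := mem_iUnion₂.1 (cover hE (h.h n) (h.v n) hy.1)
  refine mem_iUnion₂.2 ⟨z, ⟨⟨hz, fun hzK => hy.2 ?_⟩, fun hzF => hy.2 ?_⟩, hyz⟩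
  · have e1 := (s n).eq z (hKs hzK).2
    have e2 := (w n).eq z (hKs hzK).2
    obtain ⟨⟨b1, b2⟩, b3, b4⟩ := hyz
    have r1 : y.re = (s n).hi z := le_antisymm b2 (e1 ▸ b1)
    have r2 : y.im = (w n).hi z := le_antisymm b4 (e2 ▸ b3)
    refine mem_cthickening_of_dist_le y ⟨uH s z, uH w z⟩ δ _ (Or.inl ⟨z, hzK, rfl⟩) ?_
    have := near_Fill (x := y) (y := ⟨uH s z, uH w z⟩) (δ := δ / 2) (r1 ▸ a1 z hzK) (r2 ▸ a2 z hzK)
    linarith
  · obtain ⟨c, hc, hzc⟩ := mem_iUnion₂.1 hzF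
    have hpt : c.pt ∈ Qc := Q_sub (hE.sub c.pt_mem)
    obtain ⟨e1, e2⟩ := (s n).at_pt hzc
    obtain ⟨e3, e4⟩ := (w n).at_pt hzc
    obtain ⟨b1, b2⟩ := hyz
    have b1' : y.re ∈ Icc ((s n).lo c.pt) ((s n).hi c.pt) := e1 ▸ e2 ▸ b1
    have b2' : y.im ∈ Icc ((w n).lo c.pt) ((w n).hi c.pt) := e3 ▸ e4 ▸ b2
    obtain ⟨p, hp, hp'⟩ := clamp_Fill (hs.range hpt).2.1 (a3 c hc).1 (a3 c hc).2 b1'
    obtain ⟨q, hq, hq'⟩ := clamp_Fill (hw.range hpt).2.1 (a4 c hc).1 (a4 c hc).2 b2'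
    refine mem_cthickening_of_dist_le y ⟨p, q⟩ δ _ (Or.inr (mem_iUnion₂.2 ⟨c, hc, hp, hq⟩)) ?_
    have := near_Fill (x := y) (y := ⟨p, q⟩) (δ := δ / 2) hp' hq'
    linarith

theorem Seq.fill (hE : Dom E) (h : Seq E μ s w) :
    volume (Q \ ((fun z => (⟨uH s z, uH w z⟩ : ℂ)) '' (Q \ E) ∪
      ⋃ c ∈ {c : Cp E | uL s c.pt < uH s c.pt},
        Icc (uL s c.pt) (uH s c.pt) ×ℂ Icc (uL w c.pt) (uH w c.pt))) = 0 := by
  refine le_antisymm (ENNReal.le_of_forall_pos_le_add fun ε hε _ => ?_) zero_le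
  obtain ⟨K, F, hK, hv⟩ := step_Fill hE h (ε := ε / 2) (half_pos (by exact_mod_cast hε))
  rw [add_halves, ENNReal.ofReal_coe_nnreal] at hv
  have hN : volume (⋃ c ∈ {c : Cp E | c ∈ F ∧ ¬uL s c.pt < uH s c.pt},
      Icc (uL s c.pt) (uH s c.pt) ×ℂ Icc (uL w c.pt) (uH w c.pt)) = 0 := by
    rw [measure_biUnion_null_iff ((F.finite_toSet.subset fun c hc => hc.1).countable)]
    intro c hc
    rw [vol_Icc, ENNReal.ofReal_of_nonpos (sub_nonpos.2 (not_lt.1 hc.2)), zero_mul]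
  rw [zero_add]
  refine le_trans (measure_mono fun y hy => ?_) ((measure_union_le _ _).trans
    (le_of_le_of_eq (add_le_add hv hN.le) (add_zero _)))
  by_contra hn
  rw [mem_union, not_or] at hn
  apply hy.2
  have hL := hn.1
  rw [Set.mem_sdiff, not_and, not_not] at hL
  rcases hL hy.1 with ⟨z, hz, rfl⟩ | hb
  · exact Or.inl ⟨z, hK hz, rfl⟩
  · obtain ⟨c, hc, hyc⟩ := mem_iUnion₂.1 hb
    by_cases hd : uL s c.pt < uH s c.pt
    · exact Or.inr (mem_iUnion₂.2 ⟨c, hd, hyc⟩)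
    · exact absurd (mem_iUnion₂.2 ⟨c, ⟨hc, hd⟩, hyc⟩) hn.2

end Vale.Agent.P116
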