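import Vale.Agent.P116.S.Cacc
import Vale.Agent.P116.S.L2

/-! P116 S/HolA (TASK, owner helper20). Definitions in S/Defs. Helper names end with `_HolA`.
`l2_lim` for `conj (gr (a n).hi)` on `closedBall x r` (`cauchy`). For smooth `φ` supported in the ball, `conj (gr u) * gr φ = ⟪gr u, gr φ⟫ + i jac u φ`; the integral tends to zero (`har`, `UF_le`, `curl`) and to `∫ G gr φ` (`l2_pair`).
`EARN.weyl` (`MemLp.integrable` on a finite measure), `integral_congr_ae`, restriction to the smaller ball. -/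

open MeasureTheory Set Metric Filter Topology Complex
open scoped ENNReal ComplexConjugate

set_option linter.unusedVariables false

noncomputable section

namespace Vale.Agent.P116

open Vale.Agent.P128

variable {E : Set ℂ} {a : ℕ → TF E}

theorem res_HolA {g : ℕ → ℂ → ℂ} {G : ℂ → ℂ} {ν ν' : Measure ℂ} (hν : ν' ≤ ν)
    (hg : ∀ n, MemLp (g n) 2 ν) (hG : MemLp G 2 ν)
    (h : Tendsto (fun n => ∫ z, ‖g n z - G z‖ ^ 2 ∂ν) UF (𝓝 0)) :
    Tendsto (fun n => ∫ z, ‖g n z - G z‖ ^ 2 ∂ν') UF (𝓝 0) := by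
  refine squeeze_zero (fun n => integral_nonneg fun z => by positivity) (fun n => ?_) h
  exact integral_mono_measure hν (Eventually.of_forall fun z => by positivity)
    (MemLp.integrable_norm_pow (p := 2) ((hg n).sub hG) two_ne_zero)

theorem mem_HolA {O A : Set ℂ} {φ : ℂ → ℝ} (h : Tst O φ) :
    MemLp (gr φ) 2 (volume.restrict A) := by
  obtain ⟨C, -, -, -, -, h1⟩ := h.bd
  exact ((memLp_two_iff_integrable_sq_norm
    (EARN.measurable_gr φ).1.aestronglyMeasurable).2 h1).restrict A

theorem zero_HolA (hE : Dom E) (h : Good a) {B : Set ℂ} (hB : IsOpen B) (hs : B ⊆ Q \ E)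
    {φ : ℂ → ℝ} (h1 : ContDiff ℝ (⊤ : ℕ∞) φ) (h2 : HasCompactSupport φ) (h3 : tsupport φ ⊆ B) :
    Tendsto (fun n => ∫ z in B, conj (gr (a n).hi z) * gr φ z) atTop (𝓝 0) := by
  have t1 := tst_of_smooth h1 h2 h3
  have t2 := tst_of_smooth h1 h2 (h3.trans hs)
  obtain ⟨C, -, -, -, h0, -⟩ := t1.bd
  have key : ∀ n, ‖∫ z in B, conj (gr (a n).hi z) * gr φ z‖ =
      |∫ z in Q \ E, inner ℝ (gr (a n).hi z) (gr φ z)| := by
    intro n
    have hi : Integrable (fun z => conj (gr (a n).hi z) * gr φ z) (volume.restrict B) :=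
      ((h.fn n).memLp hs).integrable_mul (mem_HolA t1)
    have e1 : (∫ z in B, conj (gr (a n).hi z) * gr φ z).im = 0 :=
      (imCLM.integral_comp_comm hi).symm.trans (curl hB h1 t1 ((a n).lip.mono hs))
    have e2 : (∫ z in B, conj (gr (a n).hi z) * gr φ z).re =
        ∫ z in B, inner ℝ (gr (a n).hi z) (gr φ z) := by
      refine (reCLM.integral_comp_comm hi).symm.trans (integral_congr_ae
        (Eventually.of_forall fun z => ?_))
      simp only [reCLM_apply, Complex.inner, mul_comm]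
    rw [setIntegral_eq_of_subset_of_forall_sdiff_eq_zero hE.op.measurableSet hs fun z hz => by
      rw [h0 z fun h4 => hz.2 (h3 h4), inner_zero_right], ← e2, abs_re_eq_norm.2 e1]
  rw [Metric.tendsto_nhds]
  intro ε hε
  have hC := Real.sqrt_nonneg (∫ z, ‖gr φ z‖ ^ 2)
  filter_upwards [h.har (ε / (√(∫ z, ‖gr φ z‖ ^ 2) + 1)) (by positivity)] with n hn
  rw [dist_zero_right, key]
  refine (hn φ t2).trans_lt ?_
  rw [div_mul_eq_mul_div, div_lt_iff₀ (by positivity)]
  nlinarith

theorem Good.loc_hol (hE : Dom E) (h : Good a) {x : ℂ} {r : ℝ} (hr : 0 < r)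
    (hB : closedBall x r ⊆ Q \ E) : ∃ F : ℂ → ℂ, DifferentiableOn ℂ F (ball x (r / 2)) ∧
      MemLp F 2 (volume.restrict (ball x (r / 2))) ∧
      Tendsto (fun n => ∫ z in ball x (r / 2), ‖conj (gr (a n).hi z) - F z‖ ^ 2) UF (𝓝 0) := by
  have hs : ball x r ⊆ Q \ E := ball_subset_closedBall.trans hB
  obtain ⟨G, hG, hl⟩ := l2_lim (g := fun n z => conj (gr (a n).hi z))
    (fun n => (h.fn n).memLp hB) fun ε hε => by
      obtain ⟨S, hS, h1⟩ := h.cauchy hE (isCompact_closedBall x r) hB hε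
      refine ⟨S, hS, fun n hn m hm => ?_⟩
      simp only [← map_sub, norm_conj]
      exact h1 n hn m hm
  have m1 : volume.restrict (ball x r) ≤ volume.restrict (closedBall x r) :=
    Measure.restrict_mono ball_subset_closedBall le_rfl
  have m2 : volume.restrict (ball x (r / 2)) ≤ volume.restrict (closedBall x r) :=
    Measure.restrict_mono ((ball_subset_ball (by linarith)).trans ball_subset_closedBall) le_rfl
  have : IsFiniteMeasure (volume.restrict (ball x r)) :=
    isFiniteMeasure_restrict.2 measure_ball_lt_top.ne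
  have := UF_ne
  obtain ⟨F, hF, he⟩ := EARN.weyl (f := G) (x := x) hr
    ((hG.mono_measure m1).integrable one_le_two) fun φ h1 h2 h3 =>
      tendsto_nhds_unique (l2_pair (fun n => (h.fn n).memLp hs) (hG.mono_measure m1)
        (mem_HolA (tst_of_smooth h1 h2 h3)) (res_HolA m1 (fun n => (h.fn n).memLp hB) hG hl))
        ((zero_HolA hE h isOpen_ball hs h1 h2 h3).mono_left UF_le)
  refine ⟨F, hF, (memLp_congr_ae he).2 (hG.mono_measure m2), ?_⟩
  refine (res_HolA m2 (fun n => (h.fn n).memLp hB) hG hl).congr fun n => integral_congr_ae ?_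
  filter_upwards [he] with z hz
  rw [hz]

end Vale.Agent.P116
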