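import Vale.Agent.P116.S.HolA

/-! P116 S/HolB (owner helper20). Definitions in S/Defs. Helper names end with `_HolB`.
Choose `r x`, `F x` for `x ∈ Q \ E`; on the overlap of two balls the functions agree (`l2_unique` on the overlap, `Measure.eqOn_open_of_ae_eq`); `G x = F x x`. A compact `K` is covered by finitely many balls,
`∫_K ≤ ∑ ∫_ball` (induction on the finite cover, `IsCompact.induction_on` is convenient: union of two sets, `setIntegral_mono_set`, `integral_add_measure`/`Measure.restrict_union_le`).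
`weak`: `ibp` for `(a n).hi`; the left side converges by `unif` on `tsupport φ`, the right side by `l2_pair` on `tsupport φ` after conjugation. -/

open MeasureTheory Set Metric Filter Topology Complex
open scoped ENNReal ComplexConjugate

set_option linter.unusedVariables false

noncomputable section

namespace Vale.Agent.P116

open Vale.Agent.P128

variable {E : Set ℂ} {a : ℕ → TF E}

theorem mono_HolB {g : ℕ → ℂ → ℝ} (h0 : ∀ n z, 0 ≤ g n z) {s t : Set ℂ} (h : s ⊆ t)
    (hi : ∀ n, IntegrableOn (g n) t) (ht : Tendsto (fun n => ∫ z in t, g n z) UF (𝓝 0)) :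
    Tendsto (fun n => ∫ z in s, g n z) UF (𝓝 0) :=
  squeeze_zero (fun n => integral_nonneg (h0 n))
    (fun n => setIntegral_mono_set (hi n) (ae_of_all _ (h0 n)) h.eventuallyLE) ht

theorem union_HolB {g : ℕ → ℂ → ℝ} (h0 : ∀ n z, 0 ≤ g n z) {s t : Set ℂ}
    (hj : ∀ n, IntegrableOn (g n) s) (hi : ∀ n, IntegrableOn (g n) t)
    (hs : Tendsto (fun n => ∫ z in s, g n z) UF (𝓝 0))
    (ht : Tendsto (fun n => ∫ z in t, g n z) UF (𝓝 0)) :
    Tendsto (fun n => ∫ z in s ∪ t, g n z) UF (𝓝 0) := by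
  refine squeeze_zero (fun n => integral_nonneg (h0 n)) (fun n => ?_) (by simpa using hs.add ht)
  rw [← integral_add_measure (hj n) (hi n)]
  exact integral_mono_measure (Measure.restrict_union_le s t) (ae_of_all _ (h0 n))
    (Integrable.add_measure (hj n) (hi n))

theorem unif_HolB {g : ℕ → ℂ → ℝ} {u : ℂ → ℝ} {K : Set ℂ} (hK : IsCompact K)
    (h : TendstoUniformlyOn g u UF K) :
    Tendsto (fun n => ∫ z in K, ‖(g n z : ℂ) - u z‖ ^ 2) UF (𝓝 0) := by
  rw [NormedAddGroup.tendsto_nhds_zero]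
  intro ε hε
  obtain ⟨δ, hδ1, hδ⟩ : ∃ δ : ℝ, δ ^ 2 * volume.real K < ε ∧ 0 < δ := by
    have h1 : Continuous fun δ : ℝ => δ ^ 2 * volume.real K := by fun_prop
    have h2 := (h1.tendsto 0).eventually_lt_const (u := ε) (by simpa using hε)
    exact ((h2.filter_mono nhdsWithin_le_nhds).and (self_mem_nhdsWithin (s := Ioi 0))).exists
  filter_upwards [Metric.tendstoUniformlyOn_iff.1 h δ hδ] with n hn
  refine (norm_setIntegral_le_of_norm_le_const hK.measure_lt_top fun z hz => ?_).trans_lt hδ1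
  have h3 := hn z hz
  rw [dist_comm, dist_eq_norm] at h3
  rw [norm_pow, norm_norm, ← ofReal_sub, norm_real]
  gcongr

theorem Good.exists_GLim (hE : Dom E) (h : Good a) : ∃ G, GLim a G := by
  have hx : ∀ x, ∃ (r : ℝ) (F : ℂ → ℂ), x ∈ Q \ E → 0 < r ∧ ball x r ⊆ Q \ E ∧
      DifferentiableOn ℂ F (ball x r) ∧ MemLp F 2 (volume.restrict (ball x r)) ∧
      Tendsto (fun n => ∫ z in ball x r, ‖conj (gr (a n).hi z) - F z‖ ^ 2) UF (𝓝 0) := fun x => by
    by_cases hx : x ∈ Q \ E
    · obtain ⟨r, hr, hB⟩ := Metric.nhds_basis_closedBall.mem_iff.1 (hE.op.mem_nhds hx)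
      obtain ⟨F, hF⟩ := h.loc_hol hE hr hB
      exact ⟨r / 2, F, fun _ => ⟨half_pos hr,
        (ball_subset_ball (half_le_self hr.le)).trans (ball_subset_closedBall.trans hB), hF⟩⟩
    · exact ⟨0, 0, fun h => absurd h hx⟩
  choose r F hF using hx
  have hi : ∀ x ∈ Q \ E, ∀ n,
      IntegrableOn (fun z => ‖conj (gr (a n).hi z) - F x z‖ ^ 2) (ball x (r x)) := fun x hx n => by
    have h1 := ((h.fn n).memLp (hF x hx).2.1).sub (hF x hx).2.2.2.1
    exact (memLp_two_iff_integrable_sq_norm h1.1).1 h1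
  have key : ∀ x ∈ Q \ E, ∀ y ∈ ball x (r x), F y y = F x y := fun x hx y hy => by
    obtain ⟨h1, h2, h3, h4, h5⟩ := hF x hx
    obtain ⟨k1, k2, k3, k4, k5⟩ := hF y (h2 hy)
    have h6 := l2_unique (ν := volume.restrict (ball y (r y) ∩ ball x (r x)))
      (fun n => (h.fn n).memLp (inter_subset_right.trans h2))
      (k4.mono_measure (Measure.restrict_mono inter_subset_left le_rfl))
      (h4.mono_measure (Measure.restrict_mono inter_subset_right le_rfl))
      (mono_HolB (fun _ _ => sq_nonneg _) inter_subset_left (hi y (h2 hy)) k5)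
      (mono_HolB (fun _ _ => sq_nonneg _) inter_subset_right (hi x hx) h5)
    exact Measure.eqOn_open_of_ae_eq h6 (isOpen_ball.inter isOpen_ball)
      (k3.continuousOn.mono inter_subset_left) (h3.continuousOn.mono inter_subset_right)
      ⟨mem_ball_self k1, hy⟩
  refine ⟨fun x => F x x, fun x hx => ?_, fun K hK hs => ?_⟩
  · have h1 := ball_mem_nhds x (hF x hx).1
    exact (((hF x hx).2.2.1.differentiableAt h1).congr_of_eventuallyEq
      (eventually_of_mem h1 (key x hx))).differentiableWithinAt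
  · refine (hK.induction_on (p := fun A =>
      (∀ n, IntegrableOn (fun z => ‖conj (gr (a n).hi z) - F z z‖ ^ 2) A) ∧
        Tendsto (fun n => ∫ z in A, ‖conj (gr (a n).hi z) - F z z‖ ^ 2) UF (𝓝 0))
      ⟨fun n => integrableOn_empty, by simpa using tendsto_const_nhds⟩
      (fun s t hst ht => ⟨fun n => (ht.1 n).mono_set hst,
        mono_HolB (fun _ _ => sq_nonneg _) hst ht.1 ht.2⟩)
      (fun s t hs ht => ⟨fun n => (hs.1 n).union (ht.1 n),
        union_HolB (fun _ _ => sq_nonneg _) hs.1 ht.1 hs.2 ht.2⟩) fun x hx => ?_).2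
    have e : ∀ n, EqOn (fun z => ‖conj (gr (a n).hi z) - F x z‖ ^ 2)
        (fun z => ‖conj (gr (a n).hi z) - F z z‖ ^ 2) (ball x (r x)) := fun n z hz => by
      simp only [key x (hs hx) z hz]
    exact ⟨ball x (r x), mem_nhdsWithin_of_mem_nhds (ball_mem_nhds x (hF x (hs hx)).1),
      fun n => (hi x (hs hx) n).congr_fun (e n) measurableSet_ball,
      (hF x (hs hx)).2.2.2.2.congr fun n => setIntegral_congr_fun measurableSet_ball (e n)⟩

theorem Good.weak (hE : Dom E) (h : Good a) {G : ℂ → ℂ} (hG : GLim a G) {φ : ℂ → ℝ}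
    (hφ : Tst (Q \ E) φ) :
    ∫ z in Q \ E, (uH a z : ℂ) * gr φ z = -∫ z in Q \ E, (φ z : ℂ) * conj (G z) := by
  have := UF_ne
  obtain ⟨C, -, -, -, hz, hint⟩ := hφ.bd
  have hK : IsCompact (tsupport φ) := hφ.2.1
  have hs := hφ.2.2
  have hc : Continuous φ := hφ.1.choose_spec.continuous
  have e1 : ∀ u : ℂ → ℝ, ∫ z in Q \ E, (u z : ℂ) * gr φ z =
      ∫ z in tsupport φ, (u z : ℂ) * gr φ z := fun u =>
    setIntegral_eq_of_subset_of_forall_sdiff_eq_zero hE.op.measurableSet hs fun z h1 => by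
      rw [hz z h1.2, mul_zero]
  have e2 : ∀ g : ℂ → ℂ, ∫ z in Q \ E, (φ z : ℂ) * g z =
      ∫ z in tsupport φ, g z * (φ z : ℂ) := fun g => by
    simp only [mul_comm _ (g _)]
    exact setIntegral_eq_of_subset_of_forall_sdiff_eq_zero hE.op.measurableSet hs fun z h1 => by
      rw [image_eq_zero_of_notMem_tsupport h1.2, ofReal_zero, mul_zero]
  have t1 := l2_pair (ν := volume.restrict (tsupport φ)) (g := fun n z => ((a n).hi z : ℂ))
    (G := fun z => (uH a z : ℂ)) (k := gr φ)
    (fun n => memLp_cont hK (continuous_ofReal.comp_continuousOn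
      ((a n).cont.mono (hs.trans (sdiff_subset_sdiff_left Q_sub)))))
    (memLp_cont hK (continuous_ofReal.comp_continuousOn ((h.cont hE).mono hs)))
    ((memLp_two_iff_integrable_sq_norm (EARN.measurable_gr φ).1.aestronglyMeasurable).2
      hint.integrableOn) (unif_HolB hK (h.unif hE hK hs))
  have t2 := l2_pair (ν := volume.restrict (tsupport φ)) (g := fun n => gr (a n).hi)
    (G := fun z => conj (G z)) (k := fun z => (φ z : ℂ))
    (fun n => (memLp_two_iff_integrable_sq_norm (EARN.measurable_gr _).1.aestronglyMeasurable).2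
      ((h.fn n).1.mono_set hs))
    (memLp_cont hK (continuous_conj.comp_continuousOn (hG.1.continuousOn.mono hs)))
    (memLp_cont hK (continuous_ofReal.comp hc).continuousOn)
    ((hG.2 _ hK hs).congr fun n => integral_congr_ae (ae_of_all _ fun z => by
      simp only
      rw [← Complex.norm_conj, map_sub, Complex.conj_conj]))
  rw [e1, e2]
  refine tendsto_nhds_unique t1 (t2.neg.congr fun n => ?_)
  rw [← e1, ← e2, ibp hE.op hφ (a n).lip]

end Vale.Agent.P116
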