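import Vale.Agent.P116.S.HolB

/-! P116 S/Holo (TASK, owner helper20). Definitions in S/Defs. Helper names end with `_Holo`.
`f = u + i ν v` is continuous and `∫ f gr φ = -∫ φ conj (G₁ - i ν G₂) = 0` (`weak`); `EARN.weyl` on small balls, `Measure.eqOn_open_of_ae_eq`. Then `u = re f` is smooth, `gr u = conj (deriv f)`; `ibp` and `weak` give
`∫ φ (gr u - conj G₁) = 0` for all smooth `φ`; `IsOpen.ae_eq_zero_of_integral_contDiff_smul_eq_zero`, continuity. -/

open MeasureTheory Set Metric Filter Topology Complex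
open scoped ENNReal ComplexConjugate

set_option linter.unusedVariables false

noncomputable section

namespace Vale.Agent.P116

open Vale.Agent.P128

variable {E : Set ℂ}

theorem int_Holo {O C : Set ℂ} {g k : ℂ → ℂ} (hO : IsOpen O) (hC : IsCompact C) (h : C ⊆ O)
    (hg : ContinuousOn g O) (hk : Continuous k) (h0 : ∀ z, z ∉ C → k z = 0) :
    IntegrableOn (fun z => g z * k z) O :=
  (((hg.mono h).mul hk.continuousOn).integrableOn_compact hC).of_forall_sdiff_eq_zero
    hO.measurableSet fun z hz => mul_eq_zero_of_right _ (h0 z hz.2)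

theorem weyl_Holo {O : Set ℂ} {f : ℂ → ℂ} (hO : IsOpen O) (hf : ContinuousOn f O)
    (h : ∀ φ : ℂ → ℝ, ContDiff ℝ (⊤ : ℕ∞) φ → Tst O φ → ∫ z in O, f z * gr φ z = 0) :
    DifferentiableOn ℂ f O := by
  intro x hx
  obtain ⟨r, hr, hB⟩ := nhds_basis_closedBall.mem_iff.1 (hO.mem_nhds hx)
  have hb := ball_subset_closedBall.trans hB
  obtain ⟨F, hF, he⟩ := EARN.weyl hr (((hf.mono hB).integrableOn_compact
    (isCompact_closedBall x r)).mono_set ball_subset_closedBall) fun φ h1 h2 h3 => by
      have h4 := tst_of_smooth h1 h2 (h3.trans hb)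
      obtain ⟨C, -, -, -, h5, -⟩ := h4.bd
      rw [← h φ h1 h4]
      exact (setIntegral_eq_of_subset_of_forall_sdiff_eq_zero hO.measurableSet hb fun z hz => by
        rw [h5 z fun h6 => hz.2 (h3 h6), mul_zero]).symm
  have h7 := Measure.eqOn_open_of_ae_eq he isOpen_ball hF.continuousOn
    (hf.mono ((ball_subset_ball (half_le_self hr.le)).trans hb))
  have h8 := ball_mem_nhds x (half_pos hr)
  exact ((hF.differentiableAt h8).congr_of_eventuallyEq
    (h7.eventuallyEq_of_mem h8).symm).differentiableWithinAt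

theorem gr_Holo {f : ℂ → ℂ} {z : ℂ} (hf : DifferentiableAt ℂ f z) :
    gr (fun z => (f z).re) z = conj (deriv f z) := by
  have h1 : HasFDerivAt (fun z => (f z).re) _ z :=
    reCLM.hasFDerivAt.comp z (hf.hasDerivAt.hasFDerivAt.restrictScalars ℝ)
  rw [gr, h1.fderiv]
  apply Complex.ext <;> simp

theorem der_Holo {O : Set ℂ} {f G : ℂ → ℂ} (hO : IsOpen O) (hf : DifferentiableOn ℂ f O)
    (hG : ContinuousOn G O) (h : ∀ φ : ℂ → ℝ, Tst O φ →
      ∫ z in O, ((f z).re : ℂ) * gr φ z = -∫ z in O, (φ z : ℂ) * conj (G z)) :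
    ∀ z ∈ O, deriv f z = G z := by
  have hu : LocallyLipschitzOn O fun z => (f z).re := fun x hx => by
    have h1 : ContDiffAt ℝ 1 (fun z => (f z).re) x := reCLM.contDiff.contDiffAt.comp x
      ((hf.analyticAt (hO.mem_nhds hx)).contDiffAt.restrict_scalars ℝ)
    obtain ⟨K, t, ht, h2⟩ := h1.exists_lipschitzOnWith
    exact ⟨K, t, mem_nhdsWithin_of_mem_nhds ht, h2⟩
  have c1 : ContinuousOn (fun z => conj (deriv f z)) O :=
    continuous_conj.comp_continuousOn (hf.deriv hO).continuousOn
  have c2 : ContinuousOn (fun z => conj (G z)) O := continuous_conj.comp_continuousOn hG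
  have h3 := hO.ae_eq_zero_of_integral_contDiff_smul_eq_zero (μ := volume)
    ((c1.sub c2).locallyIntegrableOn hO.measurableSet) fun φ h1 h2 h3 => by
      have h4 := tst_of_smooth h1 h2 h3
      have h5 := neg_injective ((ibp hO h4 hu).symm.trans (h φ h4))
      have hk : Continuous fun z => (φ z : ℂ) := continuous_ofReal.comp h1.continuous
      have h0 : ∀ z, z ∉ tsupport φ → (φ z : ℂ) = 0 := fun z hz => by
        rw [image_eq_zero_of_notMem_tsupport hz, ofReal_zero]
      rw [← setIntegral_eq_integral_of_forall_compl_eq_zero (s := O) fun z hz => by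
        rw [image_eq_zero_of_notMem_tsupport fun h6 => hz (h3 h6), zero_smul]]
      have e : ∫ z in O, φ z • (conj (deriv f z) - conj (G z)) =
          ∫ z in O, (conj (deriv f z) * φ z - conj (G z) * φ z) := by
        refine integral_congr_ae (Eventually.of_forall fun z => ?_)
        simp only [real_smul]
        ring
      have e1 : ∫ z in O, conj (deriv f z) * φ z =
          ∫ z in O, (φ z : ℂ) * gr (fun z => (f z).re) z :=
        setIntegral_congr_fun hO.measurableSet fun z hz => by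
          simp only [gr_Holo (hf.differentiableAt (hO.mem_nhds hz)), mul_comm]
      have e2 : ∫ z in O, conj (G z) * φ z = ∫ z in O, (φ z : ℂ) * conj (G z) := by
        simp only [mul_comm]
      refine e.trans ?_
      rw [integral_sub (int_Holo hO h2 h3 c1 hk h0) (int_Holo hO h2 h3 c2 hk h0), e1, e2, h5,
        sub_self]
  have h4 := Measure.eqOn_open_of_ae_eq (μ := volume) (g := fun _ => (0 : ℂ))
    ((ae_restrict_iff' hO.measurableSet).2 h3) hO (c1.sub c2) continuousOn_const
  exact fun z hz => (starRingEnd ℂ).injective (sub_eq_zero.1 (h4 hz))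

theorem holo (hE : Dom E) {s w : ℕ → TF E} (hs : Good s) (hw : Good w) {G₁ G₂ : ℂ → ℂ}
    (h1 : GLim s G₁) (h2 : GLim w G₂) {ν : ℝ} (h : ∀ z ∈ Q \ E, G₁ z = I * ν * G₂ z) :
    DifferentiableOn ℂ (fun z => (⟨uH s z, ν * uH w z⟩ : ℂ)) (Q \ E) ∧
      ∀ z ∈ Q \ E, deriv (fun z => (⟨uH s z, ν * uH w z⟩ : ℂ)) z = G₁ z := by
  have hO := hE.op
  have c1 : ContinuousOn (fun z => (uH s z : ℂ)) (Q \ E) :=
    continuous_ofReal.comp_continuousOn (hs.cont hE)
  have c2 : ContinuousOn (fun z => (uH w z : ℂ)) (Q \ E) :=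
    continuous_ofReal.comp_continuousOn (hw.cont hE)
  have e : (fun z => (⟨uH s z, ν * uH w z⟩ : ℂ)) = fun z => (uH s z : ℂ) + I * ν * uH w z := by
    funext z
    apply Complex.ext <;> simp
  have hd : DifferentiableOn ℂ (fun z => (⟨uH s z, ν * uH w z⟩ : ℂ)) (Q \ E) := by
    rw [e]
    refine weyl_Holo hO (c1.add (continuousOn_const.mul c2)) fun φ h3 h4 => ?_
    obtain ⟨C, -, -, -, h5, -⟩ := h4.bd
    have hk : Continuous (gr φ) :=
      continuousOn_univ.1 (EARN.contDiffOn_gr isOpen_univ h3.contDiffOn).1.continuousOn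
    have e1 : ∫ z in Q \ E, ((uH s z : ℂ) + I * ν * uH w z) * gr φ z =
        ∫ z in Q \ E, ((uH s z : ℂ) * gr φ z + I * ν * (uH w z * gr φ z)) := by
      simp only [add_mul, mul_assoc]
    have e2 : ∫ z in Q \ E, (φ z : ℂ) * conj (G₁ z) =
        ∫ z in Q \ E, -(I * ν) * ((φ z : ℂ) * conj (G₂ z)) :=
      setIntegral_congr_fun hO.measurableSet fun z hz => by
        simp only [h z hz, map_mul, conj_I, conj_ofReal]
        ring
    rw [e1, integral_add (int_Holo hO h4.2.1 h4.2.2 c1 hk h5)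
      ((int_Holo hO h4.2.1 h4.2.2 c2 hk h5).const_mul _), integral_const_mul, hs.weak hE h1 h4,
      hw.weak hE h2 h4, e2, integral_const_mul]
    ring
  exact ⟨hd, der_Holo hO hd h1.1.continuousOn fun φ hφ => hs.weak hE h1 hφ⟩

end Vale.Agent.P116
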