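import Vale.Agent.P116.S.Area

/-! P116 S/Ineq (TASK, owner helper20). Definitions in S/Defs. Helper names end with `_Ineq`.
With `X = ‖gr s_n‖`, `Y = ‖gr w_m‖`: `∫ (X - μ Y)² + ∑ (osc - μ osc)² + 2 μ ∫ (X Y - |jac|) = en s_n + μ² en w_m - 2 μ (∫ |jac| + ∑ osc osc) ≤ en s_n + μ² en w_m - 2 μ`
(`area_one`), which tends to zero; the three terms are nonnegative (`abs_jac_le`). -/

open MeasureTheory Set Metric Filter Topology Complex
open scoped ENNReal ComplexConjugate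

set_option linter.unusedVariables false

noncomputable section

namespace Vale.Agent.P116

open Vale.Agent.P128

variable {E : Set ℂ} {μ : ℝ} {s w : ℕ → TF E}

theorem key_Ineq (hE : Dom E) {a b : TF E} (ha : a.Fn) (hb : b.Fn) (h : a.Cmp b) (hH : a.H)
    (hV : b.V) (hμ : 0 < μ) :
    (∫ z in Q \ E, (‖gr a.hi z‖ - μ * ‖gr b.hi z‖) ^ 2) + ∑' c, (a.osc c - μ * b.osc c) ^ 2 +
      2 * μ * ∫ z in Q \ E, (‖gr a.hi z‖ * ‖gr b.hi z‖ - |jac a.hi b.hi z|) ≤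
      a.en + μ ^ 2 * b.en - 2 * μ := by
  obtain ⟨i1, i2, i3⟩ := jac_int hE ha hb
  have h1 := mul_le_mul_of_nonneg_left (area_one hE ha hb h hH hV) hμ.le
  have e : ∀ x y : ℝ, (x - μ * y) ^ 2 = x ^ 2 + μ ^ 2 * y ^ 2 - 2 * μ * (x * y) := fun x y => by
    ring
  have j1 : Integrable (fun z => ‖gr a.hi z‖ ^ 2 + μ ^ 2 * ‖gr b.hi z‖ ^ 2)
      (volume.restrict (Q \ E)) := ha.1.add (hb.1.const_mul _)
  have j2 : Summable fun c => a.osc c ^ 2 + μ ^ 2 * b.osc c ^ 2 := ha.2.add (hb.2.mul_left _)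
  simp only [e]
  rw [integral_sub j1 (i1.const_mul _), integral_add ha.1 (hb.1.const_mul _), integral_const_mul,
    integral_const_mul, integral_sub i1 i2, j2.tsum_sub (i3.mul_left _),
    ha.2.tsum_add (hb.2.mul_left _), tsum_mul_left, tsum_mul_left, TF.en, TF.en]
  linarith

theorem Seq.near (hE : Dom E) (h : Seq E μ s w) {ε : ℝ} (hε : 0 < ε) : ∃ N, ∀ n, N ≤ n → ∀ m, N ≤ m →
    ∫ z in Q \ E, (‖gr (s n).hi z‖ - μ * ‖gr (w m).hi z‖) ^ 2 ≤ ε ∧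
      ∑' c, ((s n).osc c - μ * (w m).osc c) ^ 2 ≤ ε ∧
      ∫ z in Q \ E, (‖gr (s n).hi z‖ * ‖gr (w m).hi z‖ - |jac (s n).hi (w m).hi z|) ≤ ε := by
  have hμ := h.pos
  have hδ : 0 < min ε (2 * μ * ε) := by positivity
  have t1 := h.es.eventually (eventually_le_nhds (lt_add_of_pos_right μ (half_pos hδ)))
  have t2 : Tendsto (fun n => μ ^ 2 * (w n).en) atTop (𝓝 μ) := by
    have := h.ew.const_mul (μ ^ 2)
    rwa [sq, mul_assoc, mul_inv_cancel₀ hμ.ne', mul_one, ← sq] at this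
  have t3 := t2.eventually (eventually_le_nhds (lt_add_of_pos_right μ (half_pos hδ)))
  obtain ⟨N, hN⟩ := eventually_atTop.1 (t1.and t3)
  refine ⟨N, fun n hn m hm => ?_⟩
  have k := key_Ineq hE (h.fs n) (h.fw m) (h.csw n m) (h.h n) (h.v m) hμ
  have k1 := (hN n hn).1
  have k2 := (hN m hm).2
  have p1 : 0 ≤ ∫ z in Q \ E, (‖gr (s n).hi z‖ - μ * ‖gr (w m).hi z‖) ^ 2 :=
    integral_nonneg fun _ => sq_nonneg _
  have p2 : 0 ≤ ∑' c, ((s n).osc c - μ * (w m).osc c) ^ 2 := tsum_nonneg fun _ => sq_nonneg _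
  have p3 : 0 ≤ ∫ z in Q \ E,
      (‖gr (s n).hi z‖ * ‖gr (w m).hi z‖ - |jac (s n).hi (w m).hi z|) :=
    integral_nonneg fun z => sub_nonneg.2 (abs_jac_le _ _ z)
  have p4 := mul_nonneg (by positivity : 0 ≤ 2 * μ) p3
  have m1 := min_le_left ε (2 * μ * ε)
  have m2 := min_le_right ε (2 * μ * ε)
  refine ⟨by linarith, by linarith, le_of_mul_le_mul_left (a := 2 * μ) ?_ (by positivity)⟩
  linarith

end Vale.Agent.P116
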