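import Vale.Agent.P116.S.Lip
import Vale.Agent.P116.S.Rect

/-! P116 S/Inj (TASK, owner helper20). Definitions in S/Defs. Helper names end with `_Inj`.
`open_img`: `AnalyticOnNhd.is_constant_or_isOpen` with `nc`. `sub`: an open subset of `closure R` lies in `interior (closure R) = R` (`Convex.interior_closure_eq_interior_of_nonempty_interior`). `{c | 0 < σ c}` is countable (finite sum); `volume R ≤ volume (f '' Ω ∪ ⋃ sqr)` (`fill`).
`inj`: disjoint balls `B₁`, `B₂` with `W = f '' B₁ ∩ f '' B₂` open and nonempty; `measure_union_add_inter` for `f '' (Ω \ B₁)` and `f '' B₁`, `vol_holo_le`, `lintegral_union`: `volume (f '' Ω) + volume W ≤ ∫`, so `volume R + volume W ≤ volume R`.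
`off`: `measure_union_add_inter` for `⋃ sqr` and the open set `f '' Ω`; an open set meeting the square meets its interior (`sqr_sub_closure`). -/

open MeasureTheory Set Metric Filter Topology Complex
open scoped ENNReal ComplexConjugate

set_option linter.unusedVariables false

noncomputable section

namespace Vale.Agent.P116

open Vale.Agent.P128

variable {E : Set ℂ} {f : ℂ → ℂ} {ζ : Cp E → ℂ} {σ : Cp E → ℝ} {R : Set ℂ}

theorem Pre.open_img (hE : Dom E) (h : Pre E f ζ σ R) {V : Set ℂ} (hV : IsOpen V) (hs : V ⊆ Q \ E) :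
    IsOpen (f '' V) := by
  rcases (h.hol.analyticOnNhd hE.op).is_constant_or_isOpen hE.con with ⟨w, hw⟩ | h1
  · obtain ⟨z, hz, z', hz', hne⟩ := h.nc
    exact absurd ((hw z hz).trans (hw z' hz').symm) hne
  · exact h1 V hs hV

theorem Pre.sub (hE : Dom E) (h : Pre E f ζ σ R) : f '' (Q \ E) ⊆ R := by
  obtain ⟨z, hz, -⟩ := h.nc
  have h1 : R.Nonempty := closure_nonempty_iff.1 ⟨f z, h.mem ⟨z, hz, rfl⟩⟩
  have h2 := h.cvx.interior_closure_eq_interior_of_nonempty_interior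
    (by rw [h.op.interior_eq]; exact h1)
  rw [← h.op.interior_eq, ← h2]
  exact interior_maximal h.mem (h.open_img hE hE.op subset_rfl)

theorem tsum_Inj (h : Pre E f ζ σ R) : ∑' c, ENNReal.ofReal (σ c) ^ 2 ≠ ∞ :=
  ne_top_of_le_ne_top h.fin (le_add_self.trans h.en)

theorem sq_Inj (h : Pre E f ζ σ R) :
    volume (⋃ c ∈ {c | 0 < σ c}, sqr (ζ c) (σ c)) ≤ ∑' c, ENNReal.ofReal (σ c) ^ 2 := by
  have h1 : {c | 0 < σ c}.Countable :=
    (Summable.countable_support_ennreal (tsum_Inj h)).mono fun c hc =>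
      pow_ne_zero 2 (ENNReal.ofReal_pos.2 hc).ne'
  refine (measure_biUnion_le volume h1 _).trans ?_
  simp only [vol_sqr]
  exact ENNReal.tsum_comp_le_tsum_of_injective Subtype.val_injective
    fun c => ENNReal.ofReal (σ c) ^ 2

theorem key_Inj (h : Pre E f ζ σ R) {W : Set ℂ} (hW : IsOpen W) (hne : W.Nonempty)
    (hle : volume (f '' (Q \ E) ∪ ⋃ c ∈ {c | 0 < σ c}, sqr (ζ c) (σ c)) + volume W ≤
      (∫⁻ z in Q \ E, ‖deriv f z‖ₑ ^ 2) + ∑' c, ENNReal.ofReal (σ c) ^ 2) : False := by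
  have h1 : volume R ≤ volume (f '' (Q \ E) ∪ ⋃ c ∈ {c | 0 < σ c}, sqr (ζ c) (σ c)) :=
    measure_mono_ae (ae_le_set.2 h.fill)
  have h2 : volume R + volume W ≤ volume R + 0 := by
    rw [add_zero]
    exact ((add_le_add_left h1 _).trans hle).trans h.en
  exact (hW.measure_pos volume hne).not_ge ((ENNReal.add_le_add_iff_left h.fin).1 h2)

theorem Pre.inj (hE : Dom E) (h : Pre E f ζ σ R) : InjOn f (Q \ E) := by
  intro z hz z' hz' he
  by_contra hne
  obtain ⟨u, v, hu, hv, hzu, hzv, huv⟩ := t2_separation hne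
  have o1 := h.open_img hE (hE.op.inter hu) inter_subset_left
  have o2 := h.open_img hE (hE.op.inter hv) inter_subset_left
  refine key_Inj h (o1.inter o2) ⟨f z, ⟨z, ⟨hz, hzu⟩, rfl⟩, z', ⟨hz', hzv⟩, he.symm⟩ ?_
  have h1 : f '' (Q \ E) ⊆ f '' ((Q \ E) \ u) ∪ f '' ((Q \ E) ∩ u) := by
    rintro _ ⟨y, hy, rfl⟩
    by_cases hyu : y ∈ u
    · exact Or.inr ⟨y, ⟨hy, hyu⟩, rfl⟩
    · exact Or.inl ⟨y, ⟨hy, hyu⟩, rfl⟩
  have h2 : f '' ((Q \ E) ∩ u) ∩ f '' ((Q \ E) ∩ v) ⊆ f '' ((Q \ E) \ u) ∩ f '' ((Q \ E) ∩ u) := by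
    rintro y ⟨hy, y', hy', rfl⟩
    exact ⟨⟨y', ⟨hy'.1, fun hyu => disjoint_left.1 huv hyu hy'.2⟩, rfl⟩, hy⟩
  have h3 := measure_union_add_inter (μ := volume) (f '' ((Q \ E) \ u)) o1.measurableSet
  have h4 := vol_holo_le hE.op h.hol (hE.op.measurableSet.diff hu.measurableSet) sdiff_subset
  have h5 := vol_holo_le hE.op h.hol (hE.op.measurableSet.inter hu.measurableSet) inter_subset_left
  have h6 := lintegral_inter_add_sdiff (μ := volume) (fun z => ‖deriv f z‖ₑ ^ 2) (Q \ E)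
    hu.measurableSet
  have h7 : volume (f '' (Q \ E)) + volume (f '' ((Q \ E) ∩ u) ∩ f '' ((Q \ E) ∩ v)) ≤
      ∫⁻ z in Q \ E, ‖deriv f z‖ₑ ^ 2 := by
    refine (add_le_add (measure_mono h1) (measure_mono h2)).trans ?_
    rw [h3, ← h6, add_comm]
    exact add_le_add h5 h4
  refine (add_le_add_left (measure_union_le _ _) _).trans ?_
  rw [add_right_comm]
  exact add_le_add h7 (sq_Inj h)

theorem Pre.off_pos (hE : Dom E) (h : Pre E f ζ σ R) {c : Cp E} (hc : 0 < σ c) :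
    Disjoint (f '' (Q \ E)) (sqr (ζ c) (σ c)) := by
  rw [disjoint_left]
  intro y hy hy'
  have o1 := h.open_img hE hE.op subset_rfl
  refine key_Inj h (o1.inter isOpen_interior)
    (mem_closure_iff.1 (sqr_sub_closure (ζ c) hc hy') _ o1 hy) ?_
  have h1 : f '' (Q \ E) ∩ interior (sqr (ζ c) (σ c)) ⊆
      f '' (Q \ E) ∩ ⋃ c ∈ {c | 0 < σ c}, sqr (ζ c) (σ c) := fun x hx =>
    ⟨hx.1, mem_biUnion (x := c) hc (interior_subset hx.2)⟩
  refine (add_le_add_right (measure_mono h1) _).trans ?_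
  rw [measure_union_add_inter' o1.measurableSet]
  exact add_le_add (vol_holo_le hE.op h.hol hE.op.measurableSet subset_rfl) (sq_Inj h)

theorem Pre.summable (h : Pre E f ζ σ R) : Summable fun c => σ c ^ 2 := by
  refine (ENNReal.summable_toReal (tsum_Inj h)).congr fun c => ?_
  rw [ENNReal.toReal_pow, ENNReal.toReal_ofReal (h.nn c)]

end Vale.Agent.P116
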