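import Vale.Agent.P116.S.Tst
import Vale.Agent.P116.S.Bas

/-! P116 S/Pert (TASK, owner helper20). Definitions in S/Defs. Helper names end with `_Pert`.
`φ` vanishes on `E` and on the boundary of the square (`image_eq_zero_of_notMem_tsupport`). `gr (hi + t φ) = gr hi + t gr φ` almost everywhere on `Q \ E` (`ae_diff`, `gr_add`, `gr_shift`); `norm_add_sq_real`.
`har_of`: `0 ≤ (en - m) + 2 t I + t² D` for all `t`; discriminant (`discrim_le_zero`), `Real.abs_le_sqrt`. -/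

open MeasureTheory Set Metric Filter Topology Complex
open scoped ENNReal ComplexConjugate

set_option linter.unusedVariables false

noncomputable section

namespace Vale.Agent.P116

open Vale.Agent.P128

variable {E : Set ℂ}

theorem zero_Pert {O : Set ℂ} {φ : ℂ → ℝ} (hφ : Tst O φ) {z : ℂ} (hz : z ∉ O) : φ z = 0 :=
  image_eq_zero_of_notMem_tsupport fun h => hz (hφ.2.2 h)

theorem lip_Pert {O : Set ℂ} {φ : ℂ → ℝ} (hφ : Tst O φ) (t : ℝ) :
    LocallyLipschitz fun z => t * φ z := by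
  obtain ⟨K, hK⟩ := hφ.1
  exact ((lipschitzWith_smul t).comp hK).locallyLipschitz

/-- The perturbed function. -/
def pt_Pert (a : TF E) {φ : ℂ → ℝ} (hφ : Tst (Q \ E) φ) (t : ℝ) : TF E where
  lo z := a.lo z + t * φ z
  hi z := a.hi z + t * φ z
  le z := by linarith [a.le z]
  eq z hz := by rw [a.eq z hz]
  lsc := a.lsc.add (lip_Pert hφ t).continuous.continuousOn.lowerSemicontinuousOn
  usc := a.usc.add (lip_Pert hφ t).continuous.continuousOn.upperSemicontinuousOn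
  cst z hz z' hz' := by
    have h1 : φ z = 0 := zero_Pert hφ fun h => h.2 hz
    have h2 : φ z' = 0 := zero_Pert hφ fun h => h.2 (connectedComponentIn_subset _ _ hz')
    rw [h1, h2, (a.cst z hz z' hz').1, (a.cst z hz z' hz').2]
    exact ⟨rfl, rfl⟩
  lip := a.lip.add (lip_Pert hφ t).locallyLipschitzOn

theorem off_Pert (a : TF E) {φ : ℂ → ℝ} (hφ : Tst (Q \ E) φ) (t : ℝ) {z : ℂ} (hz : z ∉ Q \ E) :
    (pt_Pert a hφ t).lo z = a.lo z ∧ (pt_Pert a hφ t).hi z = a.hi z := by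
  change a.lo z + t * φ z = a.lo z ∧ a.hi z + t * φ z = a.hi z
  rw [zero_Pert hφ hz, mul_zero, add_zero, add_zero]
  exact ⟨rfl, rfl⟩

theorem osc_Pert (a : TF E) {φ : ℂ → ℝ} (hφ : Tst (Q \ E) φ) (t : ℝ) (c : Cp E) :
    (pt_Pert a hφ t).osc c = a.osc c := by
  change a.hi c.pt + t * φ c.pt - (a.lo c.pt + t * φ c.pt) = a.hi c.pt - a.lo c.pt
  ring

theorem sq_Pert (x y : ℂ) (t : ℝ) :
    ‖x + (t : ℂ) * y‖ ^ 2 = ‖x‖ ^ 2 + 2 * t * inner ℝ x y + t ^ 2 * ‖y‖ ^ 2 := by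
  rw [← Complex.real_smul, norm_add_sq_real, real_inner_smul_right, norm_smul, mul_pow,
    Real.norm_eq_abs, sq_abs]
  ring

theorem ae_Pert (hE : Dom E) (a : TF E) {φ : ℂ → ℝ} (hφ : Tst (Q \ E) φ) (t : ℝ) :
    (fun z => ‖gr (pt_Pert a hφ t).hi z‖ ^ 2) =ᵐ[volume.restrict (Q \ E)] fun z =>
      ‖gr a.hi z‖ ^ 2 + 2 * t * inner ℝ (gr a.hi z) (gr φ z) + t ^ 2 * ‖gr φ z‖ ^ 2 := by
  refine (ae_restrict_iff' hE.op.measurableSet).2 ?_
  filter_upwards [ae_diff hE.op a.lip, ae_diff hE.op (lip_Pert hφ t).locallyLipschitzOn]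
    with z h1 h2 hz
  have h3 : gr (pt_Pert a hφ t).hi z = gr a.hi z + (t : ℂ) * gr φ z := by
    rw [← (EARN.gr_shift φ 0 z t).2.2.2]
    exact (EARN.gr_add (h1 hz) (h2 hz)).1
  rw [h3, sq_Pert]

theorem int_Pert {O : Set ℂ} {u v : ℂ → ℝ} (hu : IntegrableOn (fun z => ‖gr u z‖ ^ 2) O)
    (hv : IntegrableOn (fun z => ‖gr v z‖ ^ 2) O) :
    IntegrableOn (fun z => inner ℝ (gr u z) (gr v z)) O := by
  refine Integrable.mono' (hu.add hv)
    ((EARN.measurable_gr u).1.inner (EARN.measurable_gr v).1).aestronglyMeasurable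
    (Eventually.of_forall fun z => ?_)
  have h1 := norm_inner_le_norm (𝕜 := ℝ) (gr u z) (gr v z)
  change ‖inner ℝ (gr u z) (gr v z)‖ ≤ ‖gr u z‖ ^ 2 + ‖gr v z‖ ^ 2
  nlinarith [sq_nonneg (‖gr u z‖ - ‖gr v z‖), sq_nonneg ‖gr u z‖, sq_nonneg ‖gr v z‖]

theorem exists_pert (hE : Dom E) {a : TF E} (ha : a.Fn) {φ : ℂ → ℝ} (hφ : Tst (Q \ E) φ) (t : ℝ) :
    ∃ a' : TF E, a'.Fn ∧ (a.H → a'.H) ∧ (a.V → a'.V) ∧ (∀ b, a.Cmp b → a'.Cmp b) ∧
      (∀ b : TF E, b.Cmp a → b.Cmp a') ∧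
      a'.en = a.en + 2 * t * (∫ z in Q \ E, inner ℝ (gr a.hi z) (gr φ z)) +
        t ^ 2 * ∫ z, ‖gr φ z‖ ^ 2 := by
  obtain ⟨C, -, -, -, hC, hint⟩ := hφ.bd
  have i1 : IntegrableOn (fun z => ‖gr a.hi z‖ ^ 2) (Q \ E) := ha.1
  have i3 : IntegrableOn (fun z => ‖gr φ z‖ ^ 2) (Q \ E) := hint.integrableOn
  have i2 := int_Pert i1 i3
  have i12 : Integrable (fun z => ‖gr a.hi z‖ ^ 2 + 2 * t * inner ℝ (gr a.hi z) (gr φ z))
      (volume.restrict (Q \ E)) := Integrable.add i1 (Integrable.const_mul i2 _)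
  have i3' : Integrable (fun z => t ^ 2 * ‖gr φ z‖ ^ 2) (volume.restrict (Q \ E)) :=
    Integrable.const_mul i3 _
  have hae := ae_Pert hE a hφ t
  have hEE : ∀ z ∈ E, z ∉ Q \ E := fun z hz h => h.2 hz
  refine ⟨pt_Pert a hφ t, ⟨?_, ?_⟩, ?_, ?_, ?_, ?_, ?_⟩
  · exact Integrable.congr (i12.add i3') hae.symm
  · simp only [osc_Pert]
    exact ha.2
  · intro h z hz
    refine ⟨fun h0 => ?_, fun h0 => ?_⟩
    · rw [(off_Pert a hφ t fun h1 => h1.1.1.1.ne' h0).2]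
      exact (h z hz).1 h0
    · rw [(off_Pert a hφ t fun h1 => h1.1.1.2.ne h0).2]
      exact (h z hz).2 h0
  · intro h z hz
    refine ⟨fun h0 => ?_, fun h0 => ?_⟩
    · rw [(off_Pert a hφ t fun h1 => h1.1.2.1.ne' h0).2]
      exact (h z hz).1 h0
    · rw [(off_Pert a hφ t fun h1 => h1.1.2.2.ne h0).2]
      exact (h z hz).2 h0
  · intro b h
    refine measure_mono_null ?_ h
    rintro _ ⟨z, ⟨hz, h1, h2⟩, rfl⟩
    have h3 := off_Pert a hφ t (hEE z hz)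
    rw [h3.1, h3.2] at h1
    refine ⟨z, ⟨hz, h1, h2⟩, ?_⟩
    unfold TF.pr
    rw [h3.2]
  · intro b h
    refine measure_mono_null ?_ h
    rintro _ ⟨z, ⟨hz, h1, h2⟩, rfl⟩
    have h3 := off_Pert a hφ t (hEE z hz)
    rw [h3.1, h3.2] at h2
    refine ⟨z, ⟨hz, h1, h2⟩, ?_⟩
    unfold TF.pr
    rw [h3.2]
  · have h4 : ∫ z in Q \ E, ‖gr φ z‖ ^ 2 = ∫ z, ‖gr φ z‖ ^ 2 :=
      setIntegral_eq_integral_of_forall_compl_eq_zero fun z hz => by
        rw [hC z fun h => hz (hφ.2.2 h), norm_zero]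
        norm_num
    unfold TF.en
    simp only [osc_Pert]
    rw [integral_congr_ae hae, integral_add i12 i3',
      integral_add i1 (Integrable.const_mul i2 _), integral_const_mul, integral_const_mul, h4]
    ring

theorem har_of {e m I D : ℝ} (hD : 0 ≤ D) (h : ∀ t : ℝ, m ≤ e + 2 * t * I + t ^ 2 * D) :
    |I| ≤ √(e - m) * √D := by
  have h0 : 0 ≤ e - m := by
    have h1 := h 0
    linarith
  have h2 : discrim D (2 * I) (e - m) ≤ 0 := discrim_le_zero fun x => by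
    have h1 := h x
    linarith
  rw [discrim] at h2
  rw [← Real.sqrt_mul h0]
  exact Real.abs_le_sqrt (by linarith)

end Vale.Agent.P116
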