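import Vale.Agent.P116.S.Conf
import Vale.Agent.P116.S.Holo
import Vale.Agent.P116.S.En
import Vale.Agent.P116.S.Clu
import Vale.Agent.P116.S.Fill
import Vale.Agent.P116.S.Edge

/-! P116 S/Pre (TASK, owner helper20). Definitions in S/Defs. Helper names end with `_Pre`.
`f z = ⟨uH s z, ν * uH w z⟩`, `σ c = uH s c.pt - uL s c.pt`, `ζ c = ⟨uL s c.pt, min (ν * uL w c.pt) (ν * uH w c.pt)⟩`, `R = Ioo 0 1 ×ℂ Ioo (min 0 ν) (max 0 ν)` (cases `ν = μ`, `ν = -μ`; `closure_reProdIm`, `closure_Ioo`).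
`fill`: the set is contained in the image of the null set of `Seq.fill` under the real linear map `T y = ⟨y.re, ν * y.im⟩` (`Measure.addHaar_image_linearMap`, or `vol_image_le` on a measurable null superset). `clu`: a `cthickening` of the compact square lies in `V`
(`IsCompact.exists_cthickening_subset_open`); intersect the four sets from `clu_up`, `clu_dn`. `edge`: `y = ⟨0, (f z).im⟩`. `nc`: `edge_l`, `edge_r` with `K = ∅`. -/

open MeasureTheory Set Metric Filter Topology Complex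
open scoped ENNReal ComplexConjugate

set_option linter.unusedVariables false

noncomputable section

namespace Vale.Agent.P116

open Vale.Agent.P128

variable {E : Set ℂ} {μ : ℝ} {s w : ℕ → TF E}

theorem seg_Pre {ν p q y : ℝ} (h1 : p ≤ y) (h2 : y ≤ q) :
    min (ν * p) (ν * q) ≤ ν * y ∧ ν * y ≤ min (ν * p) (ν * q) + |ν| * (q - p) := by
  rcases le_total 0 ν with h | h
  · rw [min_eq_left (mul_le_mul_of_nonneg_left (h1.trans h2) h), abs_of_nonneg h]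
    constructor <;> nlinarith
  · rw [min_eq_right (mul_le_mul_of_nonpos_left (h1.trans h2) h), abs_of_nonpos h]
    constructor <;> nlinarith

theorem near_Pre {p q y δ : ℝ} (h : p ≤ q) (hδ : 0 ≤ δ) (h1 : p - δ ≤ y) (h2 : y ≤ q + δ) :
    ∃ y' ∈ Icc p q, |y - y'| ≤ δ := by
  rcases le_total y p with h3 | h3
  · exact ⟨p, ⟨le_rfl, h⟩, abs_le.2 ⟨by linarith, by linarith⟩⟩
  rcases le_total y q with h4 | h4
  · exact ⟨y, ⟨h3, h4⟩, by simpa using hδ⟩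
  · exact ⟨q, ⟨h, le_rfl⟩, abs_le.2 ⟨by linarith, by linarith⟩⟩

theorem div_Pre {ν y : ℝ} (h : y ∈ Ioo (min 0 ν) (max 0 ν)) : y / ν ∈ Ioo (0 : ℝ) 1 := by
  rcases le_total 0 ν with h1 | h1
  · rw [min_eq_left h1, max_eq_right h1] at h
    exact ⟨div_pos h.1 (h.1.trans h.2), (div_lt_one (h.1.trans h.2)).2 h.2⟩
  · rw [min_eq_right h1, max_eq_left h1] at h
    exact ⟨div_pos_of_neg_of_neg h.2 (h.1.trans h.2), (div_lt_one_of_neg (h.1.trans h.2)).2 h.1⟩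

/-- Scaling of the imaginary part. -/
def T_Pre (ν : ℝ) : ℂ →ₗ[ℝ] ℂ where
  toFun y := ⟨y.re, ν * y.im⟩
  map_add' x y := Complex.ext (by simp) (by simp [mul_add])
  map_smul' c x := Complex.ext (by simp) (by simp [mul_left_comm])

theorem Seq.pre (hE : Dom E) (h : Seq E μ s w) : ∃ f ζ σ R, Pre E f ζ σ R := by
  have hs := h.good_s hE
  have hw := h.good_w hE
  obtain ⟨G₁, h1⟩ := hs.exists_GLim hE
  obtain ⟨G₂, h2⟩ := hw.exists_GLim hE
  obtain ⟨ν, hν, h3⟩ := h.conf hE h1 h2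
  obtain ⟨h4, h5⟩ := holo hE hs hw h1 h2 h3
  have hν0 : ν ≠ 0 := abs_pos.1 (hν ▸ h.pos)
  have hmm : max 0 ν - min 0 ν = μ := by rw [max_sub_min_eq_abs, sub_zero, hν]
  have hvol : volume (Ioo 0 1 ×ℂ Ioo (min 0 ν) (max 0 ν)) = ENNReal.ofReal μ := by
    rw [vol_Ioo, hmm]
    simp
  have hpt : ∀ c : Cp E, c.pt ∈ Qc := fun c => Q_sub (hE.sub c.pt_mem)
  have hbox : ∀ (c : Cp E) (x y : ℝ), x ∈ Icc (uL s c.pt) (uH s c.pt) →
      y ∈ Icc (uL w c.pt) (uH w c.pt) → (⟨x, ν * y⟩ : ℂ) ∈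
        sqr ⟨uL s c.pt, min (ν * uL w c.pt) (ν * uH w c.pt)⟩ (uH s c.pt - uL s c.pt) := by
    intro c x y hx hy
    have h6 := seg_Pre (ν := ν) hy.1 hy.2
    rw [hν, ← h.side hE c] at h6
    exact ⟨⟨hx.1, hx.2.trans_eq (add_sub_cancel _ _).symm⟩, h6⟩
  refine ⟨fun z => ⟨uH s z, ν * uH w z⟩,
    fun c => ⟨uL s c.pt, min (ν * uL w c.pt) (ν * uH w c.pt)⟩, fun c => uH s c.pt - uL s c.pt,
    Ioo 0 1 ×ℂ Ioo (min 0 ν) (max 0 ν), isOpen_Ioo.reProdIm isOpen_Ioo,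
    (isBounded_Ioo _ _).reProdIm (isBounded_Ioo _ _), hvol ▸ ENNReal.ofReal_ne_top,
    cvx_Ioo _ _ _ _, ext_Ioo _ _ _ _, h4, ?_, ?_, fun c => sub_nonneg.2 (hs.range (hpt c)).2.1,
    ?_, ?_, fun c V hV hc => ?_, fun K hK hQ ε hε => ?_⟩
  · obtain ⟨z, hz, h6⟩ := hs.edge_l hE h.h isCompact_empty (empty_subset _) one_half_pos
    obtain ⟨z', hz', h7⟩ := hs.edge_r hE h.h isCompact_empty (empty_subset _) one_half_pos
    refine ⟨z, hz.1, z', hz'.1, fun e => ?_⟩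
    have h8 : uH s z = uH s z' := congrArg Complex.re e
    linarith
  · rintro _ ⟨z, hz, rfl⟩
    have h6 := hs.range (Q_sub hz.1)
    have h7 := hw.range (Q_sub hz.1)
    have h8 := seg_Pre (ν := ν) (h7.1.trans h7.2.1) h7.2.2
    rw [mul_zero, mul_one, sub_zero, mul_one, hν, ← hmm, add_sub_cancel] at h8
    rw [closure_reProdIm, closure_Ioo zero_ne_one, closure_Ioo (by linarith [h.pos])]
    exact ⟨⟨h6.1.trans h6.2.1, h6.2.2⟩, h8⟩
  · rw [hvol, setLIntegral_congr_fun hE.op.measurableSet fun z hz => by rw [h5 z hz]]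
    exact h.en_le hE h1
  · refine measure_mono_null ?_ ((Measure.addHaar_image_linearMap volume (T_Pre ν) _).trans
      (by rw [h.fill hE, mul_zero]))
    rintro y ⟨hy, hy'⟩
    have e : y = ⟨y.re, ν * (y.im / ν)⟩ := Complex.ext rfl (mul_div_cancel₀ _ hν0).symm
    refine ⟨⟨y.re, y.im / ν⟩, ⟨⟨hy.1, div_Pre hy.2⟩, fun h6 => hy' ?_⟩, e.symm⟩
    rcases h6 with ⟨z, hz, h6⟩ | h6
    · refine Or.inl ⟨z, hz, ?_⟩
      have h7 : uH s z = y.re := congrArg Complex.re h6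
      have h8 : uH w z = y.im / ν := congrArg Complex.im h6
      simp only [h7, h8]
      exact e.symm
    · obtain ⟨c, hc, h7⟩ := mem_iUnion₂.1 h6
      have h8 : 0 < uH s c.pt - uL s c.pt := sub_pos.2 hc
      exact Or.inr (mem_iUnion₂.2 ⟨c, h8, e ▸ hbox c _ _ h7.1 h7.2⟩)
  · obtain ⟨δ, hδ, h6⟩ := (cpt_rect _ _ _ _).exists_cthickening_subset_open hV hc
    have hμ := h.pos
    have hδ' : 0 < δ / (1 + μ) := by positivity
    obtain ⟨U₁, o1, c1, p1⟩ := hs.clu_up hE c hδ'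
    obtain ⟨U₂, o2, c2, p2⟩ := hs.clu_dn hE c hδ'
    obtain ⟨U₃, o3, c3, p3⟩ := hw.clu_up hE c hδ'
    obtain ⟨U₄, o4, c4, p4⟩ := hw.clu_dn hE c hδ'
    refine ⟨(U₁ ∩ U₂) ∩ (U₃ ∩ U₄), (o1.inter o2).inter (o3.inter o4),
      subset_inter (subset_inter c1 c2) (subset_inter c3 c4), ?_⟩
    rintro _ ⟨z, ⟨⟨⟨z1, z2⟩, z3, z4⟩, hz⟩, rfl⟩
    obtain ⟨x, hx, hx'⟩ := near_Pre (hs.range (hpt c)).2.1 hδ'.le (p2 z ⟨z2, hz⟩) (p1 z ⟨z1, hz⟩)
    obtain ⟨y, hy, hy'⟩ := near_Pre (hw.range (hpt c)).2.1 hδ'.le (p4 z ⟨z4, hz⟩) (p3 z ⟨z3, hz⟩)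
    refine h6 (mem_cthickening_of_dist_le _ _ δ _ (hbox c x y hx hy) ?_)
    rw [dist_eq_norm]
    refine (norm_le_abs_re_add_abs_im _).trans ?_
    change |uH s z - x| + |ν * uH w z - ν * y| ≤ δ
    rw [← mul_sub, abs_mul, hν]
    have h7 : δ / (1 + μ) + μ * (δ / (1 + μ)) = δ := by field_simp
    linarith [mul_le_mul_of_nonneg_left hy' hμ.le]
  · obtain ⟨z, hz, h6⟩ := hs.edge_l hE h.h hK hQ hε
    have h7 := hs.range (Q_sub hz.1.1)
    refine ⟨z, hz, ⟨0, ν * uH w z⟩, fun h8 => lt_irrefl _ h8.1.1, ?_⟩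
    refine (dist_of_im_eq (by rfl)).trans_lt ?_
    rw [Real.dist_eq, sub_zero, abs_of_nonneg (h7.1.trans h7.2.1)]
    exact h6

end Vale.Agent.P116
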