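import Vale.Agent.P116.S.Inj
import Vale.Agent.P116.S.Sep
import Vale.Agent.P116.S.Sat

/-! P116 S/TopA (TASK, owner helper20). Definitions in S/Defs. Helper names end with `_TopA`.
`meet`: otherwise the complement of the closure is an open set containing the square; `clu`, `Cp.meets`. `off`: for `σ c = 0` the square is the point `ζ c`; if `ζ c = f z₀` take a ball `D` at `z₀` whose closure misses `E`, `V = f '' D`, `clu`, `Cp.meets` with `U \ closure D`, `inj`.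
`sepU`: `E ∩ U = E ∩ closure U` is compact; `U₁` open with `E ∩ U ⊆ U₁`, `closure U₁ ⊆ U`; Urysohn `χ = 1` on `closure U₁`, `0` on `Uᶜ` (`exists_continuous_zero_one_of_isClosed`); `S = closure U \ U₁`; `sep_lift`. A square is convex, misses `f '' S` (`off`) and meets the closure of
`f '' (U₁ ∩ Q \ E)` or of `f '' ((closure U)ᶜ ∩ Q \ E)` (`meet`), where `φ` is `1` or `0`. On `Rᶜ` (`ext`, `sub`) `φ` is a constant; `edge` with `K = closure U`: the segment from `f z` to `y` stays within `ε` of `Rᶜ`, so it misses the compact set `f '' S ⊆ R` for small `ε`, and `φ y = φ (f z) = 0`. -/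

open MeasureTheory Set Metric Filter Topology Complex
open scoped ENNReal ComplexConjugate

set_option linter.unusedVariables false

noncomputable section

namespace Vale.Agent.P116

open Vale.Agent.P128

variable {E : Set ℂ} {f : ℂ → ℂ} {ζ : Cp E → ℂ} {σ : Cp E → ℝ} {R : Set ℂ}

theorem Pre.meet (hE : Dom E) (h : Pre E f ζ σ R) (c : Cp E) {U : Set ℂ} (hU : IsOpen U)
    (hc : c.1 ⊆ U) : (closure (f '' ((U ∩ Q) \ E)) ∩ sqr (ζ c) (σ c)).Nonempty := by
  by_contra hn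
  obtain ⟨U', h1, h2, h3⟩ := h.clu c _ isClosed_closure.isOpen_compl fun y hy hy' => hn ⟨y, hy', hy⟩
  obtain ⟨z, ⟨⟨h4, h5⟩, h6⟩, h7⟩ := c.meets hE (hU.inter h1) (subset_inter hc h2)
  exact h3 ⟨z, ⟨h5, h7⟩, rfl⟩ (subset_closure ⟨z, ⟨⟨h4, h6⟩, h7⟩, rfl⟩)

theorem Pre.off (hE : Dom E) (h : Pre E f ζ σ R) (c : Cp E) :
    Disjoint (f '' (Q \ E)) (sqr (ζ c) (σ c)) := by
  rcases (h.nn c).eq_or_lt with h0 | h0
  swap
  · exact h.off_pos hE h0
  rw [Set.disjoint_left]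
  rintro _ ⟨z₀, hz₀, rfl⟩ hy
  obtain ⟨r, hr, hb⟩ := nhds_basis_closedBall.mem_iff.1 (hE.op.mem_nhds hz₀)
  obtain ⟨U, h1, h2, h3⟩ := h.clu c (f '' ball z₀ r)
    (h.open_img hE isOpen_ball (ball_subset_closedBall.trans hb)) fun y hy' => by
      have h4 := dist_sqr hy hy'
      rw [← h0, mul_zero, dist_le_zero] at h4
      exact ⟨z₀, mem_ball_self hr, h4⟩
  obtain ⟨z, ⟨⟨h4, h5⟩, h6⟩, h7⟩ := c.meets hE (h1.sdiff (isClosed_closedBall (x := z₀) (ε := r)))
    fun x hx => ⟨h2 hx, fun hx' => (hb hx').2 (c.sub hx)⟩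
  obtain ⟨z', h8, h9⟩ := h3 ⟨z, ⟨h4, h7⟩, rfl⟩
  have h10 := ball_subset_closedBall h8
  exact h5 (h.inj hE (hb h10) ⟨h6, h7⟩ h9 ▸ h10)

theorem Pre.sepU (hE : Dom E) (h : Pre E f ζ σ R) {U : Set ℂ} (hU : IsOpen U)
    (hc : IsCompact (closure U)) (hQ : closure U ⊆ Q) (hf : Disjoint (frontier U) E) :
    ∃ φ : ℂ → ℝ, Continuous φ ∧ (∀ c : Cp E, c.1 ⊆ U → ∀ y ∈ sqr (ζ c) (σ c), φ y = 1) ∧
      (∀ c : Cp E, Disjoint c.1 (closure U) → ∀ y ∈ sqr (ζ c) (σ c), φ y = 0) ∧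
      (∀ y, y ∉ R → φ y = 0) ∧ ∀ z ∈ Q \ E, φ (f z) ≠ 0 → z ∈ U := by
  obtain ⟨U₁, h1, h2, h3, -⟩ := exists_open_between_and_isCompact_closure
    (hE.cpt.inter_right (isClosed_closure (s := U))) hU fun z hz => by
      by_contra hn
      exact Set.disjoint_left.1 hf (hU.frontier_eq ▸ ⟨hz.2, hn⟩) hz.1
  obtain ⟨χ, χ0, χ1, -⟩ := exists_continuous_zero_one_of_isClosed hU.isClosed_compl
    (isClosed_closure (s := U₁)) (Set.disjoint_left.2 fun z hz hz' => hz (h3 hz'))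
  have hS : closure U \ U₁ ⊆ Q \ E := fun z hz => ⟨hQ hz.1, fun he => hz.2 (h2 ⟨he, hz.1⟩)⟩
  obtain ⟨φ, φc, φf, φP⟩ := sep_lift (χ := χ) hE.op hE.con h.hol.continuousOn (h.inj hE)
    (fun V => h.open_img hE) (hc.diff h1) hS χ.continuous.continuousOn fun z hz => by
      by_cases h4 : z ∈ U₁
      · exact Or.inr (χ1 (subset_closure h4))
      · exact Or.inl (χ0 fun h5 => hz.2 ⟨subset_closure h5, h4⟩)
  have key : ∀ (c : Cp E) (V : Set ℂ) (t : ℝ), IsOpen V → c.1 ⊆ V → (∀ z ∈ V, χ z = t) →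
      ∀ y ∈ sqr (ζ c) (σ c), φ y = t := fun c V t hV hcV ht y hy => by
    obtain ⟨y₀, h4, h5⟩ := h.meet hE c hV hcV
    rw [φP _ (cvx_Icc _ _ _ _).isPreconnected
      ((h.off hE c).symm.mono_right (image_mono hS)) y hy y₀ h5]
    refine closure_minimal (t := {y | φ y = t}) ?_ (isClosed_eq φc continuous_const) h4
    rintro _ ⟨z, hz, rfl⟩
    exact (φf z ⟨hz.1.2, hz.2⟩).trans (ht z hz.1.1)
  have hR : f '' (closure U \ U₁) ⊆ R := (image_mono hS).trans (h.sub hE)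
  refine ⟨φ, φc, fun c hcU => key c U₁ 1 h1 (fun z hz => h2 ⟨c.sub hz, subset_closure (hcU hz)⟩)
      fun z hz => χ1 (subset_closure hz),
    fun c hcU => key c (closure U)ᶜ 0 isClosed_closure.isOpen_compl hcU.subset_compl_right
      fun z hz => χ0 fun h5 => hz (subset_closure h5), fun y hy => ?_,
    fun z hz h4 => by_contra fun h5 => h4 ((φf z hz).trans (χ0 h5))⟩
  obtain ⟨ε, hε, h4⟩ := ((hc.diff h1).image_of_continuousOn
    (h.hol.continuousOn.mono hS)).exists_thickening_subset_open h.op hR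
  obtain ⟨z, hz, y', h5, h6⟩ := h.edge _ hc hQ ε hε
  rw [φP _ h.ext (Set.disjoint_left.2 fun x hx hx' => hx (hR hx')) y hy y' h5,
    φP _ (convex_ball y' ε).isPreconnected (Set.disjoint_left.2 fun x hx hx' =>
      h5 (h4 (mem_thickening_iff.2 ⟨x, hx', mem_ball'.1 hx⟩))) y' (mem_ball_self hε) (f z) h6,
    φf z hz.1]
  exact χ0 fun h7 => hz.2 (subset_closure h7)

end Vale.Agent.P116
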