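import Vale.Agent.P116.S.TopA

/-! P116 S/TopB (TASK, owner helper20). Definitions in S/Defs. Helper names end with `_TopB`.
`lim_mem`: suppose `y` is in no square. For each `c` take a closed ball at `y` missing the square, `V` its complement, `U c` from `clu`; cover `E` by finitely many `U c`; `K \ ⋃ U c` is a compact subset of `Q \ E` whose image is compact and misses `y`; so a neighbourhood of `y` misses `f '' (K \ E)`.
`closed`: `U` from `Dom.nbhd`, `K = closure U`. Let `y` be in the closure of the union, in no square. For `δ > 0` only finitely many `σ c ≥ δ` (`summable`), their union is closed, so near `y` there is a point of a square with `σ c < δ`, within `2 δ` of `closure (f '' (K \ E))` (`meet`, `dist_sqr`). `y ∉ f '' Ω` (open, `off`); `lim_mem`.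
`op`: for `y` in a square, `D = {φ ≠ 0} ∩ R` (`sepU` for `U`); for `y' ∈ D` not in the closed union and not in `f '' Ω`, every small ball has positive measure, so meets `f '' Ω` (`fill`), in points of `f '' (K \ E)`; `lim_mem`. -/

open MeasureTheory Set Metric Filter Topology Complex
open scoped ENNReal ComplexConjugate

set_option linter.unusedVariables false

noncomputable section

namespace Vale.Agent.P116

open Vale.Agent.P128

variable {E : Set ℂ} {f : ℂ → ℂ} {ζ : Cp E → ℂ} {σ : Cp E → ℝ} {R : Set ℂ}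

theorem sqr_closed_TopB (ζ : ℂ) (σ : ℝ) : IsClosed (sqr ζ σ) := (cpt_rect _ _ _ _).isClosed

theorem Pre.lim_mem (hE : Dom E) (h : Pre E f ζ σ R) {K : Set ℂ} (hK : IsCompact K) (hQ : K ⊆ Q)
    {y : ℂ} (hy : y ∈ closure (f '' (K \ E))) (hn : y ∉ f '' (Q \ E)) : y ∈ ⋃ c, sqr (ζ c) (σ c) := by
  by_contra hy'
  have h1 : ∀ c : Cp E, ∃ U, IsOpen U ∧ c.1 ⊆ U ∧ y ∉ closure (f '' (U \ E)) := by
    intro c
    have hc : y ∉ sqr (ζ c) (σ c) := fun hh => hy' (mem_iUnion.2 ⟨c, hh⟩)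
    obtain ⟨r, hr, hs⟩ := nhds_basis_closedBall.mem_iff.1
      ((sqr_closed_TopB (ζ c) (σ c)).isOpen_compl.mem_nhds hc)
    obtain ⟨U, hU, hcU, hf⟩ := h.clu c (closedBall y r)ᶜ isClosed_closedBall.isOpen_compl
      (subset_compl_comm.1 hs)
    refine ⟨U, hU, hcU, fun hh => ?_⟩
    have h2 : closure (f '' (U \ E)) ⊆ (ball y r)ᶜ :=
      closure_minimal (hf.trans (compl_subset_compl.2 ball_subset_closedBall))
        isOpen_ball.isClosed_compl
    exact h2 hh (mem_ball_self hr)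
  choose U hU hcU hyU using h1
  obtain ⟨t, ht⟩ := hE.cpt.elim_finite_subcover U hU fun z hz =>
    mem_iUnion.2 ⟨Cp.mk z hz, hcU _ (Cp.mem_mk z hz)⟩
  have hO : IsOpen (⋃ c ∈ t, U c) := isOpen_biUnion fun c _ => hU c
  have hK' : IsCompact (K \ ⋃ c ∈ t, U c) := hK.diff hO
  have hs : (K \ ⋃ c ∈ t, U c) ⊆ Q \ E := fun z hz => ⟨hQ hz.1, fun hzE => hz.2 (ht hzE)⟩
  have hcl : IsClosed (f '' (K \ ⋃ c ∈ t, U c) ∪ ⋃ c ∈ t, closure (f '' (U c \ E))) :=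
    (hK'.image_of_continuousOn (h.hol.continuousOn.mono hs)).isClosed.union
      (isClosed_biUnion_finset fun c _ => isClosed_closure)
  have hsub : f '' (K \ E) ⊆
      f '' (K \ ⋃ c ∈ t, U c) ∪ ⋃ c ∈ t, closure (f '' (U c \ E)) := by
    rintro _ ⟨z, hz, rfl⟩
    by_cases hzU : z ∈ ⋃ c ∈ t, U c
    · obtain ⟨c, hc, hzc⟩ := mem_iUnion₂.1 hzU
      exact Or.inr (mem_iUnion₂.2 ⟨c, hc, subset_closure ⟨z, ⟨hzc, hz.2⟩, rfl⟩⟩)
    · exact Or.inl ⟨z, ⟨hz.1, hzU⟩, rfl⟩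
  rcases closure_minimal hsub hcl hy with h2 | h2
  · exact hn (image_mono hs h2)
  · obtain ⟨c, -, hc⟩ := mem_iUnion₂.1 h2
    exact hyU c hc

theorem Pre.sq_sub (hE : Dom E) (h : Pre E f ζ σ R) (c : Cp E) : sqr (ζ c) (σ c) ⊆ R := by
  obtain ⟨U, hU, hEU, hQ, hc, hf⟩ := hE.nbhd
  obtain ⟨φ, -, h1, -, h0, -⟩ := h.sepU hE hU hc hQ hf
  intro y hy
  by_contra hR
  have h2 := h1 c (c.sub.trans hEU) y hy
  rw [h0 y hR] at h2
  exact zero_ne_one h2

theorem Pre.closed (hE : Dom E) (h : Pre E f ζ σ R) : IsClosed (⋃ c, sqr (ζ c) (σ c)) := by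
  obtain ⟨U, hU, hEU, hQ, hc, hf⟩ := hE.nbhd
  refine isClosed_of_closure_subset fun y hy => ?_
  by_contra hy'
  refine hy' (h.lim_mem hE hc hQ ?_ fun hn => ?_)
  · rw [← closure_closure]
    refine Metric.mem_closure_iff.2 fun ε hε => ?_
    have hδ : 0 < ε / 3 := by positivity
    have hF : {c : Cp E | ¬ σ c ^ 2 < (ε / 3) ^ 2}.Finite :=
      eventually_cofinite.1
        (h.summable.tendsto_cofinite_zero.eventually (gt_mem_nhds (pow_pos hδ 2)))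
    have hA : IsClosed (⋃ c ∈ {c : Cp E | ¬ σ c ^ 2 < (ε / 3) ^ 2}, sqr (ζ c) (σ c)) :=
      hF.isClosed_biUnion fun c _ => sqr_closed_TopB _ _
    obtain ⟨p, ⟨hp1, hp2⟩, hp⟩ := _root_.mem_closure_iff.1 hy _
      (hA.isOpen_compl.inter isOpen_ball) (mem_inter
        (fun hh => by
          obtain ⟨c, -, hc⟩ := mem_iUnion₂.1 hh
          exact hy' (mem_iUnion.2 ⟨c, hc⟩)) (mem_ball_self hδ))
    obtain ⟨c, hpc⟩ := mem_iUnion.1 hp
    have h3 : σ c ^ 2 < (ε / 3) ^ 2 := by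
      by_contra h4
      exact hp1 (mem_iUnion₂.2 ⟨c, h4, hpc⟩)
    have h4 : σ c < ε / 3 := lt_of_pow_lt_pow_left₀ 2 hδ.le h3
    obtain ⟨q, hq1, hq2⟩ := h.meet hE c hU (c.sub.trans hEU)
    have hUK : (U ∩ Q) \ E ⊆ closure U \ E := fun z hz => ⟨subset_closure hz.1.1, hz.2⟩
    refine ⟨q, closure_mono (image_mono hUK) hq1, ?_⟩
    have h5 := dist_sqr hpc hq2
    have h6 : dist y p < ε / 3 := by rw [dist_comm]; exact hp2
    linarith [dist_triangle y p q]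
  · obtain ⟨p, hp1, hp⟩ := _root_.mem_closure_iff.1 hy _ (h.open_img hE hE.op subset_rfl) hn
    obtain ⟨c, hpc⟩ := mem_iUnion.1 hp
    exact disjoint_left.1 (h.off hE c) hp1 hpc

theorem Pre.opn (hE : Dom E) (h : Pre E f ζ σ R) :
    IsOpen (f '' (Q \ E) ∪ ⋃ c, sqr (ζ c) (σ c)) := by
  obtain ⟨U, hU, hEU, hQ, hc, hf⟩ := hE.nbhd
  obtain ⟨φ, hφ, h1, -, -, h2⟩ := h.sepU hE hU hc hQ hf
  have hD : IsOpen ({y | φ y ≠ 0} ∩ R) := (isOpen_ne_fun hφ continuous_const).inter h.op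
  have hsub : {y | φ y ≠ 0} ∩ R ⊆ f '' (Q \ E) ∪ ⋃ c, sqr (ζ c) (σ c) := by
    intro y hy
    by_contra hn
    rw [mem_union, not_or] at hn
    refine hn.2 (h.lim_mem hE hc hQ (_root_.mem_closure_iff.2 fun o ho hyo => ?_) hn.1)
    have hW : IsOpen (o ∩ ({y | φ y ≠ 0} ∩ R) ∩ (⋃ c, sqr (ζ c) (σ c))ᶜ) :=
      (ho.inter hD).inter (h.closed hE).isOpen_compl
    have hpos := hW.measure_pos volume ⟨y, ⟨hyo, hy⟩, hn.2⟩
    have hns : ¬ (o ∩ ({y | φ y ≠ 0} ∩ R) ∩ (⋃ c, sqr (ζ c) (σ c))ᶜ) ⊆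
        R \ (f '' (Q \ E) ∪ ⋃ c ∈ {c | 0 < σ c}, sqr (ζ c) (σ c)) := fun hh =>
      hpos.ne' (measure_mono_null hh h.fill)
    obtain ⟨w, ⟨⟨hwo, hw1, hwR⟩, hw2⟩, hw⟩ := not_subset.1 hns
    have hw3 : w ∈ f '' (Q \ E) ∪ ⋃ c ∈ {c | 0 < σ c}, sqr (ζ c) (σ c) := by
      by_contra h4
      exact hw ⟨hwR, h4⟩
    rcases hw3 with ⟨z, hz, rfl⟩ | h4
    · exact ⟨f z, hwo, z, ⟨subset_closure (h2 z hz hw1), hz.2⟩, rfl⟩
    · obtain ⟨c, -, hc⟩ := mem_iUnion₂.1 h4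
      exact (hw2 (mem_iUnion.2 ⟨c, hc⟩)).elim
  refine isOpen_iff_forall_mem_open.2 fun y hy => ?_
  rcases hy with hy | hy
  · exact ⟨_, subset_union_left, h.open_img hE hE.op subset_rfl, hy⟩
  · obtain ⟨c, hyc⟩ := mem_iUnion.1 hy
    refine ⟨_, hsub, hD, ?_, h.sq_sub hE c hyc⟩
    show φ y ≠ 0
    rw [h1 c (c.sub.trans hEU) y hyc]
    exact one_ne_zero

end Vale.Agent.P116
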