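import Vale.Agent.P116.S.Arg
import Vale.Agent.P116.S.Rect

/-! P116 S/Whisk (TASK, owner helper20). Definitions in S/Defs. Helper names end with `_Whisk`.
`quad` with `Xp = {y < a.lo} ∪ (closure U)ᶜ`, `Xm = {a.hi < y} ∩ U`, `Yp = {t < b.lo} ∩ U`, `Ym = {b.hi < t} ∪ (closure U)ᶜ` (`open_hi`, `open_lo`), `P` the exterior of an inner square containing `closure U` (`exists_inner`, `ext_Icc`).
`closure G ⊆ Q` (`inner_sub`). On the frontier of `G₁`: `z ∈ U`, `y ∈ [lo, hi]`, so `y - η ≤ a.lo z`; monotonicity of `a` on `G₁`. On the frontier of `G₂`: `b.hi z ≤ t + η`; monotonicity of `b`. `whisk_dn`: apply `whisk_up` to `a.neg`, `b.neg`, `-y`, `-t`. -/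

open MeasureTheory Set Metric Filter Topology Complex
open scoped ENNReal ComplexConjugate

set_option linter.unusedVariables false

noncomputable section

namespace Vale.Agent.P116

open Vale.Agent.P128

variable {E : Set ℂ}

theorem whisk_up (hE : Dom E) {a b : TF E} (ha : a.Mono) (hb : b.Mono) {U : Set ℂ} (hU : IsOpen U)
    (hc : IsCompact (closure U)) (hQ : closure U ⊆ Q) (hf : Disjoint (frontier U) E) {y t η : ℝ}
    (hη : 0 ≤ η) (hfr : ∀ z ∈ frontier U, y < a.hi z ∨ b.hi z < t)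
    (hout : ∀ z ∈ U, (⟨y, t⟩ : ℂ) ∉ a.box b z)
    (hsa : ∀ z ∈ U, y ∈ Icc (a.lo z) (a.hi z) → a.hi z - a.lo z ≤ η)
    (hsb : ∀ z ∈ U, t ∈ Icc (b.lo z) (b.hi z) → b.hi z - b.lo z ≤ η) :
    ∀ z ∈ U \ E, a.hi z < y - η → b.hi z ≤ t + η := by
  obtain ⟨δ, hδ, hin⟩ := exists_inner hc hQ
  have hUQ : U ⊆ Q := subset_closure.trans hQ
  have hcl := isClosed_closure (s := U) |>.isOpen_compl
  obtain ⟨G₁, G₂, o1, o2, s1, s2, hG, f1, f2⟩ := quad
    (Xp := {z | z ∈ Q ∧ y < a.lo z} ∪ (closure U)ᶜ) (Xm := {z | z ∈ Q ∧ a.hi z < y} ∩ U)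
    (Yp := {z | z ∈ Q ∧ t < b.lo z} ∩ U) (Ym := {z | z ∈ Q ∧ b.hi z < t} ∪ (closure U)ᶜ)
    ((a.open_lo y).union hcl) ((a.open_hi y).inter hU) ((b.open_lo t).inter hU)
    ((b.open_hi t).union hcl)
    (disjoint_left.2 fun z h1 h2 => h1.elim
      (fun h3 => lt_asymm (h3.2.trans_le (a.le z)) h2.1.2) fun h3 => h3 (subset_closure h2.2))
    (disjoint_left.2 fun z h2 h1 => h1.elim
      (fun h3 => lt_asymm (h2.1.2.trans_le (b.le z)) h3.2) fun h3 => h3 (subset_closure h2.2))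
    (fun z => by
      by_cases h1 : z ∈ closure U
      · have hz := hQ h1
        by_cases h2 : z ∈ U
        · by_contra hn
          simp only [not_or] at hn
          obtain ⟨n1, n2, n3, n4⟩ := hn
          refine hout z h2 ⟨⟨not_lt.1 fun h => n1 (Or.inl ⟨hz, h⟩),
            not_lt.1 fun h => n2 ⟨⟨hz, h⟩, h2⟩⟩, not_lt.1 fun h => n3 ⟨⟨hz, h⟩, h2⟩,
            not_lt.1 fun h => n4 (Or.inl ⟨hz, h⟩)⟩
        · have h3 : z ∈ frontier U := by
            rw [hU.frontier_eq]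
            exact ⟨h1, h2⟩
          rcases hfr z h3 with h | h
          · exact Or.inl (Or.inl ⟨hz, (a.eq z (disjoint_left.1 hf h3)).symm ▸ h⟩)
          · exact Or.inr (Or.inr (Or.inr (Or.inl ⟨hz, h⟩)))
      · exact Or.inl (Or.inr h1))
    (ext_Icc δ (1 - δ) δ (1 - δ))
    (fun z hz => ⟨Or.inr fun h => hz (hin h), Or.inr fun h => hz (hin h)⟩)
  rw [compl_compl] at s1 s2
  have c1 := (closure_minimal s1 (cpt_rect _ _ _ _).isClosed).trans (inner_sub hδ)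
  have c2 := (closure_minimal s2 (cpt_rect _ _ _ _).isClosed).trans (inner_sub hδ)
  intro z hz h1
  by_contra h2
  rw [not_le] at h2
  have h3 := b.eq z hz.2
  rcases hG (show z ∈ _ ∩ _ from ⟨⟨⟨hUQ hz.1, by linarith⟩, hz.1⟩,
    ⟨hUQ hz.1, by linarith⟩, hz.1⟩) with h4 | h4
  · have h5 := (ha G₁ o1 c1 (y - η)).2 (fun w hw => by
      obtain ⟨⟨-, hwU⟩, n⟩ := f1 hw
      have m1 : a.lo w ≤ y := not_lt.1 fun h => n (Or.inl (Or.inl ⟨hUQ hwU, h⟩))
      have m2 : y ≤ a.hi w := not_lt.1 fun h => n (Or.inr ⟨⟨hUQ hwU, h⟩, hwU⟩)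
      have := hsa w hwU ⟨m1, m2⟩
      linarith) z h4
    have := a.le z
    linarith
  · have h5 := (hb G₂ o2 c2 (t + η)).1 (fun w hw => by
      obtain ⟨⟨-, hwU⟩, n⟩ := f2 hw
      have m1 : b.lo w ≤ t := not_lt.1 fun h => n (Or.inl ⟨⟨hUQ hwU, h⟩, hwU⟩)
      have m2 : t ≤ b.hi w := not_lt.1 fun h => n (Or.inr (Or.inl ⟨hUQ hwU, h⟩))
      have := hsb w hwU ⟨m1, m2⟩
      linarith) z h4
    linarith

theorem whisk_dn (hE : Dom E) {a b : TF E} (ha : a.Mono) (hb : b.Mono) {U : Set ℂ} (hU : IsOpen U)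
    (hc : IsCompact (closure U)) (hQ : closure U ⊆ Q) (hf : Disjoint (frontier U) E) {y t η : ℝ}
    (hη : 0 ≤ η) (hfr : ∀ z ∈ frontier U, a.hi z < y ∨ t < b.hi z)
    (hout : ∀ z ∈ U, (⟨y, t⟩ : ℂ) ∉ a.box b z)
    (hsa : ∀ z ∈ U, y ∈ Icc (a.lo z) (a.hi z) → a.hi z - a.lo z ≤ η)
    (hsb : ∀ z ∈ U, t ∈ Icc (b.lo z) (b.hi z) → b.hi z - b.lo z ≤ η) :
    ∀ z ∈ U \ E, y + η < a.hi z → t - η ≤ b.hi z := by
  intro z hz h1
  have h2 := whisk_up hE ha.neg hb.neg hU hc hQ hf (y := -y) (t := -t) hη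
    (fun w hw => (hfr w hw).imp (fun h => neg_lt_neg ((a.le w).trans_lt h))
      fun h => neg_lt_neg ((b.eq w (disjoint_left.1 hf hw)).symm ▸ h))
    (fun w hw h => hout w hw ⟨⟨neg_le_neg_iff.1 h.1.2, neg_le_neg_iff.1 h.1.1⟩,
      neg_le_neg_iff.1 h.2.2, neg_le_neg_iff.1 h.2.1⟩)
    (fun w hw h => by
      have h3 := hsa w hw ⟨neg_le_neg_iff.1 h.2, neg_le_neg_iff.1 h.1⟩
      show -a.lo w - -a.hi w ≤ η
      linarith)
    (fun w hw h => by
      have h3 := hsb w hw ⟨neg_le_neg_iff.1 h.2, neg_le_neg_iff.1 h.1⟩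
      show -b.lo w - -b.hi w ≤ η
      linarith) z hz (by
      show -a.lo z < -y - η
      rw [a.eq z hz.2]
      linarith)
  change -b.lo z ≤ -t + η at h2
  rw [b.eq z hz.2] at h2
  linarith

end Vale.Agent.P116
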